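import Vale.Agent.P095.Lift.Defs

/-!
# The comparison relation for diagonal matrices

Transitivity, sums and reindexing of `SubD`, domination by larger elements, passage from cuts to
the element itself, and Rørdam's lemma that nearby elements dominate cuts.
-/

noncomputable section

namespace Vale.Agent.P095.Lift

variable {A : Type*} [CStarAlgebra A]

theorem SubD.trans {ι κ μ : Type} [Finite ι] [DecidableEq ι] [DecidableEq κ] [Fintype κ]
    [Fintype μ] {x : ι → A} {y : κ → A} {z : μ → A} (h : SubD x y) (h' : SubD y z) :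
    SubD x z := by
  intro d hd
  cases nonempty_fintype ι
  obtain ⟨R, hR⟩ := h (d / 2) (half_pos hd)
  set T := ∑ q, ∑ i, ‖R q i‖
  obtain ⟨S, hS⟩ := h' (d / 2 / (T ^ 2 + 1)) (by positivity)
  refine ⟨fun p i => ∑ q, S p q * R q i, fun i j => ?_⟩
  set Δ := fun q q' => (∑ p, star (S p q) * z p * S p q') - (if q = q' then y q else 0)
  have e : ∑ p, star (∑ q, S p q * R q i) * z p * (∑ q, S p q * R q j) =
      (∑ q, star (R q i) * y q * R q j) + ∑ q, ∑ q', star (R q i) * Δ q q' * R q' j := by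
    simp only [Δ, mul_sub, sub_mul, Finset.sum_sub_distrib, mul_ite, ite_mul, mul_zero, zero_mul,
      Finset.sum_ite_eq, Finset.mem_univ, if_true, add_sub_cancel]
    simp only [star_sum, star_mul, Finset.sum_mul, Finset.mul_sum, mul_assoc]
    exact ((Finset.sum_congr rfl fun _ _ => Finset.sum_comm).trans Finset.sum_comm).trans
      (Finset.sum_congr rfl fun _ _ => Finset.sum_comm)
  have hle : ∀ k, ∑ q, ‖R q k‖ ≤ T := fun k =>
    Finset.sum_le_sum fun q _ => Finset.single_le_sum (f := fun i => ‖R q i‖)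
      (fun _ _ => norm_nonneg _) (Finset.mem_univ k)
  have herr : ‖∑ q, ∑ q', star (R q i) * Δ q q' * R q' j‖ ≤ d / 2 := by
    calc ‖∑ q, ∑ q', star (R q i) * Δ q q' * R q' j‖
        ≤ ∑ q, ∑ q', ‖R q i‖ * (d / 2 / (T ^ 2 + 1)) * ‖R q' j‖ := by
          refine (norm_sum_le _ _).trans (Finset.sum_le_sum fun q _ => (norm_sum_le _ _).trans
            (Finset.sum_le_sum fun q' _ => (norm_mul₃_le ..).trans ?_))
          rw [norm_star]
          exact mul_le_mul_of_nonneg_right
            (mul_le_mul_of_nonneg_left (hS q q').le (norm_nonneg _)) (norm_nonneg _)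
      _ = (∑ q, ‖R q i‖) * (∑ q, ‖R q j‖) * (d / 2 / (T ^ 2 + 1)) := by
          rw [Finset.sum_mul_sum, Finset.sum_mul]
          refine Finset.sum_congr rfl fun q _ => ?_
          rw [Finset.sum_mul]
          exact Finset.sum_congr rfl fun q' _ => by ring
      _ ≤ T * T * (d / 2 / (T ^ 2 + 1)) := by
          exact mul_le_mul_of_nonneg_right (mul_le_mul (hle i) (hle j)
            (Finset.sum_nonneg fun _ _ => norm_nonneg _)
            ((Finset.sum_nonneg fun _ _ => norm_nonneg _).trans (hle i))) (by positivity)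
      _ ≤ d / 2 := by
          rw [mul_div_assoc', div_le_iff₀ (by positivity)]
          nlinarith
  calc ‖(∑ p, star (∑ q, S p q * R q i) * z p * (∑ q, S p q * R q j)) -
        (if i = j then x i else 0)‖
      = ‖((∑ q, star (R q i) * y q * R q j) - (if i = j then x i else 0)) +
          ∑ q, ∑ q', star (R q i) * Δ q q' * R q' j‖ := by rw [e, add_sub_right_comm]
    _ ≤ _ := norm_add_le _ _
    _ < d / 2 + d / 2 := add_lt_add_of_lt_of_le (hR i j) herr
    _ = d := add_halves d

theorem Sub.trans {k l m : ℕ} {x y z : A} (h : Sub k x l y) (h' : Sub l y m z) : Sub k x m z :=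
  SubD.trans h h'

theorem SubD.sum {ι ι' κ κ' : Type} [DecidableEq ι] [DecidableEq ι'] [Fintype κ] [Fintype κ']
    {x : ι → A} {x' : ι' → A} {y : κ → A} {y' : κ' → A} (h : SubD x y) (h' : SubD x' y') :
    SubD (Sum.elim x x') (Sum.elim y y') := by
  intro d hd
  obtain ⟨R, hR⟩ := h d hd
  obtain ⟨R', hR'⟩ := h' d hd
  refine ⟨Sum.elim (fun p => Sum.elim (R p) 0) (fun p => Sum.elim 0 (R' p)), ?_⟩
  rintro (i | i) (j | j) <;> simp [Fintype.sum_sum_type, hd, hR, hR']

theorem SubD.reindex {ι ι' κ κ' : Type} [DecidableEq ι] [DecidableEq ι'] [Fintype κ] [Fintype κ']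
    {x : ι → A} {y : κ → A} (h : SubD x y) (e : ι' → ι) (he : e.Injective) (g : κ → κ')
    (hg : g.Injective) {y' : κ' → A} (hy : ∀ p, y' (g p) = y p) : SubD (x ∘ e) y' := by
  intro d hd
  obtain ⟨R, hR⟩ := h d hd
  refine ⟨fun q i => Function.extend g (fun p => R p (e i)) 0 q, fun i j => ?_⟩
  have hsum : ∑ q, star (Function.extend g (fun p => R p (e i)) 0 q) * y' q *
      Function.extend g (fun p => R p (e j)) 0 q = ∑ p, star (R p (e i)) * y p * R p (e j) := by
    refine (Fintype.sum_of_injective g hg _ _ (fun q hq => ?_) (fun p => ?_)).symm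
    · rw [Function.extend_apply' _ _ _ (by simpa using hq)]
      simp
    · rw [hg.extend_apply, hg.extend_apply, hy]
  rw [hsum]
  simpa [he.eq_iff] using hR (e i) (e j)

/-- Entrywise subequivalence gives subequivalence of diagonal matrices. -/
theorem SubD.of_forall {ι : Type} [Fintype ι] [DecidableEq ι] {x y : ι → A}
    (h : ∀ i, ∀ d : ℝ, 0 < d → ∃ R : A, ‖star R * y i * R - x i‖ < d) : SubD x y := by
  intro d hd
  choose R hR using fun i => h i d hd
  refine ⟨fun p i => if p = i then R i else 0, fun i j => ?_⟩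
  rcases eq_or_ne i j with rfl | hij
  · simpa [ite_mul, mul_ite, apply_ite star] using hR i
  · simpa [ite_mul, mul_ite, apply_ite star, hij, hij.symm] using hd

variable [PartialOrder A] [StarOrderedRing A]

/-- A larger element dominates, by a contraction. -/
theorem exists_contraction_conj_of_le {x y : A} (hx : 0 ≤ x) (hxy : x ≤ y) {d : ℝ} (hd : 0 < d) :
    ∃ R : A, R * star R ≤ 1 ∧ ‖star R * y * R - x‖ < d := by
  have hy0 : 0 ≤ y := hx.trans hxy
  have hy : IsSelfAdjoint y := hy0.isSelfAdjoint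
  set δ : ℝ := d / 2 with hδd
  have hδ : 0 < δ := half_pos hd
  set g : ℝ → ℝ := fun t => (Real.sqrt (|t| + δ))⁻¹
  have hg : Continuous g := (continuous_abs.add continuous_const).sqrt.inv₀ fun t =>
    (Real.sqrt_pos.2 (by linarith [abs_nonneg t] : (0 : ℝ) < |t| + δ)).ne'
  set b := cfc g y
  have hb : IsSelfAdjoint b := cfc_predicate g y
  have hgg : ∀ t : ℝ, 0 ≤ t → g t * g t = (t + δ)⁻¹ := fun t ht => by
    simp only [g]
    rw [← mul_inv, Real.mul_self_sqrt (by positivity), abs_of_nonneg ht]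
  have e1 : b * y * b = cfc (fun t => g t * t * g t) y := by
    rw [cfc_mul (fun t => g t * t) g y (hg.mul continuous_id).continuousOn hg.continuousOn,
      cfc_mul g (fun t => t) y hg.continuousOn continuousOn_id, cfc_id' ℝ y]
  have hle1 : b * y * b ≤ 1 := by
    rw [e1]
    refine cfc_le_one _ _ fun t ht => ?_
    have h0 := spectrum_nonneg_of_nonneg hy0 ht
    rw [mul_right_comm, hgg t h0, inv_mul_le_iff₀ (by positivity)]
    linarith
  have e2 : 1 - b * y * b = δ • (b * b) := by
    rw [e1, ← cfc_const_one ℝ y,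
      ← cfc_sub (fun _ => (1 : ℝ)) (fun t => g t * t * g t) y continuousOn_const
        ((hg.mul continuous_id).mul hg).continuousOn,
      ← cfc_mul g g y hg.continuousOn hg.continuousOn,
      ← cfc_smul δ (fun t => g t * g t) y (hg.mul hg).continuousOn]
    refine cfc_congr fun t ht => ?_
    have h0 := spectrum_nonneg_of_nonneg hy0 ht
    rw [smul_eq_mul, mul_right_comm, hgg t h0]
    field_simp
    ring
  set s := CFC.sqrt x
  have hs : IsSelfAdjoint s := (CFC.sqrt_nonneg x).isSelfAdjoint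
  have hbs : b * s * star (b * s) ≤ 1 := by
    rw [show b * s * star (b * s) = b * x * b by
      rw [star_mul, hs.star_eq, hb.star_eq, ← CFC.sqrt_mul_sqrt_self x hx]
      simp only [s, mul_assoc]]
    exact (hb.conjugate_le_conjugate hxy).trans hle1
  refine ⟨b * s, hbs, ?_⟩
  have e3 : star (b * s) * y * (b * s) - x = -(δ • (star (b * s) * (b * s))) := by
    have e4 : star (b * s) * (b * s) = s * (b * b) * s := by
      rw [star_mul, hs.star_eq, hb.star_eq]; simp only [mul_assoc]
    rw [e4, ← smul_mul_assoc, ← mul_smul_comm, ← e2, mul_sub, mul_one, sub_mul,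
      CFC.sqrt_mul_sqrt_self x hx, star_mul, hs.star_eq, hb.star_eq, neg_sub]
    simp only [mul_assoc]
  have h1 : ‖b * s * star (b * s)‖ ≤ 1 :=
    (CStarAlgebra.norm_le_one_iff_of_nonneg _ (mul_star_self_nonneg _)).2 hbs
  rw [e3, norm_neg, norm_smul, Real.norm_of_nonneg hδ.le, CStarRing.norm_star_mul_self,
    ← CStarRing.norm_self_mul_star]
  nlinarith [norm_nonneg (b * s * star (b * s))]

/-- A larger element dominates. -/
theorem exists_conj_eq_of_le {x y : A} (hx : 0 ≤ x) (hxy : x ≤ y) {d : ℝ} (hd : 0 < d) :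
    ∃ R : A, ‖star R * y * R - x‖ < d :=
  (exists_contraction_conj_of_le hx hxy hd).imp fun _ h => h.2

theorem subD_of_le {x y : A} (hx : 0 ≤ x) (hxy : x ≤ y) : Sub 1 x 1 y :=
  SubD.of_forall fun _ _ hd => exists_conj_eq_of_le hx hxy hd

theorem sub_refl {k : ℕ} {x : A} (hx : 0 ≤ x) : Sub k x k x :=
  SubD.of_forall fun _ _ hd => exists_conj_eq_of_le hx le_rfl hd

theorem norm_cut_sub_self_le {x : A} (hx : 0 ≤ x) {ξ : ℝ} (hξ : 0 ≤ ξ) :
    ‖cfc (fun t : ℝ => max (t - ξ) 0) x - x‖ ≤ ξ := by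
  have hxs : IsSelfAdjoint x := hx.isSelfAdjoint
  conv_lhs => enter [1, 2]; rw [← cfc_id' ℝ x]
  rw [← cfc_sub _ _ x]
  refine norm_cfc_le hξ fun t ht => ?_
  have h0 := spectrum_nonneg_of_nonneg hx ht
  rw [Real.norm_eq_abs, abs_le]
  rcases le_total (t - ξ) 0 with h | h
  · rw [max_eq_right h]; constructor <;> linarith
  · rw [max_eq_left h]; constructor <;> linarith

theorem SubD.of_cut {ι κ : Type} [DecidableEq ι] [Fintype κ] {x : ι → A} {y : κ → A}
    (hx : ∀ i, 0 ≤ x i)
    (h : ∀ ξ : ℝ, 0 < ξ → SubD (fun i => cfc (fun t : ℝ => max (t - ξ) 0) (x i)) y) :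
    SubD x y := by
  intro d hd
  obtain ⟨R, hR⟩ := h (d / 2) (half_pos hd) (d / 2) (half_pos hd)
  refine ⟨R, fun i j => ?_⟩
  calc ‖(∑ p, star (R p i) * y p * R p j) - (if i = j then x i else 0)‖
      ≤ ‖(∑ p, star (R p i) * y p * R p j) -
            (if i = j then cfc (fun t : ℝ => max (t - d / 2) 0) (x i) else 0)‖ +
          ‖(if i = j then cfc (fun t : ℝ => max (t - d / 2) 0) (x i) else 0) -
            (if i = j then x i else 0)‖ := norm_sub_le_norm_sub_add_norm_sub _ _ _
    _ < d / 2 + d / 2 := by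
        refine add_lt_add_of_lt_of_le (hR i j) ?_
        split_ifs
        · exact norm_cut_sub_self_le (hx i) (half_pos hd).le
        · rw [sub_zero, norm_zero]
          exact (half_pos hd).le
    _ = d := add_halves d

theorem sub_of_cut {k l : ℕ} {x y : A} (hx : 0 ≤ x)
    (h : ∀ ξ : ℝ, 0 < ξ → Sub k (cfc (fun t : ℝ => max (t - ξ) 0) x) l y) : Sub k x l y :=
  SubD.of_cut (fun _ => hx) h

/-- Rørdam: nearby elements dominate cuts. -/
theorem exists_conj_eq_cut {x z : A} {θ ξ : ℝ} (hx : 0 ≤ x) (hz : 0 ≤ z) (hθ : θ < ξ)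
    (h : ‖z - x‖ ≤ θ) {d : ℝ} (hd : 0 < d) :
    ∃ R : A, ‖star R * z * R - cfc (fun t : ℝ => max (t - ξ) 0) x‖ < d := by
  have hxs : IsSelfAdjoint x := hx.isSelfAdjoint
  set g : ℝ → ℝ := fun t => Real.sqrt (max (t - ξ) 0 / (max t ξ - θ))
  have hden : ∀ t : ℝ, 0 < max t ξ - θ := fun t => by linarith [le_max_right t ξ]
  have hg : Continuous g :=
    ((continuous_id.sub continuous_const).max continuous_const).div₀
      ((continuous_id.max continuous_const).sub continuous_const) (fun t => (hden t).ne') |>.sqrt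
  set p := cfc g x
  have hp : IsSelfAdjoint p := cfc_predicate g x
  have e1 : p * (x - algebraMap ℝ A θ) * p = cfc (fun t : ℝ => max (t - ξ) 0) x := by
    conv_lhs => rw [← cfc_id' ℝ x, ← cfc_const θ x, ← cfc_sub _ _ x]
    rw [← cfc_mul g _ x, ← cfc_mul _ g x]
    refine cfc_congr fun t _ => ?_
    have h2 : g t * g t = max (t - ξ) 0 / (max t ξ - θ) :=
      Real.mul_self_sqrt (div_nonneg (le_max_right _ _) (hden t).le)
    rw [mul_right_comm, h2]
    rcases le_total (t - ξ) 0 with h' | h'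
    · rw [max_eq_right h', zero_div, zero_mul]
    · rw [max_eq_left h', max_eq_left (by linarith : ξ ≤ t)]
      exact div_mul_cancel₀ _ (by linarith)
  have h3 : x - algebraMap ℝ A θ ≤ z := by
    have h4 : -algebraMap ℝ A θ ≤ z - x := (neg_le_neg (algebraMap_mono A h)).trans
      (hz.isSelfAdjoint.sub hxs).neg_algebraMap_norm_le_self
    rw [← sub_nonneg] at h4 ⊢
    convert h4 using 1
    abel
  have h5 : cfc (fun t : ℝ => max (t - ξ) 0) x ≤ p * z * p :=
    e1 ▸ hp.conjugate_le_conjugate h3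
  obtain ⟨R, hR⟩ := exists_conj_eq_of_le (cfc_nonneg fun _ _ => le_max_right _ _) h5 hd
  refine ⟨p * R, ?_⟩
  rwa [star_mul, hp.star_eq, show star R * p * z * (p * R) = star R * (p * z * p) * R by
    simp only [mul_assoc]]

end Vale.Agent.P095.Lift
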