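import Vale.Agent.P095.Amenable.Trace
import Vale.Agent.P095.Lift.Sub

/-!
# A column witnessing strict domination in trace

If `w` dominates `e` in every tracial state by a fixed amount, then `e` is approximately
`∑ star (z i) * w * z i` for a family with `∑ z i * star (z i) ≤ 1`.
-/

noncomputable section

open Vale.Agent.P095.Amenable (IsTrace)
open scoped ComplexStarModule

namespace Vale.Agent.P095.Lift

variable {A : Type*} [CStarAlgebra A] [PartialOrder A] [StarOrderedRing A]

/-- An element with positive values on all tracial states is positive up to commutators. -/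
theorem exists_comm_nonneg {x : A} (hx : IsSelfAdjoint x)
    (h : ∀ τ : A →ₗ[ℂ] ℂ, IsTrace τ → 0 < (τ x).re) :
    ∃ (m : ℕ) (y : Fin m → A), 0 ≤ x + ∑ j, (y j * star (y j) - star (y j) * y j) := by
  set U : Set A := {a | ∃ r : ℝ, 0 < r ∧ ∃ (m : ℕ) (y : Fin m → A),
    algebraMap ℝ A r ≤ (ℜ a : A) + ∑ j, (y j * star (y j) - star (y j) * y j)}
  by_cases hxU : x ∈ U
  · obtain ⟨r, hr, m, y, hy⟩ := hxU
    rw [hx.coe_realPart] at hy
    exact ⟨m, y, (algebraMap_nonneg A hr.le).trans hy⟩
  exfalso
  have hscale : ∀ (s : ℝ) (m : ℕ) (y : Fin m → A), 0 ≤ s →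
      ∑ j, (Real.sqrt s • y j * star (Real.sqrt s • y j) -
        star (Real.sqrt s • y j) * (Real.sqrt s • y j)) =
        s • ∑ j, (y j * star (y j) - star (y j) * y j) := fun s m y hs => by
    simp only [star_smul, star_trivial, smul_mul_smul_comm, Real.mul_self_sqrt hs, ← smul_sub,
      ← Finset.smul_sum]
  have hsmul : ∀ t : ℝ, 0 < t → ∀ a ∈ U, t • a ∈ U := by
    rintro t ht a ⟨r, hr, m, y, hy⟩
    refine ⟨t * r, mul_pos ht hr, m, fun j => Real.sqrt t • y j, ?_⟩
    rw [hscale t m y ht.le, map_smul, selfAdjoint.val_smul, ← smul_add,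
      Algebra.algebraMap_eq_smul_one, mul_smul, ← Algebra.algebraMap_eq_smul_one]
    exact smul_le_smul_of_nonneg_left hy ht.le
  have hadd : ∀ a ∈ U, ∀ b ∈ U, a + b ∈ U := by
    rintro a ⟨r, hr, m, y, hy⟩ b ⟨r', hr', m', y', hy'⟩
    refine ⟨r + r', add_pos hr hr', m + m', Fin.append y y', ?_⟩
    simp only [Fin.sum_univ_add, Fin.append_left, Fin.append_right, map_add, AddSubgroup.coe_add]
    exact (add_le_add hy hy').trans_eq (add_add_add_comm _ _ _ _)
  have hconv : Convex ℝ U := by
    intro a ha b hb s t hs ht hst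
    rcases hs.eq_or_lt with rfl | hs'
    · rw [zero_smul, zero_add]; rw [zero_add] at hst; rwa [hst, one_smul]
    rcases ht.eq_or_lt with rfl | ht'
    · rw [zero_smul, add_zero]; rw [add_zero] at hst; rwa [hst, one_smul]
    exact hadd _ (hsmul s hs' a ha) _ (hsmul t ht' b hb)
  have hopen : IsOpen U := by
    rw [Metric.isOpen_iff]
    rintro a ⟨r, hr, m, y, hy⟩
    refine ⟨r / 2, half_pos hr, fun b hb => ⟨r / 2, half_pos hr, m, y, ?_⟩⟩
    rw [Metric.mem_ball, dist_eq_norm] at hb
    have h1 : -algebraMap ℝ A (r / 2) ≤ (ℜ (b - a) : A) :=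
      (neg_le_neg (algebraMap_mono A
        (le_trans (realPart.norm_le (b - a)) hb.le))).trans
        (ℜ (b - a)).2.neg_algebraMap_norm_le_self
    rw [map_sub, AddSubgroupClass.coe_sub] at h1
    have h2 := add_le_add hy h1
    have e : algebraMap ℝ A r = algebraMap ℝ A (r / 2) + algebraMap ℝ A (r / 2) := by
      rw [← map_add, add_halves]
    rw [← sub_nonneg] at h2 ⊢
    convert h2 using 1
    rw [e]
    abel
  obtain ⟨f, hf⟩ := geometric_hahn_banach_open_point hconv hopen hxU
  have hone : (1 : A) ∈ U := ⟨1, one_pos, 0, Fin.elim0, by simp⟩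
  have hle : ∀ a ∈ U, f a ≤ 0 := fun a ha => by
    by_contra! hpos
    have := hf _ (hsmul ((|f x| + 1) / f a) (by positivity) a ha)
    rw [map_smul, smul_eq_mul, div_mul_cancel₀ _ hpos.ne'] at this
    linarith [le_abs_self (f x)]
  have hfx : 0 ≤ f x := by
    by_contra! hneg
    have h1 := hf 1 hone
    have h1' : f 1 < 0 := h1.trans hneg
    have := hf _ (hsmul (f x / (2 * f 1)) (div_pos_of_neg_of_neg hneg (by linarith)) 1 hone)
    rw [map_smul, smul_eq_mul, div_mul_eq_mul_div, mul_div_mul_right _ _ h1'.ne] at this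
    linarith
  have hf1 : f 1 < 0 := by
    refine (hle 1 hone).lt_of_ne fun h0 => ?_
    obtain ⟨ρ, hρ, hball⟩ := Metric.isOpen_iff.1 hopen 1 hone
    have hb : ∀ b, f b ≤ 0 := fun b => by
      have hk : 0 < ρ / (‖b‖ + 1) := by positivity
      have := hle _ (hball (show (1 : A) + (ρ / (‖b‖ + 1)) • b ∈ Metric.ball 1 ρ by
        rw [Metric.mem_ball, dist_eq_norm, add_sub_cancel_left, norm_smul,
          Real.norm_of_nonneg hk.le, div_mul_eq_mul_div, div_lt_iff₀ (by positivity)]
        nlinarith [norm_nonneg b]))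
      rw [map_add, h0, zero_add, map_smul, smul_eq_mul] at this
      exact nonpos_of_mul_nonpos_right this hk
    have hz : f x = 0 := le_antisymm (hb x) hfx
    linarith [hf 1 hone]
  have hcone : ∀ (a : A) (m : ℕ) (y : Fin m → A),
      0 ≤ (ℜ a : A) + ∑ j, (y j * star (y j) - star (y j) * y j) → f a ≤ 0 := fun a m y hy => by
    refine le_of_forall_pos_le_add fun ε hε => ?_
    have hk : 0 < ε / -f 1 := div_pos hε (neg_pos.2 hf1)
    have hU : a + (ε / -f 1) • (1 : A) ∈ U := ⟨ε / -f 1, hk, m, y, by
      rw [map_add, AddSubgroup.coe_add, map_smul, selfAdjoint.val_smul,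
        (IsSelfAdjoint.one A).coe_realPart, add_right_comm, ← Algebra.algebraMap_eq_smul_one]
      exact le_add_of_nonneg_left hy⟩
    have := hle _ hU
    rw [map_add, map_smul, smul_eq_mul, div_mul_eq_mul_div] at this
    have e : ε * f 1 / -f 1 = -ε := by
      have := hf1.ne
      field_simp
    linarith
  have hpos : ∀ p, 0 ≤ p → f p ≤ 0 := fun p hp =>
    hcone p 0 Fin.elim0 (by simpa [(IsSelfAdjoint.of_nonneg hp).coe_realPart] using hp)
  have hskew : ∀ a : A, star a = -a → f a = 0 := fun a ha => by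
    have h0 : (ℜ a : A) = 0 := by rw [realPart_apply_coe, ha, add_neg_cancel, smul_zero]
    refine le_antisymm (hcone a 0 Fin.elim0 (by simp [h0])) ?_
    have := hcone (-a) 0 Fin.elim0 (by simp [h0])
    rw [map_neg] at this
    linarith
  have hstar : ∀ a : A, f (star a) = f a := fun a => by
    have := hskew (star a - a) (by simp)
    rw [map_sub, sub_eq_zero] at this
    exact this
  have hcomm0 : ∀ u : A, f (u * star u) ≤ f (star u * u) := fun u => by
    have hsa : IsSelfAdjoint (u * star u - star u * u) :=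
      (IsSelfAdjoint.mul_star_self u).sub (IsSelfAdjoint.star_mul_self u)
    have := hcone (u * star u - star u * u) 1 (fun _ => star u) (by
      rw [Fin.sum_univ_one, hsa.coe_realPart, star_star]
      exact le_of_eq (by abel))
    rw [map_sub] at this
    linarith
  have hcomm1 : ∀ u : A, f (u * star u) = f (star u * u) := fun u =>
    le_antisymm (hcomm0 u) (by simpa using hcomm0 (star u))
  have hcomm : ∀ a b : A, f (a * b) = f (b * a) := fun a b => by
    have := hcomm1 (a + star b)
    simp only [star_add, star_star, add_mul, mul_add, map_add] at this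
    rw [hcomm1 a] at this
    have e1 : f (star b * star a) = f (a * b) := by rw [← hstar (a * b), star_mul]
    have e2 : f (star a * star b) = f (b * a) := by rw [← hstar (b * a), star_mul]
    have e3 := hcomm1 b
    linarith
  set τ : A →ₗ[ℂ] ℂ := ((f 1 : ℝ) : ℂ)⁻¹ • Module.Dual.extendRCLike (𝕜 := ℂ) f.toLinearMap
  have hτ : ∀ a : A, τ a = ((f 1 : ℝ) : ℂ)⁻¹ * ((f a : ℂ) - Complex.I * (f (Complex.I • a) : ℂ)) :=
    fun a => rfl
  have hI : ∀ p : A, IsSelfAdjoint p → f (Complex.I • p) = 0 := fun p hp =>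
    hskew _ (by simp [hp.star_eq])
  have htr : IsTrace τ :=
    { map_one := by
        rw [hτ, hI 1 (IsSelfAdjoint.one A), Complex.ofReal_zero, mul_zero, sub_zero,
          inv_mul_cancel₀ (Complex.ofReal_ne_zero.2 hf1.ne)]
      nonneg := fun a => by
        rw [hτ, hI _ (IsSelfAdjoint.star_mul_self a), Complex.ofReal_zero, mul_zero, sub_zero,
          ← Complex.ofReal_inv, ← Complex.ofReal_mul]
        exact Complex.zero_le_real.2
          (mul_nonneg_of_nonpos_of_nonpos (inv_nonpos.2 hf1.le) (hpos _ (star_mul_self_nonneg a)))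
      comm := fun a b => by
        rw [hτ, hτ, hcomm a b, show Complex.I • (a * b) = (Complex.I • a) * b from
          (smul_mul_assoc ..).symm, hcomm (Complex.I • a) b, mul_smul_comm] }
  have := h τ htr
  rw [hτ, hI x hx, Complex.ofReal_zero, mul_zero, sub_zero, ← Complex.ofReal_inv,
    ← Complex.ofReal_mul, Complex.ofReal_re] at this
  nlinarith [mul_nonpos_of_nonpos_of_nonneg (inv_nonpos.2 hf1.le) hfx]

/-- The series of columns. -/
theorem exists_column_series {m : ℕ} {e' w D b : A} (y : Fin m → A) {κ : ℝ} (hκ : 0 < κ)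
    (hκ1 : κ ≤ 1) (he' : 0 ≤ e') (hD0 : 0 ≤ D) (hb : IsSelfAdjoint b) (hbDb : b * D * b = 1)
    (hD : D = w + ∑ j, y j * star (y j)) (hD' : D = e' + ∑ j, star (y j) * y j)
    (hw : κ • D ≤ w) {η : ℝ} (hη : 0 < η) :
    ∃ (n : ℕ) (z : Fin n → A), ‖(∑ i, star (z i) * w * z i) - e'‖ ≤ η ∧
      ∑ i, z i * star (z i) ≤ 1 := by
  set s := CFC.sqrt e'
  have hs : IsSelfAdjoint s := (CFC.sqrt_nonneg e').isSelfAdjoint
  have hss : s * s = e' := CFC.sqrt_mul_sqrt_self e' he'
  set Φ : A → A := fun X => ∑ j, y j * (b * X * b) * star (y j)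
  have hmono : ∀ X Y, X ≤ Y → Φ X ≤ Φ Y := fun X Y hXY => Finset.sum_le_sum fun j _ =>
    star_right_conjugate_le_conjugate (hb.conjugate_le_conjugate hXY) _
  have hfam : ∀ r : ℕ, ∃ (n : ℕ) (z : Fin n → A), (∀ X, ∑ i, star (z i) * X * z i =
      ∑ i ∈ Finset.range r, s * b * Φ^[i] X * b * s) ∧ ∑ i, z i * star (z i) ≤ 1 := by
    intro r
    induction r with
    | zero => exact ⟨0, Fin.elim0, by simp, by simp⟩
    | succ r ih =>
      obtain ⟨n, z, hz, hz1⟩ := ih
      set z' : Option (Fin m × Fin n) → A := fun o =>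
        o.elim (b * s) fun p => b * star (y p.1) * z p.2
      set eq := (Fintype.equivFin (Option (Fin m × Fin n))).symm
      refine ⟨_, fun i => z' (eq i), fun X => ?_, ?_⟩
      · rw [eq.sum_comp (fun o => star (z' o) * X * z' o) , Fintype.sum_option,
          Finset.sum_range_succ', Function.iterate_zero_apply]
        simp only [Function.iterate_succ_apply]
        rw [← hz (Φ X), add_comm, Fintype.sum_prod_type_right]
        simp only [z', Φ, Option.elim_none, Option.elim_some, star_mul, star_star, hb.star_eq,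
          hs.star_eq, Finset.mul_sum, Finset.sum_mul, mul_assoc]
      · rw [eq.sum_comp (fun o => z' o * star (z' o)), Fintype.sum_option, Fintype.sum_prod_type]
        have e : ∀ j, ∑ k, z' (some (j, k)) * star (z' (some (j, k))) =
            b * (star (y j) * (∑ k, z k * star (z k)) * y j) * b := fun j => by
          simp only [z', Option.elim_some, star_mul, star_star, hb.star_eq, Finset.mul_sum,
            Finset.sum_mul, mul_assoc]
        simp only [e]
        calc z' none * star (z' none) +
            ∑ j, b * (star (y j) * (∑ k, z k * star (z k)) * y j) * b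
            ≤ b * e' * b + ∑ j, b * (star (y j) * 1 * y j) * b := by
              refine add_le_add (le_of_eq ?_) (Finset.sum_le_sum fun j _ =>
                hb.conjugate_le_conjugate (star_left_conjugate_le_conjugate hz1 _))
              simp only [z', Option.elim_none, star_mul, hb.star_eq, hs.star_eq, ← hss, mul_assoc]
          _ = 1 := by
              simp only [mul_one]
              rw [← Finset.sum_mul, ← Finset.mul_sum, ← add_mul, ← mul_add, ← hD', hbDb]
  have hΦD : Φ D = D - w := by
    simp only [Φ, hbDb, mul_one]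
    exact eq_sub_of_add_eq' hD.symm
  have hsub : ∀ i X Y, Φ^[i] (X - Y) = Φ^[i] X - Φ^[i] Y := by
    intro i
    induction i with
    | zero => simp
    | succ i ih =>
      intro X Y
      rw [Function.iterate_succ_apply, Function.iterate_succ_apply, Function.iterate_succ_apply,
        ← ih]
      simp only [Φ, mul_sub, sub_mul, Finset.sum_sub_distrib]
  have htel : ∀ r, ∑ i ∈ Finset.range r, Φ^[i] w = D - Φ^[r] D := fun r => by
    have hw' : w = D - Φ D := by rw [hΦD, sub_sub_cancel]
    rw [hw']
    simp only [hsub, ← Function.iterate_succ_apply]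
    exact Finset.sum_range_sub' (fun i => Φ^[i] D) r
  have hbd : ∀ r, 0 ≤ Φ^[r] D ∧ Φ^[r] D ≤ (1 - κ) ^ r • D := by
    intro r
    induction r with
    | zero => simp [hD0]
    | succ r ih =>
      rw [Function.iterate_succ_apply']
      refine ⟨Finset.sum_nonneg fun j _ =>
        star_right_conjugate_nonneg (hb.conjugate_nonneg ih.1) _, (hmono _ _ ih.2).trans ?_⟩
      have e : Φ ((1 - κ) ^ r • D) = (1 - κ) ^ r • Φ D := by
        simp only [Φ, mul_smul_comm, smul_mul_assoc, Finset.smul_sum]
      rw [e, pow_succ, mul_smul, hΦD, sub_smul, one_smul]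
      exact smul_le_smul_of_nonneg_left (sub_le_sub_left hw D) (pow_nonneg (by linarith) r)
  have hlim : Filter.Tendsto (fun r => (1 - κ) ^ r * ‖e'‖) Filter.atTop (nhds 0) := by
    simpa using (tendsto_pow_atTop_nhds_zero_of_lt_one (by linarith) (by linarith)).mul_const ‖e'‖
  obtain ⟨r, hr⟩ := (hlim.eventually (Iio_mem_nhds hη)).exists
  obtain ⟨n, z, hz, hz1⟩ := hfam r
  refine ⟨n, z, ?_, hz1⟩
  have hsb : ∀ X, 0 ≤ X → 0 ≤ s * b * X * b * s := fun X hX => by
    simpa only [mul_assoc] using hs.conjugate_nonneg (hb.conjugate_nonneg hX)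
  have e1 : s * b * D * b * s = e' := by
    rw [show s * b * D * b * s = s * (b * D * b) * s by simp only [mul_assoc], hbDb, mul_one, hss]
  rw [hz w, ← Finset.sum_mul, ← Finset.sum_mul, ← Finset.mul_sum, htel r, mul_sub, sub_mul,
    sub_mul, e1, sub_sub_cancel_left, norm_neg]
  refine (CStarAlgebra.norm_le_norm_of_nonneg_of_le (hsb _ (hbd r).1)
    (show s * b * Φ^[r] D * b * s ≤ (1 - κ) ^ r • e' from ?_)).trans ?_
  · have := hsb _ (sub_nonneg.2 (hbd r).2)
    rwa [mul_sub, sub_mul, sub_mul, mul_smul_comm, smul_mul_assoc, smul_mul_assoc, e1,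
      sub_nonneg] at this
  · rw [norm_smul, Real.norm_of_nonneg (pow_nonneg (by linarith) r)]
    exact hr.le

theorem exists_column {e w : A} (he : 0 ≤ e) {c : ℝ} (hc : 0 < c)
    (hw : c • (1 : A) ≤ w) {d : ℝ} (hd : 0 < d)
    (h : ∀ τ : A →ₗ[ℂ] ℂ, IsTrace τ → d ≤ (τ (w - e)).re) {η : ℝ} (hη : 0 < η) :
    ∃ (n : ℕ) (z : Fin n → A), ‖(∑ i, star (z i) * w * z i) - e‖ ≤ η ∧
      ∑ i, z i * star (z i) ≤ 1 := by
  rw [← Algebra.algebraMap_eq_smul_one] at hw
  have hws : IsSelfAdjoint w := .of_nonneg ((algebraMap_nonneg A hc.le).trans hw)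
  obtain ⟨m, y, hy⟩ := exists_comm_nonneg (hws.sub he.isSelfAdjoint)
    fun τ hτ => hd.trans_le (h τ hτ)
  set D := w + ∑ j, y j * star (y j)
  set e' := D - ∑ j, star (y j) * y j
  have hee' : e ≤ e' := by
    rw [← sub_nonneg] at hy ⊢
    convert hy using 1
    simp only [e', D, Finset.sum_sub_distrib]
    abel
  have hwD : w ≤ D := le_add_of_nonneg_right (Finset.sum_nonneg fun j _ => mul_star_self_nonneg _)
  have hD0 : 0 ≤ D := (algebraMap_nonneg A hc.le).trans (hw.trans hwD)
  have hDs : IsSelfAdjoint D := hD0.isSelfAdjoint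
  have hspec := (algebraMap_le_iff_le_spectrum (a := D)).1 (hw.trans hwD)
  set g : ℝ → ℝ := fun t => (Real.sqrt (max t c))⁻¹
  have hg : Continuous g := (continuous_id.max continuous_const).sqrt.inv₀ fun t =>
    (Real.sqrt_pos.2 (hc.trans_le (le_max_right t c))).ne'
  set b := cfc g D
  have hbDb : b * D * b = 1 := by
    conv_lhs => enter [1, 2]; rw [← cfc_id' ℝ D]
    rw [← cfc_mul g _ D hg.continuousOn,
      ← cfc_mul (fun t => g t * t) g D (hg.mul continuous_id).continuousOn hg.continuousOn,
      ← cfc_const_one ℝ D]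
    refine cfc_congr fun t ht => ?_
    simp only [g]
    rw [mul_right_comm, ← mul_inv, max_eq_left (hspec t ht),
      Real.mul_self_sqrt (hc.le.trans (hspec t ht)), inv_mul_cancel₀ (hc.trans_le (hspec t ht)).ne']
  set κ := c / (‖D‖ + c)
  have hκ1 : κ ≤ 1 := (div_le_one (by positivity)).2 (by linarith [norm_nonneg D])
  have hκD : κ • D ≤ w := by
    refine le_trans ?_ hw
    refine (smul_le_smul_of_nonneg_left hDs.le_algebraMap_norm_self (by positivity)).trans ?_
    rw [Algebra.algebraMap_eq_smul_one, smul_smul, ← Algebra.algebraMap_eq_smul_one]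
    refine algebraMap_mono A ?_
    rw [div_mul_eq_mul_div, div_le_iff₀ (by positivity)]
    nlinarith
  obtain ⟨n, z, hz, hz1⟩ := exists_column_series y (by positivity) hκ1 (he.trans hee') hD0
    (cfc_predicate g D) hbDb rfl (sub_add_cancel _ _).symm hκD (half_pos hη)
  obtain ⟨R, hR1, hR⟩ := exists_contraction_conj_of_le he hee' (half_pos hη)
  refine ⟨n, fun i => z i * R, ?_, ?_⟩
  · have e1 : ∑ i, star (z i * R) * w * (z i * R) - e =
        star R * ((∑ i, star (z i) * w * z i) - e') * R + (star R * e' * R - e) := by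
      simp only [mul_sub, sub_mul, Finset.mul_sum, Finset.sum_mul, star_mul, mul_assoc]
      abel
    rw [e1]
    refine (norm_add_le _ _).trans ?_
    have hR' : ‖R‖ ≤ 1 := by
      have := (CStarAlgebra.norm_le_one_iff_of_nonneg _ (mul_star_self_nonneg R)).2 hR1
      rw [CStarRing.norm_self_mul_star] at this
      nlinarith [norm_nonneg R]
    calc ‖star R * ((∑ i, star (z i) * w * z i) - e') * R‖ + ‖star R * e' * R - e‖
        ≤ 1 * (η / 2) * 1 + η / 2 := by
          refine add_le_add ((norm_mul₃_le ..).trans ?_) hR.le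
          rw [norm_star]
          gcongr
      _ = η := by ring
  · refine le_trans (Finset.sum_le_sum fun i _ => ?_) hz1
    rw [show z i * R * star (z i * R) = z i * (R * star R) * star (z i) by
      rw [star_mul]; simp only [mul_assoc]]
    exact (star_right_conjugate_le_conjugate hR1 _).trans_eq (by rw [mul_one])

end Vale.Agent.P095.Lift
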