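import Mathlib

/-!
# P095 Lift C2: matrix tools for the free packing

Permutation matrices as a homomorphism, column bounds, the coset incidence matrix, and the
compression of a Hermitian matrix to the slices orthogonal to its large spectral subspace.
-/

open scoped Matrix Matrix.Norms.L2Operator Kronecker ComplexOrder InnerProductSpace
open Matrix

namespace Vale.Agent.P095.Lift.FreeOp

section Perm

variable {X : Type*} [Fintype X] [DecidableEq X]

/-- the permutation matrix, multiplicative in the permutation -/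
def pm (σ : Equiv.Perm X) : Matrix X X ℂ := Matrix.of fun x y => if σ y = x then 1 else 0

omit [Fintype X] in
theorem pm_one : pm (1 : Equiv.Perm X) = 1 := by
  ext x y
  simp [pm, Matrix.one_apply, eq_comm]

theorem pm_mul (σ τ : Equiv.Perm X) : pm (σ * τ) = pm σ * pm τ := by
  ext x z
  rw [Matrix.mul_apply, Finset.sum_eq_single (τ z)]
  · simp only [pm, of_apply, if_true, mul_one]
    rfl
  · intro y _ hy
    simp [pm, Ne.symm hy]
  · simp

omit [Fintype X] in
theorem pm_conjTranspose (σ : Equiv.Perm X) : (pm σ)ᴴ = pm σ⁻¹ := by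
  ext x y
  simp only [pm, conjTranspose_apply, of_apply]
  by_cases h : σ x = y
  · rw [if_pos h, if_pos (by rw [← h]; simp)]; simp
  · rw [if_neg h, if_neg (fun h' => h (by rw [← h']; simp))]; simp

theorem pm_mulVec (σ : Equiv.Perm X) (x : X → ℂ) (w : X) : (pm σ *ᵥ x) w = x (σ⁻¹ w) := by
  rw [mulVec, dotProduct, Finset.sum_eq_single (σ⁻¹ w)]
  · simp [pm]
  · intro b _ hb
    simp [pm, show σ b ≠ w from fun h => hb (by rw [← h]; simp)]
  · simp

variable {κ : Type*} [Fintype κ] [DecidableEq κ]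

omit [DecidableEq κ] in
theorem kron_pm_mulVec (A : Matrix κ κ ℂ) (σ : Equiv.Perm X) (x : κ × X → ℂ) (a : κ) (w : X) :
    ((A ⊗ₖ pm σ) *ᵥ x) (a, w) = ∑ b, A a b * x (b, σ⁻¹ w) := by
  rw [mulVec, dotProduct, Fintype.sum_prod_type]
  refine Finset.sum_congr rfl fun b _ => ?_
  rw [Finset.sum_eq_single (σ⁻¹ w)]
  · simp [pm]
  · intro c _ hc
    simp [pm, show σ c ≠ w from fun h => hc (by rw [← h]; simp)]
  · simp

end Perm

section Norm

variable {m n : Type*} [Fintype m] [Fintype n] [DecidableEq n]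

theorem opNorm_le_of (A : Matrix m n ℂ) {c : ℝ} (hc : 0 ≤ c)
    (h : ∀ x : n → ℂ, ‖(WithLp.toLp 2 (A *ᵥ x) : EuclideanSpace ℂ m)‖
      ≤ c * ‖(WithLp.toLp 2 x : EuclideanSpace ℂ n)‖) : ‖A‖ ≤ c := by
  rw [Matrix.l2_opNorm_def]
  refine ContinuousLinearMap.opNorm_le_bound _ hc fun x => ?_
  exact h x.ofLp

theorem norm_le_one_of_isometry [DecidableEq m] {A : Matrix m n ℂ} (h : Aᴴ * A = 1) : ‖A‖ ≤ 1 := by
  have h1 : ‖(1 : Matrix n n ℂ)‖ ≤ 1 := opNorm_le_of 1 zero_le_one fun x => by simp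
  have h2 := Matrix.l2_opNorm_conjTranspose_mul_self A
  rw [h] at h2
  nlinarith [norm_nonneg A]

theorem sum_sq_mulVec_le (A : Matrix m n ℂ) {c : ℝ} (h : ‖Aᴴ * A‖ ≤ c) (v : n → ℂ) :
    ∑ p, ‖(A *ᵥ v) p‖ ^ 2 ≤ c * ∑ p, ‖v p‖ ^ 2 := by
  classical
  have h1 := Matrix.l2_opNorm_mulVec A (WithLp.toLp 2 v)
  have h2 : ‖A‖ ^ 2 ≤ c := by rw [sq, ← Matrix.l2_opNorm_conjTranspose_mul_self]; exact h
  have e1 : ∑ p, ‖(A *ᵥ v) p‖ ^ 2 = ‖(WithLp.toLp 2 (A *ᵥ v) : EuclideanSpace ℂ m)‖ ^ 2 := by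
    rw [EuclideanSpace.norm_sq_eq]
  have e2 : ∑ p, ‖v p‖ ^ 2 = ‖(WithLp.toLp 2 v : EuclideanSpace ℂ n)‖ ^ 2 := by
    rw [EuclideanSpace.norm_sq_eq]
  rw [e1, e2]
  refine (pow_le_pow_left₀ (norm_nonneg _) h1 2).trans ?_
  rw [mul_pow]
  exact mul_le_mul_of_nonneg_right h2 (sq_nonneg _)

end Norm

section Column

variable {κ ι : Type*} [Fintype κ] [DecidableEq κ] [Fintype ι]

theorem re_inner_mulVec (A : Matrix κ κ ℂ) (z : EuclideanSpace ℂ κ) :
    ‖toEuclideanCLM (𝕜 := ℂ) A z‖ ^ 2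
      = RCLike.re ⟪z, toEuclideanCLM (𝕜 := ℂ) (star A * A) z⟫_ℂ := by
  rw [map_mul, map_star, ContinuousLinearMap.star_eq_adjoint]
  exact ContinuousLinearMap.apply_norm_sq_eq_inner_adjoint_right _ z

theorem sum_norm_sq_le (Y : ι → Matrix κ κ ℂ) {r : ℝ} (h : ‖∑ j, star (Y j) * Y j‖ ≤ r)
    (z : EuclideanSpace ℂ κ) : ∑ j, ‖toEuclideanCLM (𝕜 := ℂ) (Y j) z‖ ^ 2 ≤ r * ‖z‖ ^ 2 := by
  simp only [re_inner_mulVec]
  rw [← map_sum, ← inner_sum, ← _root_.sum_apply, ← map_sum]
  refine (RCLike.re_le_norm _).trans ((norm_inner_le_norm _ _).trans ?_)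
  refine (mul_le_mul_of_nonneg_left (ContinuousLinearMap.le_opNorm _ _) (norm_nonneg _)).trans ?_
  rw [← Matrix.cstar_norm_def, sq, ← mul_assoc, ← mul_assoc, mul_comm ‖z‖]
  exact mul_le_mul_of_nonneg_right (mul_le_mul_of_nonneg_right h (norm_nonneg _)) (norm_nonneg _)

theorem column_le (Y : ι → Matrix κ κ ℂ) {r : ℝ} (h : ‖∑ j, Y j * star (Y j)‖ ≤ r)
    (x : ι → EuclideanSpace ℂ κ) :
    ‖∑ j, toEuclideanCLM (𝕜 := ℂ) (Y j) (x j)‖ ^ 2 ≤ r * ∑ j, ‖x j‖ ^ 2 := by
  set y := ∑ j, toEuclideanCLM (𝕜 := ℂ) (Y j) (x j) with hy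
  have hr : 0 ≤ r := (norm_nonneg _).trans h
  have h1 := sum_norm_sq_le (fun j => star (Y j)) (by simpa using h) y
  have h2 : ‖y‖ ^ 2 ≤ ∑ j, ‖toEuclideanCLM (𝕜 := ℂ) (star (Y j)) y‖ * ‖x j‖ := by
    rw [← inner_self_eq_norm_sq (𝕜 := ℂ)]
    conv_lhs => arg 2; arg 3; rw [hy]
    rw [inner_sum, map_sum]
    refine Finset.sum_le_sum fun j _ => ?_
    rw [← ContinuousLinearMap.adjoint_inner_left, ← ContinuousLinearMap.star_eq_adjoint, ← map_star]
    exact (RCLike.re_le_norm _).trans (norm_inner_le_norm _ _)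
  have h3 := h2.trans (Real.sum_mul_le_sqrt_mul_sqrt _ _ _)
  rcases eq_or_ne ‖y‖ 0 with h0 | h0
  · rw [h0]
    have : 0 ≤ ∑ j, ‖x j‖ ^ 2 := Finset.sum_nonneg fun j _ => sq_nonneg _
    nlinarith
  · have hy0 : 0 < ‖y‖ := lt_of_le_of_ne (norm_nonneg _) (Ne.symm h0)
    have h4 : Real.sqrt (∑ j, ‖toEuclideanCLM (𝕜 := ℂ) (star (Y j)) y‖ ^ 2)
        ≤ Real.sqrt r * ‖y‖ := by
      refine (Real.sqrt_le_sqrt h1).trans (le_of_eq ?_)
      rw [Real.sqrt_mul hr, Real.sqrt_sq hy0.le]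
    have h5 : ‖y‖ ≤ Real.sqrt r * Real.sqrt (∑ j, ‖x j‖ ^ 2) := by
      refine le_of_mul_le_mul_left ?_ hy0
      calc ‖y‖ * ‖y‖ = ‖y‖ ^ 2 := (sq _).symm
        _ ≤ _ := h3
        _ ≤ (Real.sqrt r * ‖y‖) * Real.sqrt (∑ j, ‖x j‖ ^ 2) :=
            mul_le_mul_of_nonneg_right h4 (Real.sqrt_nonneg _)
        _ = _ := by ring
    refine (pow_le_pow_left₀ hy0.le h5 2).trans (le_of_eq ?_)
    rw [mul_pow, Real.sq_sqrt hr, Real.sq_sqrt (Finset.sum_nonneg fun j _ => sq_nonneg _)]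

end Column

section Coset

variable (H : Type*) [Group H]

/-- translation from the right, as a homomorphism into permutations -/
def rightHom : H →* Equiv.Perm H where
  toFun g := Equiv.mulRight g⁻¹
  map_one' := by ext; simp
  map_mul' g g' := by ext; simp [mul_assoc]

variable {H}

theorem rightHom_apply (g h : H) : rightHom H g h = h * g⁻¹ := rfl

variable [Fintype H] [DecidableEq H]

/-- the incidence matrix of the cosets of a cyclic subgroup -/
theorem exists_coset_matrix (b : H) {s : ℕ} (hs : s * orderOf b = Fintype.card H) :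
    ∃ J : Matrix (Fin s) H ℂ,
      Jᴴ * J = ∑ t ∈ Finset.range (orderOf b), pm (rightHom H (b ^ t)) := by
  classical
  have hd : 0 < orderOf b := orderOf_pos b
  have hcard : Fintype.card (H ⧸ Subgroup.zpowers b) = s := by
    have h1 := (Subgroup.zpowers b).card_eq_card_quotient_mul_card_subgroup
    rw [Nat.card_zpowers, Nat.card_eq_fintype_card, Nat.card_eq_fintype_card, ← hs] at h1
    exact (Nat.eq_of_mul_eq_mul_right hd h1).symm
  let e : H ⧸ Subgroup.zpowers b ≃ Fin s := Fintype.equivFinOfCardEq hcard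
  refine ⟨Matrix.of fun c h => if e (h : H ⧸ Subgroup.zpowers b) = c then 1 else 0, ?_⟩
  ext x y
  rw [Matrix.mul_apply, Matrix.sum_apply, Finset.sum_eq_single (e (x : H ⧸ Subgroup.zpowers b))]
  · simp only [conjTranspose_apply, of_apply, if_pos, star_one, one_mul, pm]
    have hpm : ∀ u : ℕ, rightHom H (b ^ u) y = y * (b ^ u)⁻¹ := fun u => rfl
    have hiff : e (y : H ⧸ Subgroup.zpowers b) = e x ↔ x⁻¹ * y ∈ Subgroup.zpowers b := by
      rw [e.apply_eq_iff_eq, eq_comm, QuotientGroup.eq]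
    by_cases h : x⁻¹ * y ∈ Subgroup.zpowers b
    · rw [if_pos (hiff.2 h)]
      obtain ⟨t, ht, hte⟩ := Finset.mem_image.1 (mem_zpowers_iff_mem_range_orderOf.1 h)
      rw [Finset.sum_eq_single t]
      · rw [if_pos (by rw [hpm, hte]; group)]
      · intro u hu hut
        rw [if_neg]
        intro he
        refine hut (pow_injOn_Iio_orderOf (Finset.mem_range.1 hu) (Finset.mem_range.1 ht) ?_)
        change b ^ u = b ^ t
        rw [hte, ← he, hpm]
        group
      · exact fun hn => absurd ht hn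
    · rw [if_neg (fun h' => h (hiff.1 h'))]
      refine (Finset.sum_eq_zero fun u _ => ?_).symm
      rw [if_neg]
      intro he
      apply h
      rw [← he, hpm]
      simp
  · intro c _ hc
    simp [Ne.symm hc]
  · simp

end Coset

section Spectral

variable {κ X : Type*} [Fintype κ] [DecidableEq κ] [Fintype X] [DecidableEq X]

theorem trace_pow {n : Type*} [Fintype n] [DecidableEq n] {D : Matrix n n ℂ} (hD : D.IsHermitian)
    (p : ℕ) : (D ^ p).trace = ∑ i, ((hD.eigenvalues i : ℂ)) ^ p := by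
  conv_lhs => rw [hD.spectral_theorem, ← map_pow, diagonal_pow, Unitary.conjStarAlgAut_apply]
  rw [Matrix.trace_mul_cycle, Unitary.coe_star_mul_self, one_mul, trace_diagonal]
  simp

/-- compression to the slices orthogonal to the large spectral subspace -/
theorem exists_compression {D : Matrix (κ × X) (κ × X) ℂ} (hD : D.IsHermitian) {c : ℝ}
    (hc : 0 ≤ c) :
    ∃ (m' B : ℕ) (W : Matrix X (Fin m') ℂ), Wᴴ * W = 1 ∧ m' ≤ Fintype.card X ∧
      Fintype.card X ≤ m' + Fintype.card κ * B ∧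
      (∀ p : ℕ, (B : ℝ) * c ^ (2 * p) ≤ (D ^ (2 * p)).trace.re) ∧
      ‖((1 : Matrix κ κ ℂ) ⊗ₖ W)ᴴ * D * ((1 : Matrix κ κ ℂ) ⊗ₖ W)‖ ≤ c := by
  classical
  set b := hD.eigenvectorBasis with hb
  set ev := hD.eigenvalues with hev
  set bad : Finset (κ × X) := Finset.univ.filter fun i => c < |ev i| with hbad
  let comp : ↥bad × κ → EuclideanSpace ℂ X :=
    fun q => WithLp.toLp 2 fun x => b q.1.1 (q.2, x)
  set S := Submodule.span ℂ (Set.range comp) with hS
  set o := stdOrthonormalBasis ℂ Sᗮ with ho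
  set W : Matrix X (Fin (Module.finrank ℂ Sᗮ)) ℂ :=
    Matrix.of fun x i => (o i : EuclideanSpace ℂ X) x with hW
  have hfr := S.finrank_add_finrank_orthogonal
  rw [finrank_euclideanSpace] at hfr
  have hSle : Module.finrank ℂ S ≤ bad.card * Fintype.card κ := by
    refine (finrank_range_le_card comp).trans (le_of_eq ?_)
    simp
  have hWW : Wᴴ * W = 1 := by
    ext i j
    have h := orthonormal_iff_ite.1 o.orthonormal i j
    rw [Submodule.coe_inner, PiLp.inner_apply] at h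
    rw [Matrix.mul_apply, Matrix.one_apply, ← h]
    refine Finset.sum_congr rfl fun x _ => ?_
    simp [hW, mul_comm]
  refine ⟨_, bad.card, W, hWW, by omega, ?_, ?_, ?_⟩
  · rw [mul_comm]; omega
  · intro p
    rw [trace_pow hD, Complex.re_sum]
    calc (bad.card : ℝ) * c ^ (2 * p) = ∑ i ∈ bad, c ^ (2 * p) := by simp
      _ ≤ ∑ i ∈ bad, ev i ^ (2 * p) := Finset.sum_le_sum fun i hi => by
          rw [pow_mul c, pow_mul (ev i)]
          refine pow_le_pow_left₀ (sq_nonneg _) ?_ p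
          rw [← sq_abs (ev i)]
          exact pow_le_pow_left₀ hc (le_of_lt (Finset.mem_filter.1 hi).2) 2
      _ ≤ ∑ i, ev i ^ (2 * p) := Finset.sum_le_sum_of_subset_of_nonneg (Finset.subset_univ _)
          fun i _ _ => by rw [pow_mul]; positivity
      _ = _ := by
          refine Finset.sum_congr rfl fun i _ => ?_
          rw [← Complex.ofReal_pow, Complex.ofReal_re]
  · set A := (1 : Matrix κ κ ℂ) ⊗ₖ W with hA
    have hA1 : ‖A‖ ≤ 1 := by
      refine norm_le_one_of_isometry ?_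
      rw [hA, conjTranspose_kronecker, ← Matrix.mul_kronecker_mul, hWW, conjTranspose_one, one_mul,
        Matrix.one_kronecker_one]
    rw [Matrix.mul_assoc]
    refine (Matrix.l2_opNorm_mul _ _).trans ?_
    rw [Matrix.l2_opNorm_conjTranspose]
    refine (mul_le_of_le_one_left (norm_nonneg _) hA1).trans ?_
    refine opNorm_le_of _ hc fun y => ?_
    rw [← mulVec_mulVec]
    set v := A *ᵥ y with hv
    have hv1 : ‖(WithLp.toLp 2 v : EuclideanSpace ℂ (κ × X))‖
        ≤ ‖(WithLp.toLp 2 y : EuclideanSpace ℂ (κ × Fin _))‖ := by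
      refine (Matrix.l2_opNorm_mulVec A (WithLp.toLp 2 y)).trans ?_
      exact mul_le_of_le_one_left (norm_nonneg _) hA1
    refine le_trans ?_ (mul_le_mul_of_nonneg_left hv1 hc)
    -- the slices of `v` are orthogonal to the slices of the bad eigenvectors
    have hslice : ∀ a, (WithLp.toLp 2 (fun x => v (a, x)) : EuclideanSpace ℂ X) ∈ Sᗮ := by
      intro a
      have e : (WithLp.toLp 2 (fun x => v (a, x)) : EuclideanSpace ℂ X)
          = ∑ i, y (a, i) • (o i : EuclideanSpace ℂ X) := by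
        apply PiLp.ext
        intro x
        simp only [hv, hA, mulVec, dotProduct, Fintype.sum_prod_type, kronecker_apply,
          Matrix.one_apply, ite_mul, one_mul, zero_mul, WithLp.ofLp_sum, Finset.sum_apply]
        rw [Finset.sum_eq_single a]
        · simp [hW, mul_comm]
        · intro a' _ ha'; simp [Ne.symm ha']
        · simp
      rw [e]
      exact Submodule.sum_mem _ fun i _ => Submodule.smul_mem _ _ (o i).2
    have hperp : ∀ i ∈ bad, ⟪b i, (WithLp.toLp 2 v : EuclideanSpace ℂ (κ × X))⟫_ℂ = 0 := by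
      intro i hi
      rw [PiLp.inner_apply, Fintype.sum_prod_type]
      refine Finset.sum_eq_zero fun a _ => ?_
      have h := Submodule.inner_right_of_mem_orthogonal
        (Submodule.subset_span ⟨(⟨i, hi⟩, a), rfl⟩ : comp (⟨i, hi⟩, a) ∈ S) (hslice a)
      rw [PiLp.inner_apply] at h
      exact h
    have heig : ∀ i, ⟪b i, (WithLp.toLp 2 (D *ᵥ v) : EuclideanSpace ℂ (κ × X))⟫_ℂ
        = (ev i : ℂ) * ⟪b i, (WithLp.toLp 2 v : EuclideanSpace ℂ (κ × X))⟫_ℂ := by
      intro i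
      rw [EuclideanSpace.inner_eq_star_dotProduct, EuclideanSpace.inner_eq_star_dotProduct,
        dotProduct_comm (D *ᵥ v), dotProduct_comm v, dotProduct_mulVec]
      have h : star (b i).ofLp ᵥ* D = star (D *ᵥ (b i).ofLp) := by
        rw [star_mulVec, hD.eq]
      rw [h, hb, hD.mulVec_eigenvectorBasis, star_smul, smul_dotProduct]
      simp [hev, Complex.real_smul]
    refine (sq_le_sq₀ (norm_nonneg _) (by positivity)).1 ?_
    rw [mul_pow, ← b.sum_sq_norm_inner_right, ← b.sum_sq_norm_inner_right, Finset.mul_sum]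
    refine Finset.sum_le_sum fun i _ => ?_
    rw [heig i]
    by_cases hi : i ∈ bad
    · rw [hperp i hi]; simp
    · rw [norm_mul, mul_pow, Complex.norm_real, Real.norm_eq_abs]
      refine mul_le_mul_of_nonneg_right (pow_le_pow_left₀ (abs_nonneg _) ?_ 2) (sq_nonneg _)
      simpa [hbad] using hi

end Spectral

end Vale.Agent.P095.Lift.FreeOp
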