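import Vale.Agent.P095.Lift.FreeForm
import Vale.Agent.P095.Lift.FreeOp

/-!
# P095 Lift C2: free packing in finite dimensions (PROOF.md II.2)

Slots with small row sums can be packed: after replacing the coefficients by partial isometries
from a large finite group the cross terms vanish up to `8 √r + 16 q √r'`.
-/

open scoped Matrix Matrix.Norms.L2Operator Kronecker ComplexOrder InnerProductSpace
open Matrix

namespace Vale.Agent.P095.Lift.FreeWords

open Vale.Agent.P095.Lift.FreeOp

section Words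

variable {ι : Type} [DecidableEq ι] {q R : ℕ}

theorem aPerm_pow' (s : ZMod q) (i : ℕ) :
    (aPerm s : Equiv.Perm (Wd ι q R)) ^ i = aPerm ((i : ZMod q) * s) := by
  induction i with
  | zero => simp [aPerm_zero]
  | succ i ih => rw [pow_succ, ih, Nat.cast_succ, add_mul, one_mul, aPerm_add]

theorem length_lPerm_le (l : Letter ι q) (w : Wd ι q R) :
    (lPerm l w).1.length ≤ w.1.length + 1 := by
  by_cases h : w.1.length < R
  · exact (lPerm_apply l w h).1
  · exact le_trans (lPerm l w).2.2 (by omega)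

theorem length_wPerm_le : ∀ (u : List (Letter ι q)) (w : Wd ι q R),
    (wPerm u w).1.length ≤ w.1.length + u.length
  | [], w => by simp [wPerm]
  | l :: u, w => by
    rw [wPerm_cons, Equiv.Perm.mul_apply, List.length_cons]
    exact (length_lPerm_le l _).trans (by have := length_wPerm_le u w; omega)

theorem wPerm_append (u v : List (Letter ι q)) :
    (wPerm (u ++ v) : Equiv.Perm (Wd ι q R)) = wPerm u * wPerm v := by
  simp [wPerm]

end Words

section Kron

variable {a b β : Type*}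

theorem kron_sum (A : Matrix a a ℂ) (B : β → Matrix b b ℂ) (s : Finset β) :
    A ⊗ₖ (∑ i ∈ s, B i) = ∑ i ∈ s, A ⊗ₖ B i := by
  ext x y
  simp [Matrix.sum_apply, Finset.mul_sum]

theorem sum_kron (A : β → Matrix a a ℂ) (B : Matrix b b ℂ) (s : Finset β) :
    (∑ i ∈ s, A i) ⊗ₖ B = ∑ i ∈ s, A i ⊗ₖ B := by
  ext x y
  simp [Matrix.sum_apply, Finset.sum_mul]

theorem neg_kron (A : Matrix a a ℂ) (B : Matrix b b ℂ) : (-A) ⊗ₖ B = -(A ⊗ₖ B) := by
  ext x y
  simp

end Kron

variable {k L N q R : ℕ} [NeZero q]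
variable (qs : Fin L → ℕ) (Y : Fin L → Fin N → Matrix (Fin k) (Fin k) ℂ)

/-- the exponent of the generator used by a slot -/
def eL (l : Fin L) : ZMod q := if qs l = 1 then 0 else 1

/-- the cyclic permutation of a slot -/
def bL (l : Fin L) : Equiv.Perm (W L N q R) := aPerm (eL qs l)

theorem orderOf_bL (hqs : ∀ l, qs l = 1 ∨ qs l = q) (hR : 0 < R) (l : Fin L) :
    orderOf (bL qs l : Equiv.Perm (W L N q R)) = qs l := by
  unfold bL eL
  split
  · rename_i h; rw [aPerm_zero, orderOf_one, h]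
  · rename_i h; rw [orderOf_aPerm hR, (hqs l).resolve_left h]

omit [NeZero q] in
theorem eL_ne (hqs : ∀ l, qs l = 1 ∨ qs l = q) (l : Fin L) (t : ℕ) (ht : 0 < t) (ht' : t < qs l) :
    (t : ZMod q) * eL qs l ≠ 0 := by
  unfold eL
  split
  · omega
  · rename_i h
    rw [mul_one, Ne, ZMod.natCast_eq_zero_iff]
    intro hd
    have := Nat.le_of_dvd ht hd
    rcases hqs l with h' | h' <;> omega

section Op

variable {X : Type*} [Fintype X] [DecidableEq X]
variable (φ : Equiv.Perm (W L N q R) →* Equiv.Perm X)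

/-- `q P`: the sum of the powers -/
noncomputable def mid (l : Fin L) : Matrix X X ℂ :=
  ∑ t ∈ Finset.range (qs l), pm (φ (bL qs l ^ t))

/-- the packing operator minus its target -/
noncomputable def packOp : Matrix (Fin k × X) (Fin k × X) ℂ :=
  (∑ l, ∑ i, ∑ j, (star (Y l i) * Y l j) ⊗ₖ
      (pm (φ (uPerm (l, i))) * mid qs φ l * pm (φ (uPerm (l, j)))))
    - (∑ l, ∑ j, star (Y l j) * Y l j) ⊗ₖ (1 : Matrix X X ℂ)

/-- indices of the terms of the operator -/
abbrev Term (L N : ℕ) (qs : Fin L → ℕ) : Type := Option ((l : Fin L) × (Fin (qs l) × Fin N × Fin N))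

/-- coefficient of a term -/
noncomputable def coef : Term L N qs → Matrix (Fin k) (Fin k) ℂ
  | some ⟨l, _, i, j⟩ => star (Y l i) * Y l j
  | none => -(∑ l, ∑ j, star (Y l j) * Y l j)

/-- word of a term -/
def word : Term L N qs → List (Letter (Fin L × Fin N) q)
  | some ⟨l, t, i, j⟩ => [Sum.inl (l, i), Sum.inr (((t : ℕ) : ZMod q) * eL qs l), Sum.inl (l, j)]
  | none => []

omit [NeZero q] in
theorem length_word (x : Term L N qs) : (word (q := q) qs x).length ≤ 3 := by
  rcases x with _ | ⟨l, t, i, j⟩ <;> simp [word]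

omit [NeZero q] in
theorem packOp_eq : packOp qs Y φ
    = ∑ x : Term L N qs, coef qs Y x ⊗ₖ pm (φ (wPerm (word qs x))) := by
  have e : ∀ l i j, (star (Y l i) * Y l j) ⊗ₖ
      (pm (φ (uPerm (l, i))) * mid qs φ l * pm (φ (uPerm (l, j))))
      = ∑ t : Fin (qs l), coef qs Y (some ⟨l, t, i, j⟩)
          ⊗ₖ pm (φ (wPerm (word qs (some ⟨l, t, i, j⟩)))) := by
    intro l i j
    rw [mid, Finset.mul_sum, Finset.sum_mul, kron_sum, ← Fin.sum_univ_eq_sum_range]
    refine Finset.sum_congr rfl fun t _ => ?_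
    simp [coef, word, wPerm, lPerm, bL, aPerm_pow', pm_mul, mul_assoc]
  rw [Fintype.sum_option, Fintype.sum_sigma]
  simp only [Fintype.sum_prod_type]
  have e0 : coef qs Y none ⊗ₖ pm (φ (wPerm (word qs none)))
      = -((∑ l, ∑ j, star (Y l j) * Y l j) ⊗ₖ (1 : Matrix X X ℂ)) := by
    simp only [coef, word]
    rw [show (wPerm ([] : List (Letter (Fin L × Fin N) q)) : Equiv.Perm (W L N q R)) = 1 from rfl,
      map_one, pm_one, neg_kron]
  rw [e0, neg_add_eq_sub, packOp]
  congr 1
  refine Finset.sum_congr rfl fun l _ => ?_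
  simp only [e]
  conv_rhs => rw [Finset.sum_comm]
  exact Finset.sum_congr rfl fun i _ => Finset.sum_comm

omit [NeZero q] in
theorem packOp_pow (n : ℕ) : packOp qs Y φ ^ n = ∑ f : Fin n → Term L N qs,
    (List.ofFn fun i => coef qs Y (f i)).prod
      ⊗ₖ pm (φ (wPerm (List.ofFn fun i => word qs (f i)).flatten)) := by
  induction n with
  | zero => simp [wPerm, pm_one]
  | succ n ih =>
    rw [pow_succ', ih, packOp_eq, Finset.sum_mul_sum,
      ← (Fin.consEquiv fun _ : Fin (n + 1) => Term L N qs).sum_comp, Fintype.sum_prod_type]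
    refine Finset.sum_congr rfl fun x _ => Finset.sum_congr rfl fun f _ => ?_
    rw [← Matrix.mul_kronecker_mul, ← pm_mul, ← map_mul, ← wPerm_append]
    simp [List.ofFn_succ, Fin.consEquiv]

omit [NeZero q] in
theorem length_words {n : ℕ} (f : Fin n → Term L N qs) :
    (List.ofFn fun i => word (q := q) qs (f i)).flatten.length ≤ 3 * n := by
  induction n with
  | zero => simp
  | succ n ih =>
    rw [List.ofFn_succ, List.flatten_cons, List.length_append]
    have := length_word (q := q) qs (f 0)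
    have := ih fun i => f i.succ
    omega

end Op

-- shortcuts for instance search
noncomputable instance instFintypePermW : Fintype (Equiv.Perm (W L N q R)) := Equiv.instFintype

noncomputable instance instDecEqPermW : DecidableEq (Equiv.Perm (W L N q R)) :=
  fun a b => Fintype.decidableEqEquivFintype a b

noncomputable instance instFintypeIndex : Fintype (Fin k × Equiv.Perm (W L N q R)) := instFintypeProd _ _

noncomputable instance instFintypeIndexW : Fintype (Fin k × W L N q R) := instFintypeProd _ _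

/-- the operator on words -/
noncomputable def wordOp : Matrix (Fin k × W L N q R) (Fin k × W L N q R) ℂ :=
  packOp qs Y (MonoidHom.id (Equiv.Perm (W L N q R)))

/-- the operator in the regular representation -/
noncomputable def groupOp :
    Matrix (Fin k × Equiv.Perm (W L N q R)) (Fin k × Equiv.Perm (W L N q R)) ℂ :=
  packOp qs Y (rightHom (Equiv.Perm (W L N q R)))

theorem trace_groupOp_pow {n : ℕ} (hn : 3 * n ≤ R) :
    (groupOp (q := q) (R := R) qs Y ^ n).trace
      = (Fintype.card (Equiv.Perm (W L N q R)) : ℂ)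
        * ∑ a, (wordOp (q := q) (R := R) qs Y ^ n) (a, one) (a, one) := by
  classical
  rw [groupOp, wordOp, packOp_pow, packOp_pow, Matrix.trace_sum]
  simp only [Matrix.trace_kronecker, Matrix.sum_apply, kronecker_apply]
  rw [Finset.sum_comm, Finset.mul_sum]
  refine Finset.sum_congr rfl fun f _ => ?_
  set g : Equiv.Perm (W L N q R) :=
    wPerm (List.ofFn fun i => word (q := q) qs (f i)).flatten with hg
  have hfix : g one = one ↔ g = 1 :=
    ⟨fun h => eq_one_of_fix ((length_words qs f).trans hn) h, fun h => by rw [h]; rfl⟩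
  by_cases h : g = 1
  · simp [h, pm_one, Matrix.trace, Finset.sum_mul, mul_comm]
  · have e1 : (pm (rightHom (Equiv.Perm (W L N q R)) g)).trace = 0 := by
      refine Finset.sum_eq_zero fun x _ => ?_
      simp [pm, rightHom_apply, h]
    have e2 : pm g one one = 0 := if_neg fun h' => h (hfix.1 h')
    simp [e1, e2]

/-! ### the bridge to vectors -/

/-- coefficients as operators -/
noncomputable def tY (y : Fin L × Fin N) : EuclideanSpace ℂ (Fin k) →L[ℂ] EuclideanSpace ℂ (Fin k) :=
  toEuclideanCLM (𝕜 := ℂ) (Y y.1 y.2)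

/-- functions as vectors -/
noncomputable def toV (x : Fin k × W L N q R → ℂ) : Vec L N q R (EuclideanSpace ℂ (Fin k)) :=
  WithLp.toLp 2 fun w => WithLp.toLp 2 fun a => x (a, w)

theorem inner_toV (x' x : Fin k × W L N q R → ℂ) :
    star x' ⬝ᵥ x = ⟪toV x', toV x⟫_ℂ := by
  simp [toV, PiLp.inner_apply, dotProduct, Fintype.sum_prod_type_right, mul_comm]

theorem toV_kron (A : Matrix (Fin k) (Fin k) ℂ) (g : Equiv.Perm (W L N q R))
    (x : Fin k × W L N q R → ℂ) (w : W L N q R) :
    toV ((A ⊗ₖ pm g) *ᵥ x) w = toEuclideanCLM (𝕜 := ℂ) A (toV x (g⁻¹ w)) := by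
  apply PiLp.ext
  intro a
  show ((A ⊗ₖ pm g) *ᵥ x) (a, w) = _
  rw [kron_pm_mulVec, Matrix.ofLp_toEuclideanCLM]
  rfl

theorem toV_sum {β : Type*} (s : Finset β) (x : β → Fin k × W L N q R → ℂ) :
    toV (∑ i ∈ s, x i) = ∑ i ∈ s, toV (x i) := by
  apply PiLp.ext
  intro w
  apply PiLp.ext
  intro a
  simp [toV, Finset.sum_apply]

/-- the column operator of a slot -/
noncomputable def slot (l : Fin L) : Matrix (Fin k × W L N q R) (Fin k × W L N q R) ℂ :=
  ∑ j, Y l j ⊗ₖ pm (uPerm (l, j))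

theorem toV_slot (l : Fin L) (x : Fin k × W L N q R → ℂ) :
    toV (slot Y l *ᵥ x) = partA (tY Y) l (toV x) + partB (tY Y) l (toV x) := by
  rw [slot, Matrix.sum_mulVec, toV_sum]
  apply PiLp.ext
  intro w
  rw [WithLp.ofLp_sum, Finset.sum_apply, WithLp.ofLp_add, Pi.add_apply]
  simp only [partA, partB]
  rw [← Finset.sum_add_distrib]
  refine Finset.sum_congr rfl fun j _ => ?_
  rw [toV_kron]
  have hu : (uPerm (l, j) : Equiv.Perm (W L N q R))⁻¹ = uPerm (l, j) :=
    inv_eq_of_mul_eq_one_left (uPerm_mul_self _)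
  rw [hu]
  split <;> simp [tY]

theorem toV_mid (l : Fin L) (z : Fin k × W L N q R → ℂ) :
    toV (((1 : Matrix (Fin k) (Fin k) ℂ) ⊗ₖ mid qs (MonoidHom.id _) l) *ᵥ z)
      = cyc (qs l) (eL qs l) (toV z) := by
  rw [mid, kron_sum, Matrix.sum_mulVec, toV_sum]
  apply PiLp.ext
  intro w
  rw [WithLp.ofLp_sum, Finset.sum_apply]
  simp only [cyc]
  refine Finset.sum_congr rfl fun t _ => ?_
  rw [toV_kron, map_one, MonoidHom.id_apply, bL, aPerm_pow']
  rfl

theorem form_eq (x x' : Fin k × W L N q R → ℂ) :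
    star x' ⬝ᵥ (wordOp qs Y *ᵥ x)
      = (∑ l, ⟪partA (tY Y) l (toV x') + partB (tY Y) l (toV x'),
            cyc (qs l) (eL qs l) (partA (tY Y) l (toV x) + partB (tY Y) l (toV x))⟫_ℂ)
        - ∑ y : Fin L × Fin N, ∑ w, ⟪tY Y y (toV x' w), tY Y y (toV x w)⟫_ℂ := by
  rw [wordOp, packOp, sub_mulVec, dotProduct_sub]
  congr 1
  · rw [Matrix.sum_mulVec, dotProduct_sum]
    refine Finset.sum_congr rfl fun l _ => ?_
    have e : (∑ i, ∑ j, (star (Y l i) * Y l j) ⊗ₖ (pm ((MonoidHom.id (Equiv.Perm (W L N q R)))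
          (uPerm (l, i))) * mid qs (MonoidHom.id _) l
          * pm ((MonoidHom.id (Equiv.Perm (W L N q R))) (uPerm (l, j)))))
        = (slot Y l)ᴴ * (((1 : Matrix (Fin k) (Fin k) ℂ) ⊗ₖ mid qs (MonoidHom.id _) l) * slot Y l)
        := by
      rw [slot, conjTranspose_sum, Finset.mul_sum, Finset.sum_mul_sum]
      refine Finset.sum_congr rfl fun i _ => Finset.sum_congr rfl fun j _ => ?_
      rw [conjTranspose_kronecker, ← Matrix.mul_kronecker_mul, ← Matrix.mul_kronecker_mul,
        one_mul, pm_conjTranspose, inv_eq_of_mul_eq_one_left (uPerm_mul_self _), mul_assoc]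
      rfl
    rw [e, ← mulVec_mulVec, ← mulVec_mulVec, dotProduct_mulVec,
      ← star_mulVec, inner_toV, toV_slot, toV_mid, toV_slot]
  · rw [sum_kron]
    simp only [sum_kron, Matrix.sum_mulVec, dotProduct_sum, Fintype.sum_prod_type]
    refine Finset.sum_congr rfl fun l _ => Finset.sum_congr rfl fun j _ => ?_
    have e : (star (Y l j) * Y l j) ⊗ₖ (1 : Matrix (W L N q R) (W L N q R) ℂ)
        = (Y l j ⊗ₖ pm 1)ᴴ * (Y l j ⊗ₖ pm 1) := by
      rw [pm_one, conjTranspose_kronecker, ← Matrix.mul_kronecker_mul, conjTranspose_one, one_mul]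
      rfl
    rw [e, ← mulVec_mulVec, dotProduct_mulVec, ← star_mulVec, inner_toV, PiLp.inner_apply]
    refine Finset.sum_congr rfl fun w _ => ?_
    rw [toV_kron, toV_kron, inv_one]
    rfl

/-- supported on words of length at most `t` -/
def SuppF (t : ℕ) (x : Fin k × W L N q R → ℂ) : Prop :=
  ∀ a w, t < w.1.length → x (a, w) = 0

theorem SuppF.supp {t t' : ℕ} {x : Fin k × W L N q R → ℂ} (h : SuppF t x) (ht : t ≤ t') :
    Supp t' (toV x) := by
  intro w hw
  apply PiLp.ext
  intro a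
  exact h a w (by omega)

theorem SuppF.wordOp_mulVec {t : ℕ} {x : Fin k × W L N q R → ℂ} (h : SuppF t x) :
    SuppF (t + 3) (wordOp qs Y *ᵥ x) := by
  intro a w hw
  rw [wordOp, packOp_eq, Matrix.sum_mulVec, Finset.sum_apply]
  refine Finset.sum_eq_zero fun y _ => ?_
  rw [kron_pm_mulVec]
  refine Finset.sum_eq_zero fun b _ => ?_
  rw [h b _ ?_, mul_zero]
  have h1 := length_wPerm_le (word qs y) ((wPerm (word (q := q) qs y))⁻¹ w : W L N q R)
  rw [show ∀ g : Equiv.Perm (W L N q R), g (g⁻¹ w) = w from fun g => g.apply_symm_apply w] at h1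
  have := length_word (q := q) qs y
  change t < ((wPerm (word qs y) : Equiv.Perm (W L N q R))⁻¹ w).1.length
  omega

theorem iterate_bound {K : ℝ} (hK0 : 0 ≤ K)
    (hstep : ∀ x x' : Fin k × W L N q R → ℂ, Supp (R - 2) (toV x) → Supp (R - 2) (toV x') →
      ‖star x' ⬝ᵥ (wordOp qs Y *ᵥ x)‖ ≤ 5 * K * (‖toV x‖ * ‖toV x'‖))
    (a : Fin k) : ∀ n : ℕ, 3 * n + 2 ≤ R →
      SuppF (3 * n) ((wordOp qs Y ^ n) *ᵥ Pi.single (a, (one : W L N q R)) 1) ∧
      ‖toV ((wordOp qs Y ^ n) *ᵥ Pi.single (a, (one : W L N q R)) 1)‖ ≤ (5 * K) ^ n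
  | 0, _ => by
    refine ⟨fun b w hw => ?_, ?_⟩
    · simp only [pow_zero, one_mulVec]
      refine Pi.single_eq_of_ne ?_ _
      intro he
      rw [(Prod.mk.injEq _ _ _ _).mp he |>.2] at hw
      simp [one] at hw
    · rw [pow_zero, one_mulVec, pow_zero, ← sq_le_one_iff₀ (norm_nonneg _),
        ← inner_self_eq_norm_sq (𝕜 := ℂ), ← inner_toV]
      simp
  | n + 1, hn => by
    obtain ⟨h1, h2⟩ := iterate_bound hK0 hstep a n (by omega)
    set x := (wordOp qs Y ^ n) *ᵥ Pi.single (a, (one : W L N q R)) 1 with hx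
    rw [pow_succ', ← mulVec_mulVec, ← hx]
    have hs := h1.wordOp_mulVec qs Y
    refine ⟨hs, ?_⟩
    have h := hstep x (wordOp qs Y *ᵥ x) (h1.supp (by omega)) (hs.supp (by omega))
    rw [inner_toV, inner_self_eq_norm_sq_to_K, norm_pow, RCLike.norm_ofReal, abs_norm,
      ← mul_assoc, sq] at h
    rcases (norm_nonneg (toV (wordOp qs Y *ᵥ x))).eq_or_lt with h0 | h0
    · rw [← h0]; positivity
    · refine (le_of_mul_le_mul_right h h0).trans ?_
      rw [pow_succ']
      exact mul_le_mul_of_nonneg_left h2 (by positivity)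

end Vale.Agent.P095.Lift.FreeWords

namespace Vale.Agent.P095.Lift

open FreeWords FreeOp

/-- Free packing in finite dimensions: slots with small row sums are packed by partial isometries
from a finite group, up to `8 √r + 16 q √r'`. -/
theorem exists_free_pack {k L N q : ℕ} (hq : 0 < q) (qs : Fin L → ℕ)
    (hqs : ∀ l, qs l = 1 ∨ qs l = q) (Y : Fin L → Fin N → Matrix (Fin k) (Fin k) ℂ) {r r' : ℝ}
    (hr : ∀ l, ‖∑ j, Y l j * star (Y l j)‖ ≤ r)
    (hr' : ∀ l, qs l ≠ 1 → ‖∑ j, Y l j * star (Y l j)‖ ≤ r')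
    (hr1 : r ≤ 1) (hs : ‖∑ l, ∑ j, star (Y l j) * Y l j‖ ≤ 2) {η : ℝ} (hη : 0 < η) :
    ∃ (m m' : ℕ) (ms : Fin L → ℕ), 0 < m ∧ (∀ l, ms l * qs l = m) ∧ m ≤ m' + m / q ∧ m' ≤ m ∧
      ∃ G : (l : Fin L) → Fin N → Matrix (Fin (ms l)) (Fin m') ℂ,
        (∀ l j (v : Fin m' → ℂ),
          ∑ p, ‖(G l j).mulVec v p‖ ^ 2 ≤ (q : ℝ) * ∑ p, ‖v p‖ ^ 2) ∧
        ‖(∑ l, ∑ i, ∑ j, (star (Y l i) * Y l j) ⊗ₖ ((G l i).conjTranspose * G l j))
          - (∑ l, ∑ j, star (Y l j) * Y l j) ⊗ₖ (1 : Matrix (Fin m') (Fin m') ℂ)‖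
          ≤ 8 * Real.sqrt r + 16 * q * Real.sqrt r' + η := by
  classical
  have : NeZero q := ⟨hq.ne'⟩
  set K : ℝ := Real.sqrt r + q * Real.sqrt r' with hKdef
  have hK0 : 0 ≤ K := by positivity
  set rr : Fin L → ℝ := fun l => if qs l = 1 then r else min r r' with hrrdef
  have hrow : ∀ l, ‖∑ j, Y l j * star (Y l j)‖ ≤ rr l := by
    intro l
    simp only [hrrdef]
    split
    · exact hr l
    · exact le_min (hr l) (hr' l ‹_›)
  have hrr : ∀ l, 0 ≤ rr l := fun l => (norm_nonneg _).trans (hrow l)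
  have hrr1 : ∀ l, rr l ≤ 1 := by
    intro l
    simp only [hrrdef]
    split
    · exact hr1
    · exact (min_le_left _ _).trans hr1
  have hqsK : ∀ l, (qs l : ℝ) * Real.sqrt (rr l) ≤ K := by
    intro l
    simp only [hrrdef, hKdef]
    split
    · rename_i h
      rw [h, Nat.cast_one, one_mul]
      exact le_add_of_nonneg_right (by positivity)
    · rename_i h
      rw [(hqs l).resolve_left h]
      refine (mul_le_mul_of_nonneg_left (Real.sqrt_le_sqrt (min_le_right r r')) (by positivity)).trans ?_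
      exact le_add_of_nonneg_left (Real.sqrt_nonneg _)
  have hqs0 : ∀ l, 0 < qs l := fun l => by rcases hqs l with h | h <;> omega
  have hqsq : ∀ l, qs l ≤ q := fun l => by rcases hqs l with h | h <;> omega
  have hcol : ∀ l (x : Fin N → EuclideanSpace ℂ (Fin k)),
      ‖∑ j, tY Y (l, j) (x j)‖ ^ 2 ≤ rr l * ∑ j, ‖x j‖ ^ 2 :=
    fun l x => column_le (Y l) (hrow l) x
  have hcols : ∀ x : EuclideanSpace ℂ (Fin k), ∑ y : Fin L × Fin N, ‖tY Y y x‖ ^ 2 ≤ 2 * ‖x‖ ^ 2 :=
    fun x => sum_norm_sq_le (fun y : Fin L × Fin N => Y y.1 y.2)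
      (by rw [Fintype.sum_prod_type]; exact hs) x
  have hdiag : ∀ (y : Fin L × Fin N) (x : EuclideanSpace ℂ (Fin k)),
      ‖tY Y y x‖ ^ 2 ≤ K * ‖x‖ ^ 2 := by
    rintro ⟨l, j⟩ x
    have h := hcol l (Pi.single j x)
    rw [Finset.sum_eq_single j, Finset.sum_eq_single j] at h
    · simp only [Pi.single_eq_same] at h
      refine h.trans (mul_le_mul_of_nonneg_right (le_trans ?_ (hqsK l)) (sq_nonneg _))
      calc rr l ≤ Real.sqrt (rr l) := by
            rw [Real.le_sqrt (hrr l) (hrr l), sq]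
            exact mul_le_of_le_one_left (hrr l) (hrr1 l)
        _ ≤ (qs l : ℝ) * Real.sqrt (rr l) :=
            le_mul_of_one_le_left (Real.sqrt_nonneg _) (by exact_mod_cast hqs0 l)
    all_goals first
      | (intro i _ hi; simp [Pi.single_eq_of_ne hi])
      | simp
  -- the size of the words
  set c : ℝ := 5 * K + η with hcdef
  have hc : 0 < c := by positivity
  have hρ : (5 * K / c) ^ 2 < 1 := by
    have : 5 * K / c < 1 := by rw [div_lt_one hc]; linarith
    have h0 : 0 ≤ 5 * K / c := by positivity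
    nlinarith
  obtain ⟨p, hp⟩ := exists_pow_lt_of_lt_one
    (show (0 : ℝ) < 1 / ((k : ℝ) * k * q + 1) by positivity) hρ
  rw [← pow_mul] at hp
  set R : ℕ := 6 * p + 2 with hRdef
  have hR0 : 0 < R := by omega
  have hstep : ∀ x x' : Fin k × W L N q R → ℂ, Supp (R - 2) (toV x) → Supp (R - 2) (toV x') →
      ‖star x' ⬝ᵥ (wordOp qs Y *ᵥ x)‖ ≤ 5 * K * (‖toV x‖ * ‖toV x'‖) := by
    intro x x' hx hx'
    rw [form_eq]
    exact form_le hx hx' (by omega) qs (eL qs) hqs0 (eL_ne qs hqs) rr hrr hcol hcols hK0 hqsK hrr1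
      hdiag
  -- the trace
  have htr : ((groupOp (q := q) (R := R) qs Y) ^ (2 * p)).trace.re
      ≤ (Fintype.card (Equiv.Perm (W L N q R)) : ℝ) * (k * (5 * K) ^ (2 * p)) := by
    rw [trace_groupOp_pow qs Y (by omega), ← Complex.ofReal_natCast, Complex.re_ofReal_mul,
      Complex.re_sum]
    refine mul_le_mul_of_nonneg_left ?_ (Nat.cast_nonneg _)
    refine (Finset.sum_le_card_nsmul _ _ ((5 * K) ^ (2 * p)) fun a _ => ?_).trans (le_of_eq ?_)
    · refine (Complex.re_le_norm _).trans ?_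
      refine le_trans ?_ (iterate_bound qs Y hK0 hstep a (2 * p) (by omega)).2
      refine le_trans ?_ (PiLp.norm_apply_le _ one)
      refine le_trans (le_of_eq ?_) (PiLp.norm_apply_le _ a)
      simp [toV]
    · simp
  -- the cosets
  set m : ℕ := Fintype.card (Equiv.Perm (W L N q R)) with hmdef
  have hdvd : ∀ l, qs l ∣ m := fun l =>
    orderOf_bL (N := N) (R := R) qs hqs hR0 l ▸ orderOf_dvd_card
  have hms : ∀ l, m / qs l * qs l = m := fun l => Nat.div_mul_cancel (hdvd l)
  have hJ : ∀ l, ∃ J : Matrix (Fin (m / qs l)) (Equiv.Perm (W L N q R)) ℂ,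
      Jᴴ * J = mid qs (rightHom (Equiv.Perm (W L N q R))) l := by
    intro l
    obtain ⟨J, hJ⟩ := exists_coset_matrix (bL qs l : Equiv.Perm (W L N q R))
      (s := m / qs l) (by rw [orderOf_bL qs hqs hR0 l]; exact hms l)
    exact ⟨J, by rw [hJ, orderOf_bL qs hqs hR0 l]; rfl⟩
  choose J hJ using hJ
  have hHerm : (groupOp (q := q) (R := R) qs Y).IsHermitian := by
    have hmid : ∀ l, (mid qs (rightHom (Equiv.Perm (W L N q R))) l)ᴴ
        = mid qs (rightHom (Equiv.Perm (W L N q R))) l := by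
      intro l
      rw [← hJ l, conjTranspose_mul, conjTranspose_conjTranspose]
    have hu : ∀ x : Fin L × Fin N, (uPerm x : Equiv.Perm (W L N q R))⁻¹ = uPerm x :=
      fun x => inv_eq_of_mul_eq_one_left (uPerm_mul_self x)
    unfold Matrix.IsHermitian groupOp packOp
    rw [conjTranspose_sub, conjTranspose_kronecker, conjTranspose_one]
    congr 1
    · simp only [conjTranspose_sum]
      refine Finset.sum_congr rfl fun l _ => ?_
      rw [Finset.sum_comm]
      refine Finset.sum_congr rfl fun i _ => Finset.sum_congr rfl fun j _ => ?_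
      rw [conjTranspose_kronecker, star_eq_conjTranspose, star_eq_conjTranspose]
      simp only [conjTranspose_mul, conjTranspose_conjTranspose, pm_conjTranspose, hmid, ← map_inv,
        hu, mul_assoc]
    · simp [conjTranspose_sum, star_eq_conjTranspose]
  obtain ⟨m', B, U, hU, hm', hcodim, hB, hcomp⟩ := exists_compression hHerm hc.le
  have hm : 0 < m := Fintype.card_pos
  have hcount : Fintype.card (Fin k) * B ≤ m / q := by
    rw [Nat.le_div_iff_mul_le hq, Fintype.card_fin]
    have h1 := (hB p).trans htr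
    have h2 : (B : ℝ) ≤ m * (k * (5 * K / c) ^ (2 * p)) := by
      rw [div_pow, mul_div_assoc', mul_div_assoc', le_div_iff₀ (by positivity)]
      exact h1
    have h3 : ((k * B * q : ℕ) : ℝ) ≤ (m : ℝ) * ((k : ℝ) * k * q * (5 * K / c) ^ (2 * p)) := by
      push_cast
      calc (k : ℝ) * B * q ≤ k * (m * (k * (5 * K / c) ^ (2 * p))) * q := by gcongr
        _ = _ := by ring
    have h4 : (k : ℝ) * k * q * (5 * K / c) ^ (2 * p) ≤ 1 := by
      refine (mul_le_mul_of_nonneg_left hp.le (by positivity)).trans ?_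
      rw [mul_one_div, div_le_one (by positivity)]
      linarith
    exact_mod_cast h3.trans (mul_le_of_le_one_right (Nat.cast_nonneg m) h4)
  refine ⟨m, m', fun l => m / qs l, hm, hms, by omega, hm',
    fun l j => (J l * pm (rightHom (Equiv.Perm (W L N q R)) (uPerm (l, j))) :
      Matrix (Fin (m / qs l)) (Equiv.Perm (W L N q R)) ℂ) * U, ?_, ?_⟩
  · intro l j v
    refine sum_sq_mulVec_le _ ?_ v
    rw [Matrix.l2_opNorm_conjTranspose_mul_self]
    have hJn : ‖J l‖ * ‖J l‖ ≤ q := by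
      rw [← Matrix.l2_opNorm_conjTranspose_mul_self, hJ, mid]
      refine (norm_sum_le _ _).trans ((Finset.sum_le_card_nsmul _ _ 1 fun t _ => ?_).trans ?_)
      · exact norm_le_one_of_isometry (by rw [pm_conjTranspose, ← pm_mul, inv_mul_cancel, pm_one])
      · rw [Finset.card_range, nsmul_eq_mul, mul_one]
        exact_mod_cast hqsq l
    have hle : ‖J l * pm (rightHom (Equiv.Perm (W L N q R)) (uPerm (l, j))) * U‖ ≤ ‖J l‖ := by
      refine (Matrix.l2_opNorm_mul _ _).trans ((mul_le_of_le_one_right (norm_nonneg _)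
        (norm_le_one_of_isometry hU)).trans ?_)
      refine (Matrix.l2_opNorm_mul _ _).trans (mul_le_of_le_one_right (norm_nonneg _) ?_)
      exact norm_le_one_of_isometry (by rw [pm_conjTranspose, ← pm_mul, inv_mul_cancel, pm_one])
    exact (mul_le_mul hle hle (norm_nonneg _) (norm_nonneg _)).trans hJn
  · have key : (∑ l, ∑ i, ∑ j, (star (Y l i) * Y l j) ⊗ₖ
          ((J l * pm (rightHom (Equiv.Perm (W L N q R)) (uPerm (l, i))) * U)ᴴ * (J l * pm (rightHom (Equiv.Perm (W L N q R)) (uPerm (l, j))) * U)))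
        - (∑ l, ∑ j, star (Y l j) * Y l j) ⊗ₖ (1 : Matrix (Fin m') (Fin m') ℂ)
        = ((1 : Matrix (Fin k) (Fin k) ℂ) ⊗ₖ U)ᴴ * groupOp (q := q) (R := R) qs Y
            * ((1 : Matrix (Fin k) (Fin k) ℂ) ⊗ₖ U) := by
      rw [groupOp, packOp, Matrix.mul_sub, Matrix.sub_mul, conjTranspose_kronecker,
        conjTranspose_one, ← Matrix.mul_kronecker_mul, ← Matrix.mul_kronecker_mul, one_mul, mul_one,
        Matrix.mul_one, hU]
      congr 1
      simp only [Matrix.mul_sum, Matrix.sum_mul]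
      refine Finset.sum_congr rfl fun l _ => Finset.sum_congr rfl fun i _ =>
        Finset.sum_congr rfl fun j _ => ?_
      rw [← Matrix.mul_kronecker_mul, ← Matrix.mul_kronecker_mul, one_mul, mul_one]
      congr 1
      rw [← hJ, conjTranspose_mul, conjTranspose_mul, pm_conjTranspose, ← map_inv,
        inv_eq_of_mul_eq_one_left (uPerm_mul_self _)]
      simp only [Matrix.mul_assoc]
    rw [key]
    refine hcomp.trans ?_
    rw [hcdef, hKdef]
    have h1 := Real.sqrt_nonneg r
    have h2 : 0 ≤ (q : ℝ) * Real.sqrt r' := by positivity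
    linarith

end Vale.Agent.P095.Lift
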