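import Vale.Agent.P095.Lift.Defs

/-!
# Matrix tools for packing

Tensors of scalar matrices with elements of a C*-algebra, completely positive maps applied
blockwise to norm bounds, and exact comparison of the unit with a nonzero positive element in a
simple algebra.
-/

set_option linter.unusedSectionVars false

open scoped Matrix.Norms.L2Operator ComplexOrder Kronecker MatrixOrder

namespace Vale.Agent.P095.Lift

noncomputable section

open Matrix

/-- A selfadjoint element between `-r` and `r` has norm at most `r`. -/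
theorem norm_le_of_bounds {B : Type*} [CStarAlgebra B] [PartialOrder B] [StarOrderedRing B]
    {a : B} {r : ℝ} (hr : 0 ≤ r) (h1 : a ≤ algebraMap ℝ B r) (h2 : -a ≤ algebraMap ℝ B r) :
    ‖a‖ ≤ r := by
  have ha : IsSelfAdjoint a := by
    have := (IsSelfAdjoint.algebraMap B (IsSelfAdjoint.all r)).sub
      (IsSelfAdjoint.of_nonneg (sub_nonneg.2 h1))
    simpa using this
  have h3 : algebraMap ℝ B (-r) ≤ a := by rw [map_neg]; exact neg_le.1 h2
  rcases subsingleton_or_nontrivial B with hB | hB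
  · simpa [Subsingleton.elim a 0] using hr
  rw [← cfc_id' ℝ a]
  refine norm_cfc_le hr fun x hx => ?_
  rw [Real.norm_eq_abs, abs_le]
  exact ⟨(algebraMap_le_iff_le_spectrum ha).1 h3 x hx,
    (le_algebraMap_iff_spectrum_le ha).1 h1 x hx⟩

/-- A selfadjoint element is below the constant given by a norm bound. -/
theorem le_of_norm_le {B : Type*} [CStarAlgebra B] [PartialOrder B] [StarOrderedRing B]
    {a : B} {r : ℝ} (ha : IsSelfAdjoint a) (h : ‖a‖ ≤ r) : a ≤ algebraMap ℝ B r :=
  ha.le_algebraMap_norm_self.trans (algebraMap_mono B h)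

/-- A nonnegative element is a square. -/
theorem exists_star_mul_self {B : Type*} [CStarAlgebra B] [PartialOrder B] [StarOrderedRing B]
    {a : B} (ha : 0 ≤ a) : ∃ q : B, a = star q * q :=
  CStarAlgebra.nonneg_iff_eq_star_mul_self.1 ha

variable {A : Type*} [CStarAlgebra A] [PartialOrder A] [StarOrderedRing A]
variable {ι : Type*} [Fintype ι] [DecidableEq ι]

/-- The elementary tensor of a scalar matrix and an element. -/
def tmat (M : Matrix ι ι ℂ) (x : A) : CStarMatrix ι ι A :=
  CStarMatrix.ofMatrix (Matrix.of fun t t' => M t t' • x)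

theorem tmat_apply (M : Matrix ι ι ℂ) (x : A) (t t' : ι) : tmat M x t t' = M t t' • x := rfl

theorem tmat_mul (M M' : Matrix ι ι ℂ) (x x' : A) :
    tmat M x * tmat M' x' = tmat (M * M') (x * x') := by
  ext t t'
  rw [CStarMatrix.mul_apply]
  simp only [tmat_apply, Matrix.mul_apply, Finset.sum_smul, smul_mul_smul_comm]

theorem star_tmat (M : Matrix ι ι ℂ) (x : A) : star (tmat M x) = tmat Mᴴ (star x) := by
  ext t t'
  simp [CStarMatrix.star_apply, tmat_apply, Matrix.conjTranspose_apply, star_smul]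

theorem tmat_one_one : tmat (1 : Matrix ι ι ℂ) (1 : A) = 1 := by
  ext t t'
  simp [tmat_apply, CStarMatrix.one_apply, Matrix.one_apply, ite_smul]

theorem tmat_sub_right (M : Matrix ι ι ℂ) (x y : A) : tmat M (x - y) = tmat M x - tmat M y := by
  ext t t'
  exact smul_sub (M t t') x y

/-- The constant diagonal, as a homomorphism. -/
def diagHom (ι : Type*) [Fintype ι] [DecidableEq ι] (A : Type*) [CStarAlgebra A] [PartialOrder A]
    [StarOrderedRing A] : A →⋆ₐ[ℂ] CStarMatrix ι ι A where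
  toFun x := tmat 1 x
  map_one' := tmat_one_one
  map_mul' x y := by rw [tmat_mul, Matrix.one_mul]
  map_zero' := by ext t t'; exact smul_zero ((1 : Matrix ι ι ℂ) t t')
  map_add' x y := by ext t t'; exact smul_add ((1 : Matrix ι ι ℂ) t t') x y
  commutes' r := by
    ext t t'
    rw [CStarMatrix.algebraMap_apply, tmat_apply, Matrix.one_apply]
    split <;> simp
  map_star' x := by rw [star_tmat, Matrix.conjTranspose_one]

theorem diagHom_apply (x : A) : diagHom ι A x = tmat 1 x := rfl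

/-- Scalar matrices, as a homomorphism. -/
def scalarHom (ι : Type*) [Fintype ι] [DecidableEq ι] (A : Type*) [CStarAlgebra A]
    [PartialOrder A] [StarOrderedRing A] : Matrix ι ι ℂ →⋆ₐ[ℂ] CStarMatrix ι ι A where
  toFun M := tmat M 1
  map_one' := tmat_one_one
  map_mul' M N := by rw [tmat_mul, one_mul]
  map_zero' := by ext t t'; exact zero_smul ℂ (1 : A)
  map_add' M N := by ext t t'; exact add_smul (M t t') (N t t') (1 : A)
  commutes' r := by
    ext t t'
    rw [CStarMatrix.algebraMap_apply, tmat_apply, Matrix.algebraMap_matrix_apply]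
    split <;> simp [Algebra.algebraMap_eq_smul_one]
  map_star' M := by rw [star_tmat, star_one]; rfl

theorem norm_tmat_le (M : Matrix ι ι ℂ) (x : A) : ‖tmat M x‖ ≤ ‖M‖ * ‖x‖ := by
  have h : tmat M x = scalarHom ι A M * diagHom ι A x := by
    rw [diagHom_apply, show scalarHom ι A M = tmat M 1 from rfl, tmat_mul, Matrix.mul_one, one_mul]
  rw [h]
  exact (norm_mul_le _ _).trans (mul_le_mul (NonUnitalStarAlgHom.norm_apply_le (scalarHom ι A) M)
    (NonUnitalStarAlgHom.norm_apply_le (diagHom ι A) x) (norm_nonneg _) (norm_nonneg _))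

/-- Gram matrices of families of rows are nonnegative. -/
theorem gram_nonneg {γ : Type*} [Fintype γ] (v : γ → ι → A) :
    0 ≤ (CStarMatrix.ofMatrix (Matrix.of fun t t' => ∑ g, star (v g t) * v g t') :
      CStarMatrix ι ι A) := by
  rcases isEmpty_or_nonempty ι with hι | ⟨⟨s₀⟩⟩
  · exact le_of_eq (by ext t; exact isEmptyElim t)
  let Z : γ → CStarMatrix ι ι A := fun g =>
    CStarMatrix.ofMatrix (Matrix.of fun s t => if s = s₀ then v g t else 0)
  refine (Finset.sum_nonneg (s := (Finset.univ : Finset γ)) (f := fun g => star (Z g) * Z g)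
    fun g _ => star_mul_self_nonneg (Z g)).trans_eq ?_
  refine CStarMatrix.ext fun t t' => ?_
  have happ : ∀ (S : Finset γ) (f : γ → CStarMatrix ι ι A),
      (∑ g ∈ S, f g) t t' = ∑ g ∈ S, f g t t' := fun S f =>
    Matrix.sum_apply t t' S f
  rw [happ]
  refine Finset.sum_congr rfl fun g _ => ?_
  rw [CStarMatrix.mul_apply, Finset.sum_eq_single s₀]
  · simp [Z, CStarMatrix.star_apply]
  · intro s _ hs
    simp [Z, CStarMatrix.star_apply, hs]
  · simp

theorem psd_of_gram {k n : ℕ} {σ : A →ₗ[ℂ] Matrix (Fin k) (Fin k) ℂ} (hσ : IsCPToMatrix σ)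
    {γ : Type*} [Fintype γ] (v : γ → Fin n → A) :
    (Matrix.of fun p q : Fin n × Fin k =>
      σ (∑ g, star (v g p.1) * v g q.1) p.2 q.2).PosSemidef := by
  have h : (Matrix.of fun p q : Fin n × Fin k => σ (∑ g, star (v g p.1) * v g q.1) p.2 q.2)
      = ∑ g, Matrix.of fun p q : Fin n × Fin k => σ (star (v g p.1) * v g q.1) p.2 q.2 := by
    ext p q
    simp [Matrix.sum_apply, map_sum]
  rw [h]
  exact Matrix.posSemidef_sum Finset.univ fun g _ => hσ n (v g)

/-- The blocks of a completely positive unital map on the Gram matrix of a row. -/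
theorem exists_factor {k N : ℕ} {σ : A →ₗ[ℂ] Matrix (Fin k) (Fin k) ℂ} (hσ : IsCPToMatrix σ)
    (hσ1 : σ 1 = 1) (a : Fin N → A) :
    ∃ W : Matrix (Fin (N * k)) (Fin N × Fin k) ℂ,
      (Wᴴ * W = Matrix.of fun p q : Fin N × Fin k => σ (star (a p.1) * a q.1) p.2 q.2) ∧
        ∀ r : ℝ, ‖∑ j, a j * star (a j)‖ ≤ r → ‖W * Wᴴ‖ ≤ r := by
  set B : Matrix (Fin N × Fin k) (Fin N × Fin k) ℂ :=
    Matrix.of fun p q => σ (star (a p.1) * a q.1) p.2 q.2 with hB
  have hB0 : 0 ≤ B := Matrix.nonneg_iff_posSemidef.2 (hσ N a)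
  obtain ⟨V, hV⟩ := CStarAlgebra.nonneg_iff_eq_star_mul_self.1 hB0
  let f : Fin (N * k) ≃ Fin N × Fin k := finProdFinEquiv.symm
  have hW : (V.submatrix f id)ᴴ * V.submatrix f id = B := by
    rw [Matrix.conjTranspose_submatrix, Matrix.submatrix_mul_equiv, hV]
    rfl
  refine ⟨V.submatrix f id, hW, fun r hr => ?_⟩
  have hr0 : 0 ≤ r := (norm_nonneg _).trans hr
  have key : ‖(V.submatrix f id) * (V.submatrix f id)ᴴ‖ = ‖B‖ := by
    rw [← hW, Matrix.l2_opNorm_conjTranspose_mul_self]
    have h := Matrix.l2_opNorm_conjTranspose_mul_self (V.submatrix f id)ᴴ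
    rwa [Matrix.conjTranspose_conjTranspose, Matrix.l2_opNorm_conjTranspose] at h
  rw [key]
  rcases N.eq_zero_or_pos with hN | hN
  · subst hN
    have : B = 0 := Subsingleton.elim _ _
    simpa [this] using hr0
  let Z : CStarMatrix (Fin N) (Fin N) A :=
    CStarMatrix.ofMatrix (Matrix.of fun s t => if s = ⟨0, hN⟩ then a t else 0)
  have hZ : Z * star Z
      = tmat (Matrix.single ⟨0, hN⟩ ⟨0, hN⟩ (1 : ℂ)) (∑ j, a j * star (a j)) := by
    ext s t
    rw [CStarMatrix.mul_apply, tmat_apply]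
    simp only [CStarMatrix.star_apply]
    by_cases hs : s = ⟨0, hN⟩ <;> by_cases ht : t = ⟨0, hN⟩ <;> simp [Z, hs, ht, Ne.symm]
  have hT : ‖star Z * Z‖ ≤ r := by
    rw [CStarRing.norm_star_mul_self, ← CStarRing.norm_self_mul_star, hZ]
    refine (norm_tmat_le _ _).trans ((mul_le_of_le_one_left (norm_nonneg _) ?_).trans hr)
    rw [← Matrix.diagonal_single, Matrix.l2_opNorm_diagonal]
    refine (pi_norm_le_iff_of_nonneg zero_le_one).2 fun s => ?_
    rw [Pi.single_apply]
    split <;> simp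
  have hle := le_of_norm_le (B := CStarMatrix (Fin N) (Fin N) A)
    (IsSelfAdjoint.star_mul_self Z) hT
  have hM : (0 : CStarMatrix (Fin N) (Fin N) A)
      ≤ algebraMap ℝ (CStarMatrix (Fin N) (Fin N) A) r - star Z * Z := sub_nonneg.2 hle
  obtain ⟨Q, hQ⟩ := exists_star_mul_self hM
  rw [CStarAlgebra.norm_le_iff_le_algebraMap B hr0 hB0, Matrix.le_iff]
  have heq : algebraMap ℝ (Matrix (Fin N × Fin k) (Fin N × Fin k) ℂ) r - B
      = Matrix.of fun p q : Fin N × Fin k => σ (∑ s, star (Q s p.1) * Q s q.1) p.2 q.2 := by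
    ext p q
    have hpq : ∑ s, star (Q s p.1) * Q s q.1
        = (if p.1 = q.1 then (r : ℂ) • (1 : A) else 0) - star (a p.1) * a q.1 := by
      have e1 := congrFun (congrFun hQ p.1) q.1
      have e2 : (star Z * Z) p.1 q.1 = star (a p.1) * a q.1 := by
        rw [CStarMatrix.mul_apply, Finset.sum_eq_single (⟨0, hN⟩ : Fin N)]
        · simp [Z, CStarMatrix.star_apply]
        · intro s _ hs
          simp [Z, CStarMatrix.star_apply, hs]
        · simp
      rw [CStarMatrix.mul_apply (M := star Q)] at e1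
      simp only [CStarMatrix.star_apply] at e1
      rw [← e1, ← e2]
      rw [IsScalarTower.algebraMap_apply ℝ ℂ (CStarMatrix (Fin N) (Fin N) A)]
      change algebraMap ℂ (CStarMatrix (Fin N) (Fin N) A) r p.1 q.1 - _ = _
      simp [CStarMatrix.algebraMap_apply, Algebra.algebraMap_eq_smul_one]
    rw [Matrix.of_apply, hpq, map_sub, Matrix.sub_apply, Matrix.sub_apply, hB, Matrix.of_apply]
    congr 1
    rw [Matrix.algebraMap_matrix_apply, apply_ite σ, map_smul, hσ1, map_zero]
    rcases p with ⟨i, u⟩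
    rcases q with ⟨j, v⟩
    simp only [Prod.mk.injEq, Complex.coe_algebraMap]
    split_ifs <;> simp_all
  rw [heq]
  exact psd_of_gram hσ (fun s t => Q s t)

/-- A completely positive map out of matrices, applied blockwise. -/
def blockMap {k : ℕ} (ρ : Matrix (Fin k) (Fin k) ℂ →ₗ[ℂ] A)
    (M : Matrix (Fin k × ι) (Fin k × ι) ℂ) : CStarMatrix ι ι A :=
  CStarMatrix.ofMatrix (Matrix.of fun t t' => ρ (Matrix.of fun p q => M (p, t) (q, t')))

theorem blockMap_kronecker {k : ℕ} (ρ : Matrix (Fin k) (Fin k) ℂ →ₗ[ℂ] A)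
    (x : Matrix (Fin k) (Fin k) ℂ) (M : Matrix ι ι ℂ) :
    blockMap ρ (x ⊗ₖ M) = tmat M (ρ x) := by
  ext t t'
  rw [tmat_apply, ← map_smul]
  change ρ _ = ρ _
  congr 1
  ext p q
  simp [Matrix.kroneckerMap_apply, mul_comm]

theorem blockMap_nonneg {k : ℕ} {ρ : Matrix (Fin k) (Fin k) ℂ →ₗ[ℂ] A} (hρ : IsCPFromMatrix ρ)
    {M : Matrix (Fin k × ι) (Fin k × ι) ℂ} (hM : 0 ≤ M) : 0 ≤ blockMap ρ M := by
  obtain ⟨n, c, hc⟩ := hρ
  obtain ⟨C, rfl⟩ := CStarAlgebra.nonneg_iff_eq_star_mul_self.1 hM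
  refine (gram_nonneg (fun (g : Fin n × (Fin k × ι)) t => ∑ p, C g.2 (p, t) • c g.1 p)).trans_eq ?_
  ext t t'
  change ∑ g : Fin n × (Fin k × ι), _ = ρ _
  rw [hc, Fintype.sum_prod_type]
  refine Finset.sum_congr rfl fun l _ => ?_
  simp only [star_sum, star_smul, Finset.sum_mul, Finset.mul_sum, smul_mul_smul_comm,
    Matrix.star_eq_conjTranspose, Matrix.of_apply, Matrix.mul_apply, Matrix.conjTranspose_apply,
    Finset.sum_smul]
  rw [Finset.sum_comm]
  rw [Finset.sum_congr rfl fun _ _ => Finset.sum_comm (f := fun a b => _)]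
  exact Finset.sum_comm

/-- Blockwise application of a unital completely positive map is contractive on selfadjoints. -/
theorem norm_blockMap_le {k : ℕ} {ρ : Matrix (Fin k) (Fin k) ℂ →ₗ[ℂ] A} (hρ : IsCPFromMatrix ρ)
    (hρ1 : ρ 1 = 1) {M : Matrix (Fin k × ι) (Fin k × ι) ℂ} (hM : IsSelfAdjoint M) {r : ℝ}
    (hr : ‖M‖ ≤ r) : ‖blockMap ρ M‖ ≤ r := by
  have hadd : ∀ P Q : Matrix (Fin k × ι) (Fin k × ι) ℂ,
      blockMap ρ (P + Q) = blockMap ρ P + blockMap ρ Q := fun P Q => by
    ext t t'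
    change ρ _ = ρ _ + ρ _
    rw [← map_add]
    rfl
  have hone : blockMap ρ (algebraMap ℝ (Matrix (Fin k × ι) (Fin k × ι) ℂ) r)
      = algebraMap ℝ (CStarMatrix ι ι A) r := by
    rw [IsScalarTower.algebraMap_apply ℝ ℂ (Matrix (Fin k × ι) (Fin k × ι) ℂ),
      Algebra.algebraMap_eq_smul_one, ← Matrix.one_kronecker_one, ← Matrix.smul_kronecker,
      blockMap_kronecker, map_smul, hρ1,
      IsScalarTower.algebraMap_apply ℝ ℂ (CStarMatrix ι ι A)]
    ext t t'
    rw [tmat_apply, CStarMatrix.algebraMap_apply, Matrix.one_apply]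
    split <;> simp [Algebra.algebraMap_eq_smul_one]
  have hneg : blockMap ρ (-M) = -blockMap ρ M := by
    ext t t'
    change ρ _ = -ρ _
    rw [← map_neg]
    rfl
  have h1 := blockMap_nonneg hρ (sub_nonneg.2 (le_of_norm_le hM hr))
  have h2 := blockMap_nonneg hρ (sub_nonneg.2 (le_of_norm_le hM.neg ((norm_neg M).trans_le hr)))
  rw [sub_eq_add_neg, hadd, hone, hneg, ← sub_eq_add_neg, sub_nonneg] at h1
  rw [sub_neg_eq_add, hadd, hone] at h2
  refine norm_le_of_bounds ((norm_nonneg M).trans hr) h1 ?_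
  rwa [← sub_nonneg, sub_neg_eq_add]

/-- In a simple algebra the unit is a finite sum of conjugates of a nonzero positive element. -/
theorem exists_conj_sum_eq_one [IsSimpleRing A] {b : A} (hb : 0 ≤ b) (hb0 : b ≠ 0) :
    ∃ (n : ℕ) (x : Fin n → A), ∑ i, star (x i) * b * x i = 1 := by
  have hmem : (1 : A) ∈ TwoSidedIdeal.span {b} := by
    have h : TwoSidedIdeal.span {b} = (⊤ : TwoSidedIdeal A) := by
      rcases IsSimpleOrder.eq_bot_or_eq_top (TwoSidedIdeal.span ({b} : Set A)) with h | h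
      · exact absurd ((TwoSidedIdeal.mem_bot A).1 (h ▸ TwoSidedIdeal.subset_span rfl)) hb0
      · exact h
    rw [h]
    trivial
  have hsum : ∃ (n : ℕ) (x y : Fin n → A), ∑ i, x i * b * y i = 1 := by
    rw [TwoSidedIdeal.mem_span_iff_mem_addSubgroup_closure] at hmem
    refine AddSubgroup.closure_induction
      (p := fun t _ => ∃ (n : ℕ) (x y : Fin n → A), ∑ i, x i * b * y i = t) ?_ ?_ ?_ ?_ hmem
    · rintro t ⟨_, ⟨u, -, _, rfl, rfl⟩, v, -, rfl⟩
      exact ⟨1, fun _ => u, fun _ => v, by simp⟩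
    · exact ⟨0, fun _ => 0, fun _ => 0, by simp⟩
    · rintro s t _ _ ⟨n, x, y, rfl⟩ ⟨n', x', y', rfl⟩
      exact ⟨n + n', Fin.append x x', Fin.append y y', by simp [Fin.sum_univ_add]⟩
    · rintro s _ ⟨n, x, y, rfl⟩
      exact ⟨n, fun i => -x i, y, by simp⟩
  obtain ⟨n, x, y, hxy⟩ := hsum
  set P := ∑ i, star (y i) * b * y i with hP
  have hP0 : 0 ≤ P := Finset.sum_nonneg fun i _ => star_left_conjugate_nonneg hb _
  set u : Fin n → A := fun i => x i * CFC.sqrt b
  set v : Fin n → A := fun i => CFC.sqrt b * y i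
  have hs : star (CFC.sqrt b) = CFC.sqrt b := (CFC.sqrt_nonneg b).isSelfAdjoint.star_eq
  have huv : ∑ i, u i * v i = 1 := by
    rw [← hxy]
    refine Finset.sum_congr rfl fun i _ => ?_
    simp only [u, v, mul_assoc]
    rw [← mul_assoc (CFC.sqrt b), CFC.sqrt_mul_sqrt_self b]
  have hvP : ∀ i, star (v i) * v i = star (y i) * b * y i := fun i => by
    simp only [v, star_mul, hs, mul_assoc]
    rw [← mul_assoc (CFC.sqrt b), CFC.sqrt_mul_sqrt_self b]
  -- Cauchy-Schwarz from the squares of all differences.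
  have key : (1 : A) ≤ (n : ℝ) • ((∑ i, ‖u i‖ ^ 2) • P) := by
    have hw : ∀ i, star (u i * v i) * (u i * v i) ≤ (∑ i, ‖u i‖ ^ 2) • (star (v i) * v i) := by
      intro i
      have e : star (u i * v i) * (u i * v i) = star (v i) * (star (u i) * u i) * v i := by
        simp only [star_mul, mul_assoc]
      rw [e]
      refine (CStarAlgebra.star_left_conjugate_le_norm_smul (IsSelfAdjoint.star_mul_self _)).trans ?_
      rw [CStarRing.norm_star_mul_self, ← sq]
      exact smul_le_smul_of_nonneg_right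
        (Finset.single_le_sum (f := fun i => ‖u i‖ ^ 2) (fun i _ => sq_nonneg _) (Finset.mem_univ i))
        (star_mul_self_nonneg _)
    set w : Fin n → A := fun i => u i * v i
    have hd : 0 ≤ ∑ i, ∑ j, star (w i - w j) * (w i - w j) :=
      Finset.sum_nonneg fun i _ => Finset.sum_nonneg fun j _ => star_mul_self_nonneg _
    have hexp : ∑ i, ∑ j, star (w i - w j) * (w i - w j)
        = (2 : ℝ) • ((n : ℝ) • ∑ i, star (w i) * w i) - (2 : ℝ) • (1 : A) := by
      simp only [star_sub, sub_mul, mul_sub, Finset.sum_sub_distrib]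
      simp only [← Finset.mul_sum, ← Finset.sum_mul, ← star_sum, Finset.sum_const,
        Finset.card_univ, Fintype.card_fin]
      rw [show ∑ i, w i = 1 from huv, star_one, one_mul, two_smul, two_smul,
        Finset.smul_sum]
      simp only [mul_smul_comm, ← Nat.cast_smul_eq_nsmul ℝ, Finset.smul_sum]
      abel
    rw [hexp, ← smul_sub] at hd
    have h1 : (1 : A) ≤ (n : ℝ) • ∑ i, star (w i) * w i := by
      have := smul_nonneg (show (0 : ℝ) ≤ 1 / 2 by norm_num) hd
      rw [smul_smul, show (1 / 2 : ℝ) * 2 = 1 by norm_num, one_smul] at this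
      exact sub_nonneg.1 this
    refine h1.trans (smul_le_smul_of_nonneg_left ?_ n.cast_nonneg)
    rw [hP, Finset.smul_sum]
    exact Finset.sum_le_sum fun i _ => (hw i).trans_eq (by rw [hvP i])
  have hPu : IsUnit P := by
    have h : IsUnit ((n : ℝ) • ((∑ i, ‖u i‖ ^ 2) • P)) :=
      CStarAlgebra.isUnit_of_le 1 key isStrictlyPositive_one
    rw [smul_smul, Algebra.smul_def] at h
    exact ((Commute.isUnit_mul_iff (Algebra.commutes _ P)).1 h).2
  have hS : IsUnit (CFC.sqrt P) := (CFC.isUnit_sqrt_iff P hP0).2 hPu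
  refine ⟨n, fun i => y i * Ring.inverse (CFC.sqrt P), ?_⟩
  have hsP : star (Ring.inverse (CFC.sqrt P)) = Ring.inverse (CFC.sqrt P) := by
    rw [← Ring.inverse_star, (CFC.sqrt_nonneg P).isSelfAdjoint.star_eq]
  calc ∑ i, star (y i * Ring.inverse (CFC.sqrt P)) * b * (y i * Ring.inverse (CFC.sqrt P))
      = Ring.inverse (CFC.sqrt P) * P * Ring.inverse (CFC.sqrt P) := by
        rw [hP, Finset.mul_sum, Finset.sum_mul]
        refine Finset.sum_congr rfl fun i _ => ?_
        rw [← hP, star_mul, hsP]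
        simp only [mul_assoc]
    _ = Ring.inverse (CFC.sqrt P) * (CFC.sqrt P * CFC.sqrt P) * Ring.inverse (CFC.sqrt P) := by
        rw [CFC.sqrt_mul_sqrt_self P]
    _ = 1 := by
        rw [← mul_assoc, Ring.inverse_mul_cancel _ hS, one_mul, Ring.mul_inverse_cancel _ hS]

end

end Vale.Agent.P095.Lift
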