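import Vale.Agent.P095.Lift.Sub
import Vale.Agent.P095.Lift.Column
import Vale.Agent.P095.Lift.FreePack
import Vale.Agent.P095.Lift.PackingTools

/-!
# Packing in a C*-algebra with completely positive approximations

The finite dimensional free packing, transported by the approximation, makes many copies of a cut
subequivalent to the slots. Consequences: elements small in all traces are uniformly small, and
elements big in all traces are uniformly big.
-/

set_option linter.unusedSectionVars false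

open scoped Matrix.Norms.L2Operator ComplexOrder Kronecker MatrixOrder
open Vale.Agent.P095.Amenable (IsTrace)

noncomputable section

namespace Vale.Agent.P095.Lift

open Matrix

/-- An isometric matrix has norm at most one. -/
theorem norm_le_one_of_isometry {ι κ : Type*} [Fintype ι] [DecidableEq ι] [Fintype κ]
    [DecidableEq κ] {J : Matrix ι κ ℂ} (h : Jᴴ * J = 1) : ‖J‖ ≤ 1 := by
  have h2 := Matrix.l2_opNorm_conjTranspose_mul_self J
  rw [h, ← Matrix.diagonal_one, Matrix.l2_opNorm_diagonal] at h2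
  have h3 : ‖(fun _ => 1 : κ → ℂ)‖ ≤ 1 :=
    (pi_norm_le_iff_of_nonneg zero_le_one).2 fun _ => by simp
  nlinarith [norm_nonneg J]

/-- The norm of a rectangular matrix from a bound on its values. -/
theorem norm_le_of_mulVec {ι κ : Type*} [Fintype ι] [Fintype κ] [DecidableEq κ]
    {M : Matrix ι κ ℂ} {q : ℝ} (hq : 0 ≤ q)
    (h : ∀ v : κ → ℂ, ∑ p, ‖M.mulVec v p‖ ^ 2 ≤ q * ∑ p, ‖v p‖ ^ 2) : ‖M‖ ≤ Real.sqrt q := by
  rw [Matrix.l2_opNorm_def]
  refine ContinuousLinearMap.opNorm_le_bound _ (Real.sqrt_nonneg q) fun x => ?_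
  rw [EuclideanSpace.norm_eq, EuclideanSpace.norm_eq, ← Real.sqrt_mul hq]
  exact Real.sqrt_le_sqrt (h x.ofLp)

variable {A : Type*} [CStarAlgebra A] [PartialOrder A] [StarOrderedRing A]

/-- Unital completely positive maps into matrices are contractive on positive elements. -/
theorem norm_map_le {k : ℕ} {σ : A →ₗ[ℂ] Matrix (Fin k) (Fin k) ℂ} (hσ : IsCPToMatrix σ)
    (hσ1 : σ 1 = 1) {x : A} (hx : 0 ≤ x) {r : ℝ} (h : ‖x‖ ≤ r) : ‖σ x‖ ≤ r := by
  have hpos : ∀ y : A, 0 ≤ y → 0 ≤ σ y := fun y hy => by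
    obtain ⟨u, rfl⟩ := exists_star_mul_self hy
    exact Matrix.nonneg_iff_posSemidef.2
      ((hσ 1 fun _ => u).submatrix fun p : Fin k => ((0 : Fin 1), p))
  rw [CStarAlgebra.norm_le_iff_le_algebraMap _ ((norm_nonneg x).trans h) (hpos x hx),
    ← sub_nonneg]
  have h2 := hpos _ (sub_nonneg.2 (le_of_norm_le hx.isSelfAdjoint h))
  rwa [map_sub, IsScalarTower.algebraMap_apply ℝ ℂ A, Algebra.algebraMap_eq_smul_one, map_smul,
    hσ1, ← Algebra.algebraMap_eq_smul_one (R := ℂ) (A := Matrix (Fin k) (Fin k) ℂ),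
    ← IsScalarTower.algebraMap_apply ℝ ℂ (Matrix (Fin k) (Fin k) ℂ)] at h2

/-- The calculus commutes with homomorphisms. -/
theorem cfc_hom_apply {B : Type*} [CStarAlgebra B] (φ : A →⋆ₐ[ℂ] B) (f : ℝ → ℝ) {x : A}
    (hx : IsSelfAdjoint x) (hf : Continuous f) : cfc f (φ x) = φ (cfc f x) :=
  (StarAlgHomClass.map_cfc (S := ℂ) φ f x hf.continuousOn
    (AddMonoidHomClass.continuous_of_bound φ 1 fun y => by
      simpa using NonUnitalStarAlgHom.norm_apply_le φ y) hx (hx.map φ)).symm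

/-- Rordam's lemma at the image of a homomorphism. -/
theorem exists_conj_hom_cut {B : Type*} [CStarAlgebra B] [PartialOrder B] [StarOrderedRing B]
    (φ : A →⋆ₐ[ℂ] B) {x : A} (hx : IsSelfAdjoint x) {z : B} {θ ξ : ℝ} (hx' : 0 ≤ φ x) (hz : 0 ≤ z)
    (hθ : θ < ξ) (h : ‖z - φ x‖ ≤ θ) {d : ℝ} (hd : 0 < d) :
    ∃ R : B, ‖star R * z * R - φ (cfc (fun t : ℝ => max (t - ξ) 0) x)‖ < d := by
  rw [← cfc_hom_apply φ _ hx (by fun_prop)]
  exact exists_conj_eq_cut hx' hz hθ h hd

theorem blockMap_add {ι : Type*} [Fintype ι] [DecidableEq ι] {k : ℕ}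
    (ρ : Matrix (Fin k) (Fin k) ℂ →ₗ[ℂ] A) (P Q : Matrix (Fin k × ι) (Fin k × ι) ℂ) :
    blockMap ρ (P + Q) = blockMap ρ P + blockMap ρ Q := by
  ext t t'
  change ρ _ = ρ _ + ρ _
  rw [← map_add]
  rfl

/-- Conjugating a Gram matrix. -/
theorem gram_conj_apply {γ ι : Type*} [Fintype γ] [Fintype ι] [DecidableEq ι] (v : γ → ι → A)
    (R : CStarMatrix ι ι A) (i j : ι) :
    (star R * CStarMatrix.ofMatrix (Matrix.of fun t t' => ∑ g, star (v g t) * v g t') * R :
      CStarMatrix ι ι A) i j = ∑ g, star (∑ t, v g t * R t i) * ∑ t, v g t * R t j := by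
  simp only [CStarMatrix.mul_apply, CStarMatrix.star_apply, CStarMatrix.ofMatrix_apply,
    Matrix.of_apply, star_sum, star_mul, Finset.sum_mul, Finset.mul_sum, mul_assoc]
  rw [Finset.sum_comm (γ := γ)]
  exact Finset.sum_congr rfl fun _ _ => Finset.sum_comm

/-- The packing matrix: close to the diagonal of `e`. -/
theorem exists_pack_gram (hA : IsNuclear A) {L N q : ℕ} (hq : 0 < q) (qs : Fin L → ℕ)
    (hqs : ∀ l, qs l = 1 ∨ qs l = q) (a : Fin L → Fin (N + 1) → A) {e : A} (he1 : ‖e‖ ≤ 1)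
    {r r' θ : ℝ} (hr : ∀ l, ‖∑ j, a l j * star (a l j)‖ ≤ r)
    (hr' : ∀ l, qs l ≠ 1 → ‖∑ j, a l j * star (a l j)‖ ≤ r') (hr1 : r ≤ 1)
    (hsum : ‖(∑ l, ∑ j, star (a l j) * a l j) - e‖ ≤ θ) (hθ : θ ≤ 1 / 2) {κ : ℝ} (hκ : 0 < κ) :
    ∃ (m m' : ℕ) (ms : Fin L → ℕ), 0 < m ∧ (∀ l, ms l * qs l = m) ∧ m ≤ m' + m / q ∧ m' ≤ m ∧
      ∃ G : (l : Fin L) → Fin (N + 1) → Matrix (Fin (ms l)) (Fin m') ℂ,
        ‖(∑ l, ∑ i, ∑ j, tmat ((G l i)ᴴ * G l j) (star (a l i) * a l j)) - tmat 1 e‖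
          ≤ 8 * Real.sqrt r + 16 * q * Real.sqrt r' + θ + 2 * κ := by
  classical
  set δ : ℝ := κ / (L * (N + 1) * (N + 1) * q + L * (N + 1) + 1) with hδ
  have hδ0 : 0 < δ := by positivity
  obtain ⟨k, σ, ρ, hσ1, hρ1, hσ, hρ, happ⟩ := hA ((Finset.univ : Finset (Fin L × Fin (N + 1) ×
    Fin (N + 1))).image fun t => star (a t.1 t.2.1) * a t.1 t.2.2) δ hδ0
  have happ' : ∀ l i j, ‖ρ (σ (star (a l i) * a l j)) - star (a l i) * a l j‖ ≤ δ := fun l i j =>
    (happ _ (Finset.mem_image_of_mem _ (Finset.mem_univ (l, i, j)))).le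
  choose W hW hWr using fun l => exists_factor hσ hσ1 (a l)
  let f : Fin ((N + 1) * k) ≃ Fin (N + 1) × Fin k := finProdFinEquiv.symm
  let J : Fin (N + 1) → Matrix (Fin (N + 1) × Fin k) (Fin k) ℂ :=
    fun j => Matrix.of fun x p => if x = (j, p) then 1 else 0
  have hJB : ∀ l i j, (J i)ᴴ * ((W l)ᴴ * W l) * J j = σ (star (a l i) * a l j) := fun l i j => by
    ext p p'
    simp [hW, J, Matrix.mul_apply, Matrix.conjTranspose_apply, apply_ite]
  have hJJ : ∀ j, (J j)ᴴ * J j = 1 := fun j => by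
    ext p p'
    simp [J, Matrix.mul_apply, Matrix.conjTranspose_apply, Matrix.one_apply, apply_ite, eq_comm]
  have hJsum : ∑ j, J j * (J j)ᴴ = 1 := by
    ext ⟨x, u⟩ ⟨y, v⟩
    simp only [Matrix.sum_apply, Matrix.mul_apply, Matrix.conjTranspose_apply, J, Matrix.of_apply,
      Prod.mk.injEq, Matrix.one_apply]
    rw [Finset.sum_eq_single x]
    · rw [Finset.sum_eq_single u]
      · by_cases h1 : y = x <;> by_cases h2 : v = u <;> simp [h1, h2, Ne.symm]
      · intro b _ hb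
        simp [Ne.symm hb]
      · simp
    · intro b _ hb
      simp [Ne.symm hb]
    · simp
  set P : Matrix (Fin ((N + 1) * k)) (Fin k) ℂ := (J 0).submatrix f id with hPdef
  have hP : Pᴴ * P = 1 := by
    rw [hPdef, Matrix.conjTranspose_submatrix, Matrix.submatrix_mul_equiv, hJJ]
    rfl
  have hPn : ‖P‖ ≤ 1 := norm_le_one_of_isometry hP
  have hPn' : ‖Pᴴ‖ ≤ 1 := (Matrix.l2_opNorm_conjTranspose P).trans_le hPn
  set Y : Fin L → Fin (N + 1) → Matrix (Fin ((N + 1) * k)) (Fin ((N + 1) * k)) ℂ :=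
    fun l j => W l * J j * Pᴴ with hY
  have hYY : ∀ l i j, star (Y l i) * Y l j = P * σ (star (a l i) * a l j) * Pᴴ := fun l i j => by
    rw [← hJB, hY]
    simp only [Matrix.star_eq_conjTranspose, Matrix.conjTranspose_mul,
      Matrix.conjTranspose_conjTranspose, Matrix.mul_assoc]
  have hYr : ∀ l, ∑ j, Y l j * star (Y l j) = W l * (W l)ᴴ := fun l => by
    have h1 : ∀ j, Y l j * star (Y l j) = W l * (J j * (J j)ᴴ) * (W l)ᴴ := fun j => by
      rw [hY]
      simp only [Matrix.star_eq_conjTranspose, Matrix.conjTranspose_mul,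
        Matrix.conjTranspose_conjTranspose, Matrix.mul_assoc]
      rw [← Matrix.mul_assoc Pᴴ P, hP, Matrix.one_mul]
    rw [Finset.sum_congr rfl fun j _ => h1 j, ← Matrix.sum_mul, ← Matrix.mul_sum, hJsum,
      Matrix.mul_one]
  set sA : A := ∑ l, ∑ j, star (a l j) * a l j with hsA
  have hsA0 : 0 ≤ sA := Finset.sum_nonneg fun l _ => Finset.sum_nonneg fun j _ =>
    star_mul_self_nonneg _
  have hYs : ∑ l, ∑ j, star (Y l j) * Y l j = P * σ sA * Pᴴ := by
    simp only [hsA, map_sum, hYY, Matrix.mul_sum, Matrix.sum_mul]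
  have hsAn : ‖sA‖ ≤ 2 := by
    have := norm_le_norm_add_norm_sub' sA e
    linarith
  have hs : ‖∑ l, ∑ j, star (Y l j) * Y l j‖ ≤ 2 := by
    rw [hYs]
    calc ‖P * σ sA * Pᴴ‖ ≤ ‖P * σ sA‖ * ‖Pᴴ‖ := Matrix.l2_opNorm_mul _ _
      _ ≤ ‖P‖ * ‖σ sA‖ * ‖Pᴴ‖ := by
          exact mul_le_mul_of_nonneg_right (Matrix.l2_opNorm_mul _ _) (norm_nonneg _)
      _ ≤ 1 * 2 * 1 := by
          exact mul_le_mul (mul_le_mul hPn (norm_map_le hσ hσ1 hsA0 hsAn) (norm_nonneg _)
            zero_le_one) hPn' (norm_nonneg _) (by norm_num)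
      _ = 2 := by norm_num
  obtain ⟨m, m', ms, hm, hms, hmm, hm', G, hG, hGb⟩ := exists_free_pack hq qs hqs Y
    (r := r) (r' := r') (fun l => hYr l ▸ hWr l r (hr l))
    (fun l hl => hYr l ▸ hWr l r' (hr' l hl)) hr1 hs hκ
  refine ⟨m, m', ms, hm, hms, hmm, hm', G, ?_⟩
  set D := (∑ l, ∑ i, ∑ j, (star (Y l i) * Y l j) ⊗ₖ ((G l i)ᴴ * G l j))
      - (∑ l, ∑ j, star (Y l j) * Y l j) ⊗ₖ (1 : Matrix (Fin m') (Fin m') ℂ) with hD
  have hDh : D.IsHermitian := by
    rw [Matrix.IsHermitian, hD]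
    simp only [Matrix.conjTranspose_sub, Matrix.conjTranspose_sum, Matrix.conjTranspose_kronecker,
      Matrix.conjTranspose_mul, Matrix.star_eq_conjTranspose, Matrix.conjTranspose_conjTranspose,
      Matrix.conjTranspose_one]
    rw [Finset.sum_congr rfl fun _ _ => Finset.sum_comm]
  set K : Matrix (Fin ((N + 1) * k) × Fin m') (Fin k × Fin m') ℂ :=
    P ⊗ₖ (1 : Matrix (Fin m') (Fin m') ℂ) with hK
  have hKK : Kᴴ * K = 1 := by
    rw [hK, Matrix.conjTranspose_kronecker, ← Matrix.mul_kronecker_mul, hP,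
      Matrix.conjTranspose_one, Matrix.one_mul, Matrix.one_kronecker_one]
  have hKn : ‖K‖ ≤ 1 := norm_le_one_of_isometry hKK
  set D' := Kᴴ * D * K with hD'
  have hD'h : IsSelfAdjoint D' := Matrix.isHermitian_conjTranspose_mul_mul K hDh
  have hD'n : ‖D'‖ ≤ 8 * Real.sqrt r + 16 * q * Real.sqrt r' + κ := by
    calc ‖D'‖ ≤ ‖Kᴴ * D‖ * ‖K‖ := Matrix.l2_opNorm_mul _ _
      _ ≤ ‖Kᴴ * D‖ := mul_le_of_le_one_right (norm_nonneg _) hKn
      _ ≤ ‖Kᴴ‖ * ‖D‖ := Matrix.l2_opNorm_mul _ _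
      _ ≤ ‖D‖ := mul_le_of_le_one_left (norm_nonneg _)
          ((Matrix.l2_opNorm_conjTranspose K).trans_le hKn)
      _ ≤ _ := hGb
  have hsingle : ∀ (S : Matrix (Fin k) (Fin k) ℂ) (M : Matrix (Fin m') (Fin m') ℂ),
      Kᴴ * ((P * S * Pᴴ) ⊗ₖ M) * K = S ⊗ₖ M := fun S M => by
    rw [hK, Matrix.conjTranspose_kronecker, ← Matrix.mul_kronecker_mul,
      ← Matrix.mul_kronecker_mul, Matrix.conjTranspose_one, Matrix.one_mul, Matrix.mul_one]
    congr 1
    rw [← Matrix.mul_assoc, ← Matrix.mul_assoc, hP, Matrix.one_mul, Matrix.mul_assoc, hP,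
      Matrix.mul_one]
  have hD'e : D' = (∑ l, ∑ i, ∑ j, σ (star (a l i) * a l j) ⊗ₖ ((G l i)ᴴ * G l j))
      - σ sA ⊗ₖ (1 : Matrix (Fin m') (Fin m') ℂ) := by
    rw [hD', hD, hYs]
    simp only [Matrix.mul_sub, Matrix.sub_mul, Matrix.mul_sum, Matrix.sum_mul, hYY, hsingle]
  let Φ : Matrix (Fin k × Fin m') (Fin k × Fin m') ℂ →+ CStarMatrix (Fin m') (Fin m') A :=
    AddMonoidHom.mk' (blockMap ρ) (blockMap_add ρ)
  have hΦe : blockMap ρ D'
      = (∑ l, ∑ i, ∑ j, tmat ((G l i)ᴴ * G l j) (ρ (σ (star (a l i) * a l j))))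
        - tmat 1 (ρ (σ sA)) := by
    change Φ D' = _
    rw [hD'e]
    simp only [map_sub, map_sum]
    simp only [Φ, AddMonoidHom.mk'_apply, blockMap_kronecker]
  have hΨ : ‖blockMap ρ D'‖ ≤ 8 * Real.sqrt r + 16 * q * Real.sqrt r' + κ :=
    norm_blockMap_le hρ hρ1 hD'h hD'n
  have hGn : ∀ l i j, ‖(G l i)ᴴ * G l j‖ ≤ q := fun l i j => by
    refine (Matrix.l2_opNorm_mul _ _).trans ?_
    rw [Matrix.l2_opNorm_conjTranspose]
    exact (mul_le_mul (norm_le_of_mulVec (Nat.cast_nonneg q) (hG l i))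
      (norm_le_of_mulVec (Nat.cast_nonneg q) (hG l j)) (norm_nonneg _)
      (Real.sqrt_nonneg _)).trans_eq (Real.mul_self_sqrt (Nat.cast_nonneg q))
  set E := ∑ l, ∑ i, ∑ j,
    tmat ((G l i)ᴴ * G l j) (star (a l i) * a l j - ρ (σ (star (a l i) * a l j))) with hE
  have hEn : ‖E‖ ≤ L * (N + 1) * (N + 1) * q * δ := by
    refine (norm_sum_le_of_le _ fun l _ => norm_sum_le_of_le _ fun i _ => norm_sum_le_of_le _
      fun j _ => (norm_tmat_le _ _).trans (mul_le_mul (hGn l i j)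
        ((norm_sub_rev _ _).trans_le (happ' l i j)) (norm_nonneg _) (Nat.cast_nonneg q))).trans_eq ?_
    simp [Finset.sum_const, nsmul_eq_mul]
    ring
  have hlast : ‖ρ (σ sA) - e‖ ≤ L * (N + 1) * δ + θ := by
    refine (norm_sub_le_norm_sub_add_norm_sub _ sA _).trans (add_le_add ?_ hsum)
    simp only [hsA, map_sum, ← Finset.sum_sub_distrib]
    refine (norm_sum_le_of_le _ fun l _ => norm_sum_le_of_le _ fun j _ => happ' l j j).trans_eq ?_
    simp [Finset.sum_const, nsmul_eq_mul]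
    ring
  have hsplit : (∑ l, ∑ i, ∑ j, tmat ((G l i)ᴴ * G l j) (star (a l i) * a l j)) - tmat 1 e
      = blockMap ρ D' + E + tmat 1 (ρ (σ sA) - e) := by
    rw [hΦe, hE]
    simp only [tmat_sub_right, Finset.sum_sub_distrib]
    abel
  rw [hsplit]
  have h1 : ‖tmat (1 : Matrix (Fin m') (Fin m') ℂ) (ρ (σ sA) - e)‖ ≤ ‖ρ (σ sA) - e‖ := by
    rw [← diagHom_apply]
    exact NonUnitalStarAlgHom.norm_apply_le (diagHom (Fin m') A) _
  have h2 : (L * (N + 1) * (N + 1) * q + L * (N + 1) + 1) * δ = κ := by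
    rw [hδ]
    field_simp
  have := (norm_add₃_le).trans (add_le_add (add_le_add hΨ hEn) (h1.trans hlast))
  linarith

/-- II.3: packing. -/
theorem packing (hA : IsNuclear A) {L N q : ℕ} (hq : 0 < q) (qs : Fin L → ℕ)
    (hqs : ∀ l, qs l = 1 ∨ qs l = q) (c : Fin L → A) (z : Fin L → Fin N → A) {e : A} (he : 0 ≤ e)
    (he1 : e ≤ 1) {r r' θ : ℝ} (hr : ∀ l, ‖∑ j, (c l * z l j) * star (c l * z l j)‖ ≤ r)
    (hr' : ∀ l, qs l ≠ 1 → ‖∑ j, (c l * z l j) * star (c l * z l j)‖ ≤ r') (hr1 : r ≤ 1)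
    (hsum : ‖(∑ l, ∑ j, star (c l * z l j) * (c l * z l j)) - e‖ ≤ θ) (hθ : θ ≤ 1 / 2) {ξ : ℝ}
    (hξ : 8 * Real.sqrt r + 16 * q * Real.sqrt r' + 2 * θ < ξ) :
    ∃ (m m' : ℕ) (ms : Fin L → ℕ), 0 < m ∧ (∀ l, ms l * qs l = m) ∧ m ≤ m' + m / q ∧ m' ≤ m ∧
      SubD (fun _ : Fin m' => cfc (fun t : ℝ => max (t - ξ) 0) e)
        (fun p : (l : Fin L) × Fin (ms l) => star (c p.1) * c p.1) := by
  have hθ0 : 0 ≤ θ := (norm_nonneg _).trans hsum
  set κ : ℝ := (ξ - (8 * Real.sqrt r + 16 * q * Real.sqrt r' + 2 * θ)) / 4 with hκ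
  have hκ0 : 0 < κ := by rw [hκ]; linarith
  let z' : Fin L → Fin (N + 1) → A := fun l => Fin.snoc (z l) 0
  have hrow : ∀ l, ∑ j, (c l * z' l j) * star (c l * z' l j)
      = ∑ j, (c l * z l j) * star (c l * z l j) := fun l => by
    simp [z', Fin.sum_univ_castSucc]
  have hcol : ∑ l, ∑ j, star (c l * z' l j) * (c l * z' l j)
      = ∑ l, ∑ j, star (c l * z l j) * (c l * z l j) := by
    simp [z', Fin.sum_univ_castSucc]
  obtain ⟨m, m', ms, hm, hms, hmm, hm', G, hG⟩ := exists_pack_gram hA hq qs hqs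
    (fun l j => c l * z' l j) ((CStarAlgebra.norm_le_one_iff_of_nonneg e he).2 he1)
    (fun l => (hrow l).symm ▸ hr l) (fun l hl => (hrow l).symm ▸ hr' l hl) hr1
    (hcol.symm ▸ hsum) hθ hκ0
  refine ⟨m, m', ms, hm, hms, hmm, hm', fun d hd => ?_⟩
  set u : ((l : Fin L) × Fin (ms l)) → Fin m' → A :=
    fun g t => ∑ j, G g.1 j g.2 t • z' g.1 j with hu
  set v : ((l : Fin L) × Fin (ms l)) → Fin m' → A := fun g t => c g.1 * u g t with hv
  set X : CStarMatrix (Fin m') (Fin m') A :=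
    CStarMatrix.ofMatrix (Matrix.of fun t t' => ∑ g, star (v g t) * v g t') with hXdef
  have hX : X = ∑ l, ∑ i, ∑ j,
      tmat ((G l i)ᴴ * G l j) (star (c l * z' l i) * (c l * z' l j)) := by
    refine CStarMatrix.ext fun t t' => ?_
    have happ : ∀ {β : Type} (S : Finset β) (F : β → CStarMatrix (Fin m') (Fin m') A),
        (∑ b ∈ S, F b) t t' = ∑ b ∈ S, F b t t' := fun S F => Matrix.sum_apply t t' S F
    simp only [hXdef, CStarMatrix.ofMatrix_apply, Matrix.of_apply, happ, tmat_apply,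
      Fintype.sum_sigma, hv, hu]
    refine Finset.sum_congr rfl fun l _ => ?_
    simp only [Finset.mul_sum, mul_smul_comm, star_sum, star_smul, Finset.sum_mul,
      smul_mul_assoc, Finset.smul_sum, smul_smul, Matrix.mul_apply, Matrix.conjTranspose_apply,
      Finset.sum_smul, mul_comm _ (star (G l _ _ _))]
    rw [Finset.sum_congr rfl fun _ _ => Finset.sum_comm (f := fun a b => _), Finset.sum_comm]
    exact Finset.sum_congr rfl fun _ _ => Finset.sum_comm
  have hX0 : 0 ≤ X := gram_nonneg v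
  have he0 : (0 : CStarMatrix (Fin m') (Fin m') A) ≤ diagHom (Fin m') A e := by
    obtain ⟨w, rfl⟩ := exists_star_mul_self he
    rw [map_mul, map_star]
    exact star_mul_self_nonneg _
  have hclose : ‖X - diagHom (Fin m') A e‖
      ≤ 8 * Real.sqrt r + 16 * q * Real.sqrt r' + θ + 2 * κ := by
    rw [hX, diagHom_apply]
    exact hG
  obtain ⟨R, hR⟩ := exists_conj_hom_cut (diagHom (Fin m') A) he.isSelfAdjoint he0 hX0
    (show 8 * Real.sqrt r + 16 * q * Real.sqrt r' + θ + 2 * κ < ξ by rw [hκ]; linarith) hclose hd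
  refine ⟨fun g i => ∑ t, u g t * R t i, fun i j => ?_⟩
  refine lt_of_le_of_lt ?_ hR
  refine le_trans (le_of_eq ?_)
    (CStarMatrix.norm_entry_le_norm (M := star R * X * R - _) (i := i) (j := j))
  rw [diagHom_apply]
  change _ = ‖(star R * X * R) i j - (1 : Matrix (Fin m') (Fin m') ℂ) i j • _‖
  rw [hXdef, gram_conj_apply, Matrix.one_apply]
  congr 2
  · refine Finset.sum_congr rfl fun g _ => ?_
    simp only [hv, mul_assoc, ← Finset.mul_sum, star_mul]
  · split <;> simp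

/-- II.4 (U): elements small in all traces have all their multiples below one unit. -/
theorem small_sub_one (hA : IsNuclear A) (K : ℕ) {ξ : ℝ} (hξ : 0 < ξ) :
    ∃ ε : ℝ, 0 < ε ∧ ∀ e : A, 0 ≤ e → e ≤ 1 →
      (∀ τ : A →ₗ[ℂ] ℂ, IsTrace τ → (τ e).re ≤ ε) →
        ∃ m : ℕ, 0 < m ∧ ∀ K' ≤ K, Sub (K' * m) (cfc (fun t : ℝ => max (t - ξ) 0) e) m 1 := by
  set q : ℕ := 4 * K + 2 with hq
  set u : ℝ := ξ / (2 * (8 + 16 * q)) with hu
  have hu0 : 0 < u := by positivity
  set ε : ℝ := min (1 / 2) (u ^ 2 / 2) with hεd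
  have hε : 0 < ε := lt_min (by norm_num) (by positivity)
  refine ⟨ε, hε, fun e he he1 htr => ?_⟩
  set θ : ℝ := min (ξ / 8) (1 / 2) with hθd
  have hθ : 0 < θ := lt_min (by linarith) (by norm_num)
  have htr' : ∀ τ : A →ₗ[ℂ] ℂ, IsTrace τ → ε ≤ (τ ((2 * ε) • (1 : A) - e)).re := fun τ hτ => by
    rw [← Algebra.algebraMap_eq_smul_one, map_sub, hτ.map_algebraMap, Complex.sub_re,
      Complex.ofReal_re]
    linarith [htr τ hτ]
  obtain ⟨n, z, hz, hz1⟩ := exists_column (w := (2 * ε) • (1 : A)) he (c := 2 * ε) (by linarith)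
    le_rfl hε htr' hθ
  set s : ℝ := Real.sqrt (2 * ε)
  have hss : s * s = 2 * ε := Real.mul_self_sqrt (by linarith)
  have hcc : star (s • (1 : A)) * (s • (1 : A)) = (2 * ε) • (1 : A) := by
    rw [star_smul, star_one, smul_mul_smul_comm, one_mul, star_trivial, hss]
  have hz1' : ‖∑ j, z j * star (z j)‖ ≤ 1 :=
    (CStarAlgebra.norm_le_one_iff_of_nonneg _
      (Finset.sum_nonneg fun j _ => mul_star_self_nonneg (z j))).2 hz1
  have hrow : ‖∑ j, (s • (1 : A) * z j) * star (s • (1 : A) * z j)‖ ≤ 2 * ε := by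
    have hT : ∑ j, (s • (1 : A) * z j) * star (s • (1 : A) * z j)
        = (2 * ε) • ∑ j, z j * star (z j) := by
      simp only [smul_mul_assoc, one_mul, star_smul, star_trivial, hss,
        Finset.smul_sum, mul_smul_comm, smul_smul]
    rw [hT, norm_smul, Real.norm_of_nonneg (by linarith)]
    exact mul_le_of_le_one_right (by linarith) hz1'
  have hsu : s ≤ u := by
    rw [Real.sqrt_le_iff]
    exact ⟨hu0.le, by linarith [min_le_right (1 / 2 : ℝ) (u ^ 2 / 2)]⟩
  obtain ⟨m, m', ms, hm, hms, hmm, -, hS⟩ := packing hA (show 0 < q by omega) (fun _ : Fin 1 => q)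
    (fun _ => Or.inr rfl) (fun _ => s • (1 : A)) (fun _ => z) he he1 (r := 2 * ε) (r' := 2 * ε)
    (θ := θ) (fun _ => hrow) (fun _ _ => hrow)
    (by linarith [min_le_left (1 / 2 : ℝ) (u ^ 2 / 2)])
    (by
      have : ∀ j, star (s • (1 : A) * z j) * (s • (1 : A) * z j)
          = star (z j) * ((2 * ε) • (1 : A)) * z j := fun j => by
        rw [← hcc, star_mul]
        simp only [mul_assoc]
      rw [Fin.sum_univ_one, Finset.sum_congr rfl fun j _ => this j]
      exact hz)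
    (min_le_right _ _) (ξ := ξ)
    (by
      have h1 : (8 + 16 * (q : ℝ)) * u = ξ / 2 := by rw [hu]; field_simp
      have h2 : (8 + 16 * (q : ℝ)) * s ≤ (8 + 16 * (q : ℝ)) * u := by gcongr
      have h3 : θ ≤ ξ / 8 := min_le_left _ _
      linarith)
  have hmq : ms 0 * q = m := hms 0
  have hms0 : 0 < ms 0 := by
    rcases Nat.eq_zero_or_pos (ms 0) with h | h
    · rw [h, zero_mul] at hmq; omega
    · exact h
  refine ⟨ms 0, hms0, fun K' hK' d hd => ?_⟩
  have hle : K' * ms 0 ≤ m' := by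
    have h1 : m / q = ms 0 := by rw [← hmq, Nat.mul_div_cancel _ (show 0 < q by omega)]
    have h2 : (K' + 1) * ms 0 ≤ q * ms 0 := Nat.mul_le_mul_right _ (by omega)
    rw [h1] at hmm
    rw [add_mul, one_mul] at h2
    rw [mul_comm] at hmq
    omega
  obtain ⟨R, hR⟩ := hS d hd
  refine ⟨fun p i => (s • (1 : A)) * R ⟨0, p⟩ (Fin.castLE hle i), fun i j => ?_⟩
  have := hR (Fin.castLE hle i) (Fin.castLE hle j)
  rw [Fintype.sum_sigma, Fin.sum_univ_one] at this
  simp only [(Fin.castLE_injective hle).eq_iff] at this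
  simpa [star_mul, mul_assoc] using this

/-- II.4 (Lw): elements big in all traces are uniformly big. -/
theorem one_sub_big (hA : IsNuclear A) [IsSimpleRing A] {c : ℝ} (hc : 0 < c) : ∃ C : ℕ, ∀ b : A,
    0 ≤ b → b ≤ 1 → b ≠ 0 → (∀ τ : A →ₗ[ℂ] ℂ, IsTrace τ → c ≤ (τ b).re) →
      ∃ m : ℕ, 0 < m ∧ Sub m 1 (C * m) b := by
  set L : ℕ := ⌈131072 / c⌉₊ + 1 with hLd
  refine ⟨2 * (L + 1), fun b hb hb1 hb0 htr => ?_⟩
  have hLc : 131072 ≤ c * L := by
    have h1 : 131072 / c ≤ (L : ℝ) := by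
      rw [hLd, Nat.cast_add, Nat.cast_one]
      exact (Nat.le_ceil _).trans (le_add_of_nonneg_right zero_le_one)
    rw [div_le_iff₀ hc] at h1
    linarith
  set r : ℝ := 2 / (c * L) with hrd
  have hr0 : 0 < r := by positivity
  have hr : r ≤ 1 / 65536 := by
    rw [hrd, div_le_iff₀ (by linarith : (0 : ℝ) < c * L)]
    linarith
  obtain ⟨Nb, x, hx⟩ := exists_conj_sum_eq_one hb hb0
  set q : ℕ := max (4 * Nb) 2
  have hq2 : 2 ≤ q := le_max_right _ _
  have hqN : Nb ≤ q := (Nat.le_mul_of_pos_left Nb (by norm_num)).trans (le_max_left _ _)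
  set θ : ℝ := min r ((1 / (256 * q)) ^ 2) with hθd
  have hqR : (0 : ℝ) < q := by exact_mod_cast (show 0 < q by omega)
  have hθ : 0 < θ := lt_min hr0 (by positivity)
  have htr' : ∀ τ : A →ₗ[ℂ] ℂ, IsTrace τ →
      1 ≤ (τ ((2 / c) • b + θ • (1 : A) - 1)).re := fun τ hτ => by
    rw [map_sub, map_add, ← Complex.coe_smul, ← Complex.coe_smul, map_smul, map_smul, hτ.map_one,
      Complex.sub_re, Complex.add_re, smul_eq_mul, smul_eq_mul, Complex.re_ofReal_mul,
      Complex.re_ofReal_mul, Complex.one_re]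
    have : 2 ≤ 2 / c * (τ b).re := by
      rw [div_mul_eq_mul_div, le_div_iff₀ hc]
      linarith [htr τ hτ]
    linarith
  obtain ⟨n, z, hz, hz1⟩ := exists_column (w := (2 / c) • b + θ • (1 : A))
    (e := (1 : A)) zero_le_one (c := θ) hθ
    (le_add_of_nonneg_left (smul_nonneg (by positivity) hb)) one_pos htr'
    (η := 1 / 32) (by norm_num)
  set t : ℝ := Real.sqrt r
  set t' : ℝ := Real.sqrt θ
  have htt : t * t = r := Real.mul_self_sqrt hr0.le
  have htt' : t' * t' = θ := Real.mul_self_sqrt hθ.le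
  set cs : Fin (L + 1) → A := Fin.lastCases (t' • (1 : A)) (fun _ => t • CFC.sqrt b) with hcs
  set qs : Fin (L + 1) → ℕ := Fin.lastCases q (fun _ => 1) with hqsd
  have hz1' : ‖∑ j, z j * star (z j)‖ ≤ 1 :=
    (CStarAlgebra.norm_le_one_iff_of_nonneg _
      (Finset.sum_nonneg fun j _ => mul_star_self_nonneg (z j))).2 hz1
  have hrow : ∀ l, ‖∑ j, (cs l * z j) * star (cs l * z j)‖ ≤ ‖cs l‖ * ‖cs l‖ := fun l => by
    have : ∑ j, (cs l * z j) * star (cs l * z j) = cs l * (∑ j, z j * star (z j)) * star (cs l) := by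
      simp only [Finset.mul_sum, Finset.sum_mul, star_mul, mul_assoc]
    rw [this]
    refine (norm_mul₃_le ..).trans ?_
    rw [norm_star]
    exact mul_le_mul_of_nonneg_right (mul_le_of_le_one_right (norm_nonneg _) hz1') (norm_nonneg _)
  have hs : star (CFC.sqrt b) = CFC.sqrt b := (CFC.sqrt_nonneg b).isSelfAdjoint.star_eq
  have hsb : CFC.sqrt b * CFC.sqrt b = b := CFC.sqrt_mul_sqrt_self b hb
  have hsn : ‖CFC.sqrt b‖ * ‖CFC.sqrt b‖ ≤ 1 := by
    rw [← CStarRing.norm_star_mul_self, hs, hsb]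
    exact (CStarAlgebra.norm_le_one_iff_of_nonneg b hb).2 hb1
  have hn1 : ‖t' • (1 : A)‖ * ‖t' • (1 : A)‖ ≤ θ := by
    rw [norm_smul, Real.norm_of_nonneg (Real.sqrt_nonneg _), mul_mul_mul_comm, htt',
      ← CStarRing.norm_star_mul_self, star_one, one_mul]
    exact mul_le_of_le_one_right hθ.le
      ((CStarAlgebra.norm_le_one_iff_of_nonneg (1 : A) zero_le_one).2 le_rfl)
  have hn2 : ‖t • CFC.sqrt b‖ * ‖t • CFC.sqrt b‖ ≤ r := by
    rw [norm_smul, Real.norm_of_nonneg (Real.sqrt_nonneg _), mul_mul_mul_comm, htt]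
    exact mul_le_of_le_one_right hr0.le hsn
  have hcs1 : ∀ l : Fin L, star (cs l.castSucc) * cs l.castSucc = r • b := fun l => by
    simp only [hcs, Fin.lastCases_castSucc]
    rw [star_smul, star_trivial, hs, smul_mul_smul_comm, htt, hsb]
  have hcs2 : star (cs (Fin.last L)) * cs (Fin.last L) = θ • (1 : A) := by
    simp only [hcs, Fin.lastCases_last]
    rw [star_smul, star_trivial, star_one, smul_mul_smul_comm, htt',
      one_mul]
  have hw : ∑ l, star (cs l) * cs l = (2 / c) • b + θ • (1 : A) := by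
    rw [Fin.sum_univ_castSucc, Finset.sum_congr rfl fun l _ => hcs1 l, hcs2]
    simp only [Finset.sum_const, Finset.card_univ, Fintype.card_fin, ← Nat.cast_smul_eq_nsmul ℝ,
      smul_smul]
    congr 2
    have hLR : (0 : ℝ) < L := by positivity
    rw [hrd]
    field_simp
  obtain ⟨m, m', ms, hm, hms, hmm, hm', hS⟩ := packing hA (show 0 < q by omega) qs
    (fun l => by
      induction l using Fin.lastCases with
      | last => exact Or.inr (by simp [hqsd])
      | cast l => exact Or.inl (by simp [hqsd]))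
    cs (fun _ => z) zero_le_one le_rfl (r := r) (r' := θ) (θ := 1 / 32)
    (fun l => (hrow l).trans (by
      induction l using Fin.lastCases with
      | last => simp only [hcs, Fin.lastCases_last]; exact hn1.trans (min_le_left _ _)
      | cast l => simp only [hcs, Fin.lastCases_castSucc]; exact hn2))
    (fun l hl => (hrow l).trans (by
      induction l using Fin.lastCases with
      | last => simp only [hcs, Fin.lastCases_last]; exact hn1
      | cast l => exact absurd (by simp [hqsd]) hl))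
    (by linarith)
    (by
      have : ∑ l, ∑ j, star (cs l * z j) * (cs l * z j)
          = ∑ j, star (z j) * ((2 / c) • b + θ • (1 : A)) * z j := by
        rw [Finset.sum_comm, ← hw]
        simp only [Finset.mul_sum, Finset.sum_mul, star_mul, mul_assoc]
      rw [this]
      exact hz)
    (by norm_num) (ξ := 1 / 2)
    (by
      have h1 : Real.sqrt r ≤ 1 / 256 :=
        Real.sqrt_le_iff.2 ⟨by norm_num, by linarith⟩
      have h2 : Real.sqrt θ ≤ 1 / (256 * q) :=
        Real.sqrt_le_iff.2 ⟨by positivity, min_le_right _ _⟩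
      have h3 : 16 * (q : ℝ) * Real.sqrt θ ≤ 1 / 16 := by
        refine (mul_le_mul_of_nonneg_left h2 (by positivity)).trans_eq ?_
        field_simp
        ring
      linarith)
  have hms1 : ∀ l : Fin L, ms l.castSucc = m := fun l => by
    have := hms l.castSucc
    simp only [hqsd, Fin.lastCases_castSucc, mul_one] at this
    exact this
  have hmsL : ms (Fin.last L) * q = m := by
    have := hms (Fin.last L)
    simp only [hqsd, Fin.lastCases_last] at this
    exact this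
  have hm2 : m ≤ 2 * m' := by
    have h := Nat.mul_le_mul_right (m / q) hq2
    have h' := Nat.div_mul_le_self m q
    rw [mul_comm q] at h
    omega
  refine ⟨m', by omega, fun d hd => ?_⟩
  obtain ⟨R, hR⟩ := hS (d / 2) (half_pos hd)
  have hcut : cfc (fun u : ℝ => max (u - 1 / 2) 0) (1 : A) = (1 / 2 : ℝ) • (1 : A) := by
    rw [cfc_apply_one, Algebra.algebraMap_eq_smul_one]
    norm_num
  set g : ℝ := Real.sqrt 2
  have hgg : g * g = 2 := Real.mul_self_sqrt (by norm_num)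
  let S : ((l : Fin L) × Fin (ms l.castSucc)) ⊕ (Fin (ms (Fin.last L)) × Fin Nb) → Fin m' → A :=
    Sum.elim (fun p i => (g * t) • R ⟨p.1.castSucc, p.2⟩ i)
      (fun p i => (g * t') • (x p.2 * R ⟨Fin.last L, p.1⟩ i))
  obtain ⟨ι⟩ : Nonempty ((((l : Fin L) × Fin (ms l.castSucc)) ⊕
      (Fin (ms (Fin.last L)) × Fin Nb)) ↪ Fin (2 * (L + 1) * m')) := by
    refine Function.Embedding.nonempty_of_card_le ?_
    simp only [Fintype.card_sum, Fintype.card_sigma, Fintype.card_prod, Fintype.card_fin, hms1,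
      Finset.sum_const, Finset.card_univ, smul_eq_mul]
    have h1 : ms (Fin.last L) * Nb ≤ m := hmsL ▸ Nat.mul_le_mul_left _ hqN
    calc L * m + ms (Fin.last L) * Nb ≤ (L + 1) * m := by
          refine (Nat.add_le_add_left h1 (L * m)).trans_eq ?_
          ring
      _ ≤ (L + 1) * (2 * m') := Nat.mul_le_mul_left _ hm2
      _ = 2 * (L + 1) * m' := by ring
  refine ⟨fun p i => Function.extend ι (fun y => S y i) 0 p, fun i j => ?_⟩
  have hsum : ∑ p, star (Function.extend ι (fun y => S y i) 0 p) * b *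
      Function.extend ι (fun y => S y j) 0 p = ∑ y, star (S y i) * b * S y j := by
    refine (Fintype.sum_of_injective ι ι.injective _ _ (fun p hp => ?_) (fun y => ?_)).symm
    · rw [Function.extend_apply' _ _ _ (by simpa using hp)]
      simp
    · rw [ι.injective.extend_apply, ι.injective.extend_apply]
  have hS2 : ∑ y, star (S y i) * b * S y j
      = (2 : ℝ) • ∑ p : (l : Fin (L + 1)) × Fin (ms l),
          star (R p i) * (star (cs p.1) * cs p.1) * R p j := by
    rw [Fintype.sum_sigma, Fin.sum_univ_castSucc, Fintype.sum_sum_type, Fintype.sum_sigma,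
      Fintype.sum_prod_type, smul_add]
    dsimp only
    rw [hcs2, Finset.smul_sum, Finset.smul_sum]
    congr 1
    · refine Finset.sum_congr rfl fun l _ => ?_
      rw [hcs1, Finset.smul_sum]
      refine Finset.sum_congr rfl fun p _ => ?_
      simp only [S, Sum.elim_inl, star_smul, star_trivial, smul_mul_assoc, mul_smul_comm,
        smul_smul, mul_mul_mul_comm, hgg, htt]
    · refine Finset.sum_congr rfl fun p _ => ?_
      simp only [S, Sum.elim_inr, star_smul, star_trivial, star_mul, smul_mul_assoc, mul_smul_comm,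
        smul_smul, mul_mul_mul_comm, hgg, htt', ← Finset.smul_sum, mul_one]
      congr 1
      have key : ∀ y, star (R ⟨Fin.last L, p⟩ i) * star (x y) * b * (x y * R ⟨Fin.last L, p⟩ j)
          = star (R ⟨Fin.last L, p⟩ i) * (star (x y) * b * x y) * R ⟨Fin.last L, p⟩ j := fun y => by
        simp only [mul_assoc]
      rw [Finset.sum_congr rfl fun y _ => key y, ← Finset.sum_mul, ← Finset.mul_sum, hx, mul_one]
  rw [hsum, hS2]
  have h := hR i j
  rw [hcut] at h
  calc _ = ‖(2 : ℝ) • ((∑ p : (l : Fin (L + 1)) × Fin (ms l),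
          star (R p i) * (star (cs p.1) * cs p.1) * R p j)
        - (if i = j then (1 / 2 : ℝ) • (1 : A) else 0))‖ := by
        rw [smul_sub, smul_ite, smul_smul, smul_zero]
        norm_num
    _ < d := by
        rw [norm_smul, Real.norm_of_nonneg zero_le_two]
        linarith

end Vale.Agent.P095.Lift
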