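import Vale.Agent.P095.Lift.Sub
import Vale.Agent.P095.Lift.Packing
import Vale.Agent.P101.Stage2
import Vale.Agent.P101.Fomega
import Vale.Agent.P101.Statement

/-!
# Comparison without characters (PROOF II.4)

If the central sequence algebra has no characters, then `(l + 1) x ≾ l y` implies `x ≾ y`.
-/

open TopologicalSpace Filter Topology
open Vale.Agent.P101 (CentralSeq NoCharacter Seed IsOZ qmk constSeq Ultrapower mu)

namespace Vale.Agent.P095.Lift

/-- Block sum of copies. -/
theorem sub_mul_left {A : Type*} [CStarAlgebra A] {k l : ℕ} {x y : A} (h : Sub k x l y) (m : ℕ) :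
    Sub (m * k) x (m * l) y := by
  intro d hd
  obtain ⟨R, hR⟩ := h d hd
  let u := (finProdFinEquiv (m := m) (n := l)).symm
  let v := (finProdFinEquiv (m := m) (n := k)).symm
  refine ⟨fun p i => if (u p).1 = (v i).1 then R (u p).2 (v i).2 else 0, fun i j => ?_⟩
  rw [← Equiv.sum_comp (finProdFinEquiv (m := m) (n := l))]
  simp only [u, Equiv.symm_apply_apply, Fintype.sum_prod_type, apply_ite star, star_zero, ite_mul,
    mul_ite, zero_mul, mul_zero]
  by_cases hij : (v i).1 = (v j).1
  · rw [Finset.sum_eq_single (v i).1]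
    · simp only [if_true, hij]
      have hiff : (i = j) ↔ (v i).2 = (v j).2 :=
        ⟨fun e => by rw [e], fun e => v.injective (Prod.ext hij e)⟩
      simpa only [hiff] using hR (v i).2 (v j).2
    · intro t _ ht
      simp [ht]
    · simp
  · rw [if_neg fun e : i = j => hij (by rw [e]), sub_zero, Finset.sum_eq_zero, norm_zero]
    · exact hd
    · intro t _
      refine Finset.sum_eq_zero fun p _ => ?_
      split_ifs with h1 h2 <;> first | rfl |
        exact absurd (h2.symm.trans h1) hij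

/-- The algebra of the scheme: a family `b` with `star (b p) * b r = δ E` and a family `a` with
`∑ star (a q) * E * a q = 1`. -/
theorem exists_scheme {F : Type*} [CStarAlgebra F] {k : ℕ} [NeZero k]
    {φ : Matrix (Fin k) (Fin k) ℂ →ₗ[ℂ] F} {s : F} [PartialOrder F] [StarOrderedRing F]
    (hs : Seed φ s) : ∃ (E : F) (b : Fin k → F) (a : Fin k → F) (c : F),
      (∀ p r, star (b p) * b r = if p = r then E else 0) ∧
        (∑ i, star (a i) * E * a i) + star c * E * c = 1 := by
  set h := φ 1 with hh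
  have hmu : ∀ i j l m, φ (mu i j) * φ (mu l m) = if j = l then h * φ (mu i m) else 0 :=
    fun i j l m => Vale.Agent.P101.mu_mul hs i j l m
  have hst : ∀ i j, star (φ (mu i j)) = φ (mu j i) := fun i j => Vale.Agent.P101.mu_star hs i j
  have hc : ∀ i j, Commute h (φ (mu i j)) := fun i j => hs.oz.comm_unit _
  have hsum : ∑ i, φ (mu i i) = h := by
    rw [← map_sum, hh]
    congr 1
    ext a b
    simp [mu, Matrix.sum_apply, Matrix.single_apply, Matrix.one_apply, ite_and]
  set E := h * φ (mu 0 0)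
  set P := h ^ 4 + (1 - h)
  have hEs : E * s = s := by
    rw [mul_assoc, show φ (mu 0 0) * s = s from hs.fix, Vale.Agent.P101.U_s hs]
  have hP1 : (∑ i, star (φ (mu 0 i)) * E * φ (mu 0 i)) + star s * E * s = P := by
    congr 1
    · have e : ∀ i, star (φ (mu 0 i)) * E * φ (mu 0 i) = h ^ 3 * φ (mu i i) := fun i => by
        rw [hst, ← mul_assoc, ← (hc i 0).eq, mul_assoc (h * φ (mu i 0)), hmu, if_pos rfl,
          mul_assoc, ← mul_assoc (φ (mu i 0)), ← (hc i 0).eq, mul_assoc h (φ (mu i 0)), hmu,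
          if_pos rfl]
        simp only [pow_succ, pow_zero, one_mul, mul_assoc]
      simp only [e, ← Finset.mul_sum, hsum, ← pow_succ]
    · rw [mul_assoc, hEs, hs.sq]
  have hsa : IsSelfAdjoint h := hs.oz.unit_sa
  have h1 : h ≤ 1 := sub_nonneg.1 (hs.sq ▸ star_mul_self_nonneg s)
  set g : ℝ → ℝ := fun t => t ^ 4 + (1 - t)
  have hg : ∀ t, 0 < g t := fun t => by
    simp only [g]
    nlinarith [sq_nonneg (t ^ 2 - 1 / 2), sq_nonneg (t - 1 / 2)]
  have hPg : P = cfc g h := by
    simp only [g]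
    rw [cfc_add h (fun t : ℝ => t ^ 4) (fun t => 1 - t),
      cfc_pow_id (R := ℝ) h 4, cfc_sub (fun _ : ℝ => 1) (fun t => t) h, cfc_const_one ℝ h,
      cfc_id' ℝ h]
  set w := cfc (fun t => (Real.sqrt (g t))⁻¹) h
  have hgc : Continuous g := by fun_prop
  have hwc : Continuous fun t => (Real.sqrt (g t))⁻¹ :=
    (Real.continuous_sqrt.comp hgc).inv₀ fun t => (Real.sqrt_pos.2 (hg t)).ne'
  have hwP : star w * P * w = 1 := by
    rw [(IsSelfAdjoint.cfc : IsSelfAdjoint w).star_eq, hPg,
      ← cfc_mul _ _ h hwc.continuousOn hgc.continuousOn,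
      ← cfc_mul (fun t => (Real.sqrt (g t))⁻¹ * g t) _ h (hwc.mul hgc).continuousOn hwc.continuousOn]
    conv_rhs => rw [← cfc_const_one ℝ h]
    refine cfc_congr fun t _ => ?_
    have hsq := Real.mul_self_sqrt (hg t).le
    have hne := (Real.sqrt_pos.2 (hg t)).ne'
    field_simp
    linarith
  refine ⟨E, fun p => φ (mu p 0), fun i => φ (mu 0 i) * w, s * w, fun p r => ?_, ?_⟩
  · rw [hst, hmu]
  · conv_rhs => rw [← hwP, ← hP1]
    simp only [star_mul, mul_assoc, Finset.mul_sum, Finset.sum_mul, mul_add, add_mul]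

set_option synthInstance.maxHeartbeats 100000

variable {A : Type} [CStarAlgebra A] [Nontrivial A] {ω : Ultrafilter ℕ}

omit [Nontrivial A] in
theorem norm_sum_sum_le {Q : Type} [Fintype Q] {U : Type*} [SeminormedAddCommGroup U]
    (f : Q → Q → U) {K : ℝ} (h : ∀ q r, ‖f q r‖ ≤ K) :
    ‖∑ q, ∑ r, f q r‖ ≤ Fintype.card Q * (Fintype.card Q * K) := by
  refine (norm_sum_le _ _).trans ((Finset.sum_le_sum fun q _ =>
    (norm_sum_le _ _).trans (Finset.sum_le_sum fun r _ => h q r)).trans_eq ?_)
  simp [Finset.sum_const, nsmul_eq_mul]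

/-- The scheme turns an approximate diagonal relation into a relation of single elements. -/
theorem scheme_bound {U : Type*} [NormedRing U] [StarRing U] {P Q : Type} [Fintype P] [Fintype Q]
    [DecidableEq P] [DecidableEq Q] (B : P → U) (C : Q → U) (E Y X : U) (R : P → Q → U)
    (hB : ∀ p r, star (B p) * B r = if p = r then E else 0) (hC : ∑ q, star (C q) * E * C q = 1)
    (hYB : ∀ p, Commute Y (B p)) (hRE : ∀ p q, Commute (star (R p q)) E)
    (hXC : ∀ q, Commute X (C q)) {M δ : ℝ} (hM : ∀ q w, ‖star (C q) * E‖ * ‖C w‖ ≤ M)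
    (hD : ∀ q w, ‖(∑ p, star (R p q) * Y * R p w) - if q = w then X else 0‖ ≤ δ) :
    ‖star (∑ p, ∑ q, B p * R p q * C q) * Y * (∑ p, ∑ q, B p * R p q * C q) - X‖ ≤
      Fintype.card Q * (Fintype.card Q * (M * δ)) := by
  set Z := ∑ p, ∑ q, B p * R p q * C q
  have hkey : ∀ p q r w, star (B p * R p q * C q) * Y * (B r * R r w * C w) =
      if p = r then star (C q) * E * (star (R p q) * Y * R r w) * C w else 0 := fun p q r w => by
    rw [star_mul, star_mul]
    calc star (C q) * (star (R p q) * star (B p)) * Y * (B r * R r w * C w)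
        = star (C q) * star (R p q) * (star (B p) * (Y * B r)) * R r w * C w := by
          simp only [mul_assoc]
      _ = star (C q) * star (R p q) * ((star (B p) * B r) * Y) * R r w * C w := by
          rw [(hYB r).eq, ← mul_assoc (star (B p))]
      _ = _ := by
          rw [hB]
          split_ifs with hpr
          · calc star (C q) * star (R p q) * (E * Y) * R r w * C w
                = star (C q) * (star (R p q) * E) * Y * R r w * C w := by simp only [mul_assoc]
              _ = _ := by rw [(hRE p q).eq]; simp only [mul_assoc]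
          · simp
  have hY' : star Z * Y * Z = ∑ q, ∑ w, star (C q) * E * (∑ p, star (R p q) * Y * R p w) * C w :=
    calc star Z * Y * Z
        = ∑ p, ∑ q, ∑ r, ∑ w, star (B p * R p q * C q) * Y * (B r * R r w * C w) := by
          simp only [Z, star_sum, Finset.sum_mul]
          simp only [Finset.mul_sum]
      _ = ∑ p, ∑ q, ∑ r, ∑ w,
            if p = r then star (C q) * E * (star (R p q) * Y * R r w) * C w else 0 := by
          simp only [hkey]
      _ = ∑ p, ∑ q, ∑ w, star (C q) * E * (star (R p q) * Y * R p w) * C w := by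
          refine Finset.sum_congr rfl fun p _ => Finset.sum_congr rfl fun q _ => ?_
          rw [Finset.sum_eq_single p (fun r _ hr => by simp [Ne.symm hr]) (by simp)]
          simp
      _ = ∑ q, ∑ w, ∑ p, star (C q) * E * (star (R p q) * Y * R p w) * C w := by
          rw [Finset.sum_comm]
          exact Finset.sum_congr rfl fun q _ => Finset.sum_comm
      _ = _ := by simp only [Finset.mul_sum, Finset.sum_mul]
  have hX' : X = ∑ q, ∑ w, star (C q) * E * (if q = w then X else 0) * C w := by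
    conv_lhs => rw [← one_mul X, ← hC, Finset.sum_mul]
    refine Finset.sum_congr rfl fun q _ => ?_
    rw [Finset.sum_eq_single q (fun w _ hw => by simp [Ne.symm hw]) (by simp), if_pos rfl,
      mul_assoc, ← (hXC q).eq, ← mul_assoc]
  conv_lhs => rw [hY']; arg 1; arg 2; rw [hX']
  rw [← Finset.sum_sub_distrib]
  simp only [← Finset.sum_sub_distrib, ← sub_mul, ← mul_sub]
  refine norm_sum_sum_le _ fun q w => ?_
  calc _ ≤ ‖star (C q) * E‖ * ‖(∑ p, star (R p q) * Y * R p w) - if q = w then X else 0‖ * ‖C w‖ :=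
        (norm_mul_le _ _).trans (mul_le_mul_of_nonneg_right (norm_mul_le _ _) (norm_nonneg _))
    _ = ‖star (C q) * E‖ * ‖C w‖ *
          ‖(∑ p, star (R p q) * Y * R p w) - if q = w then X else 0‖ := by ring
    _ ≤ _ := mul_le_mul (hM q w) (hD q w) (norm_nonneg _)
        ((mul_nonneg (norm_nonneg _) (norm_nonneg _)).trans (hM q w))

variable (ω) in
/-- Constant sequences, as a ring map. -/
noncomputable def constHom : A →+* Ultrapower A ω where
  toFun z := qmk ω (constSeq z)
  map_one' := by rw [← map_one (qmk (A := A) ω)]; rfl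
  map_mul' z w := by rw [← map_mul]; rfl
  map_zero' := by rw [← map_zero (qmk (A := A) ω)]; rfl
  map_add' z w := by rw [← map_add]; rfl

theorem norm_constHom (z : A) : ‖constHom ω z‖ = ‖z‖ :=
  tendsto_nhds_unique (Vale.Agent.P101.tendsto_norm_qmk ω (constSeq z)) tendsto_const_nhds

theorem star_constHom (z : A) : star (constHom ω z) = constHom ω (star z) := rfl

theorem commute_constHom (z : A) (f : CentralSeq A ω) :
    Commute (constHom ω z) (f : Ultrapower A ω) :=
  ((StarSubalgebra.mem_centralizer_iff ℂ).1 f.2 _ ⟨z, rfl⟩).1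

/-- Descent from the ultrapower. -/
theorem exists_of_norm_lt {x y : A} {Z : Ultrapower A ω} {d : ℝ}
    (h : ‖star Z * constHom ω y * Z - constHom ω x‖ < d) : ∃ z : A, ‖star z * y * z - x‖ < d := by
  obtain ⟨zz, rfl⟩ := Ideal.Quotient.mk_surjective Z
  have hlim := Vale.Agent.P101.tendsto_norm_qmk ω (star zz * constSeq y * zz - constSeq x)
  rw [RingHom.map_sub, RingHom.map_mul, RingHom.map_mul, ← Vale.Agent.P101.star_qmk] at hlim
  obtain ⟨n, hn⟩ := (hlim.eventually_lt_const h).exists
  exact ⟨zz n, hn⟩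

omit [Nontrivial A] in
/-- The scheme indexed by two blocks. -/
theorem exists_blocks_alg {F : Type*} [CStarAlgebra F] [PartialOrder F] [StarOrderedRing F]
    (hR : Vale.Agent.P101.Reindex F) (h : IsEmpty (F →⋆ₐ[ℂ] ℂ)) {l : ℕ} (hl : 0 < l) :
    ∃ (E : F) (b : Fin 2 × Fin l → F) (a : Fin 2 × Fin (l + 1) → F),
      (∀ p r, star (b p) * b r = if p = r then E else 0) ∧ ∑ q, star (a q) * E * a q = 1 := by
  have : NeZero (2 * l) := ⟨by omega⟩
  obtain ⟨φ, s, hseed⟩ := Vale.Agent.P101.exists_seed hR h (k := 2 * l) (by omega)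
  obtain ⟨E, b0, a0, c, hb0, ha0⟩ := exists_scheme hseed
  let v := (finProdFinEquiv (m := 2) (n := l))
  refine ⟨E, fun p => b0 (v p), fun q =>
    Fin.lastCases (motive := fun _ => F) (if q.1 = 0 then c else 0)
      (fun p => a0 (v (q.1, p))) q.2, fun p r => by simp only [hb0, v.injective.eq_iff], ?_⟩
  rw [Fintype.sum_prod_type]
  simp only [Fin.sum_univ_castSucc (n := l), Fin.lastCases_castSucc, Fin.lastCases_last,
    Finset.sum_add_distrib]
  rw [← Fintype.sum_prod_type (f := fun z : Fin 2 × Fin l => star (a0 (v z)) * E * a0 (v z)),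
    Equiv.sum_comp v (fun i => star (a0 i) * E * a0 i), Fin.sum_univ_two]
  simpa using ha0

omit [Nontrivial A] in
/-- The scheme transported by a homomorphism. -/
theorem blocks_map {F U : Type*} [Semiring F] [Star F] [Algebra ℂ F] [Semiring U] [Star U]
    [Algebra ℂ U] (f : F →⋆ₐ[ℂ] U) {P Q : Type} [DecidableEq P] [Fintype Q] {E : F} {b : P → F}
    {a : Q → F} (hb : ∀ p r, star (b p) * b r = if p = r then E else 0)
    (ha : ∑ q, star (a q) * E * a q = 1) :
    (∀ p r, star (f (b p)) * f (b r) = if p = r then f E else 0) ∧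
      ∑ q, star (f (a q)) * f E * f (a q) = 1 := by
  refine ⟨fun p r => ?_, ?_⟩
  · rw [← map_star, ← map_mul, hb, apply_ite f, map_zero]
  · simp only [← map_star, ← map_mul, ← map_sum, ha, map_one]

omit [Nontrivial A] in
/-- A bound for finitely many products of norms. -/
theorem exists_norm_bound {U : Type*} [NormedRing U] [Star U] {Q : Type} [Fintype Q] (a : Q → U)
    (E : U) : ∃ M : ℝ, 0 ≤ M ∧ ∀ q r, ‖star (a q) * E‖ * ‖a r‖ ≤ M :=
  ⟨∑ p : Q × Q, ‖star (a p.1) * E‖ * ‖a p.2‖, Finset.sum_nonneg fun p _ => by positivity,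
    fun q r => Finset.single_le_sum (f := fun p : Q × Q => ‖star (a p.1) * E‖ * ‖a p.2‖)
      (fun p _ => by positivity) (Finset.mem_univ (q, r))⟩

/-- The scheme in the ultrapower, commuting with the constants. -/
theorem exists_blocks [SeparableSpace A] (hω : (ω : Filter ℕ) ≤ cofinite) (h : NoCharacter A ω)
    {l : ℕ} (hl : 0 < l) :
    ∃ (E : Ultrapower A ω) (b : Fin 2 × Fin l → Ultrapower A ω)
      (a : Fin 2 × Fin (l + 1) → Ultrapower A ω),
      (∀ p r, star (b p) * b r = if p = r then E else 0) ∧ (∑ q, star (a q) * E * a q = 1) ∧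
      ∀ z : A, Commute (constHom ω z) E ∧ (∀ p, Commute (constHom ω z) (b p)) ∧
        ∀ q, Commute (constHom ω z) (a q) := by
  let : PartialOrder (CentralSeq A ω) := CStarAlgebra.spectralOrder _
  have : StarOrderedRing (CentralSeq A ω) := CStarAlgebra.spectralOrderedRing _
  obtain ⟨E, b, a, hb, ha⟩ :=
    exists_blocks_alg (Vale.Agent.P101.reindex_centralSeq (A := A) hω) h hl
  let f : CentralSeq A ω →⋆ₐ[ℂ] Ultrapower A ω := StarSubalgebra.subtype _
  obtain ⟨hb', ha'⟩ := blocks_map f hb ha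
  exact ⟨f E, fun p => f (b p), fun q => f (a q), hb', ha', fun z =>
    ⟨commute_constHom z E, fun p => commute_constHom z (b p), fun q => commute_constHom z (a q)⟩⟩

omit [Nontrivial A] in
/-- The error of the blockwise relation. -/
theorem block_error {l : ℕ} {x y : A} {δ : ℝ} (hδ : 0 ≤ δ) (R : Fin l → Fin (l + 1) → A)
    (hR : ∀ i j, ‖(∑ p, star (R p i) * y * R p j) - if i = j then x else 0‖ < δ) :
    ∀ q r : Fin 2 × Fin (l + 1), ‖(∑ p : Fin 2 × Fin l,
      star (if p.1 = q.1 then R p.2 q.2 else 0) * y * (if p.1 = r.1 then R p.2 r.2 else 0)) -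
        if q = r then x else 0‖ ≤ δ := by
    rintro ⟨t, i⟩ ⟨u, j⟩
    simp only [Fintype.sum_prod_type, apply_ite star, star_zero, ite_mul, mul_ite, zero_mul,
      mul_zero, Prod.mk.injEq]
    by_cases htu : t = u
    · subst htu
      rw [Finset.sum_eq_single t]
      · simp only [if_true, true_and]
        exact (hR i j).le
      · intro w _ hw
        simp [hw]
      · simp
    · simp only [htu, false_and, if_false, sub_zero]
      rw [Finset.sum_eq_zero, norm_zero]
      · exact hδ
      · intro w _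
        refine Finset.sum_eq_zero fun p _ => ?_
        split_ifs with h1 h2 <;> first | rfl |
          exact absurd (h2.symm.trans h1) htu

theorem sub_of_succ [SeparableSpace A] (hω : (ω : Filter ℕ) ≤ cofinite)
    (h : NoCharacter A ω) {l : ℕ} {x y : A} (hs : Sub (l + 1) x l y) : Sub 1 x 1 y := by
  rcases Nat.eq_zero_or_pos l with rfl | hl
  · intro d hd
    obtain ⟨R, hR⟩ := hs d hd
    refine ⟨fun _ _ => 0, fun i j => ?_⟩
    simpa [Subsingleton.elim i j] using hR 0 0
  obtain ⟨E, b, a, hb, ha, hcom⟩ := exists_blocks hω h hl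
  obtain ⟨M, hM0, hM⟩ := exists_norm_bound a E
  intro d hd
  set N : ℝ := (Fintype.card (Fin 2 × Fin (l + 1)) : ℝ)
  obtain ⟨R, hR⟩ := hs (d / (N * (N * M) + 1)) (by positivity)
  let R' : Fin 2 × Fin l → Fin 2 × Fin (l + 1) → A := fun p q =>
    if p.1 = q.1 then R p.2 q.2 else 0
  -- in the ultrapower
  have hbd := scheme_bound b a E (constHom ω y) (constHom ω x) (fun p q => constHom ω (R' p q))
    hb ha (fun p => (hcom y).2.1 p)
    (fun p q => by rw [star_constHom]; exact (hcom _).1)
    (fun q => (hcom x).2.2 q) (M := M) (δ := d / (N * (N * M) + 1))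
    (fun q w => hM q w) (fun q w => by
      rw [← apply_ite (constHom ω) (q = w) x 0 |>.trans (if_congr Iff.rfl rfl (RingHom.map_zero _))]
      simp only [star_constHom, ← RingHom.map_mul]
      rw [← map_sum (constHom ω), ← RingHom.map_sub, norm_constHom]
      exact block_error (by positivity) R hR q w)
  have hlt : N * (N * (M * (d / (N * (N * M) + 1)))) < d := by
    rw [show N * (N * (M * (d / (N * (N * M) + 1)))) = d * (N * (N * M) / (N * (N * M) + 1)) by
      ring]
    exact mul_lt_of_lt_one_right hd ((div_lt_one (by positivity)).2 (lt_add_one _))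
  obtain ⟨z, hz⟩ := exists_of_norm_lt (hbd.trans_lt hlt)
  refine ⟨fun _ _ => z, fun i j => ?_⟩
  simpa [Subsingleton.elim i j] using hz

omit [Nontrivial A] in
/-- Fewer copies on the left. -/
theorem sub_mono_left {k k' l : ℕ} {x y : A} (h : Sub k x l y) (hk : k' ≤ k) : Sub k' x l y := by
  intro d hd
  obtain ⟨R, hR⟩ := h d hd
  refine ⟨fun p i => R p (Fin.castLE hk i), fun i j => ?_⟩
  simpa [Fin.castLE_inj] using hR (Fin.castLE hk i) (Fin.castLE hk j)

/-- Comparison by traces, from the two packing consequences. -/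
theorem compare_of_packing [PartialOrder A] [StarOrderedRing A] [SeparableSpace A]
    (hω : (ω : Filter ℕ) ≤ cofinite) (h : NoCharacter A ω)
    (hsmall : ∀ K : ℕ, ∀ ξ : ℝ, 0 < ξ → ∃ ε : ℝ, 0 < ε ∧ ∀ e : A, 0 ≤ e → e ≤ 1 →
      (∀ τ : A →ₗ[ℂ] ℂ, Vale.Agent.P095.Amenable.IsTrace τ → (τ e).re ≤ ε) →
        ∃ m : ℕ, 0 < m ∧ ∀ K' ≤ K, Sub (K' * m) (cfc (fun t : ℝ => max (t - ξ) 0) e) m 1)
    (hbig : ∀ c : ℝ, 0 < c → ∃ C : ℕ, ∀ b : A, 0 ≤ b → b ≤ 1 → b ≠ 0 →
      (∀ τ : A →ₗ[ℂ] ℂ, Vale.Agent.P095.Amenable.IsTrace τ → c ≤ (τ b).re) →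
        ∃ m : ℕ, 0 < m ∧ Sub m 1 (C * m) b) {c : ℝ} (hc : 0 < c) {ξ : ℝ} (hξ : 0 < ξ) :
    ∃ ε : ℝ, 0 < ε ∧ ∀ e b : A, 0 ≤ e → e ≤ 1 → 0 ≤ b → b ≤ 1 → b ≠ 0 →
      (∀ τ : A →ₗ[ℂ] ℂ, Vale.Agent.P095.Amenable.IsTrace τ → (τ e).re ≤ ε ∧ c ≤ (τ b).re) →
        Sub 1 (cfc (fun t : ℝ => max (t - ξ) 0) e) 1 b := by
  obtain ⟨C, hC⟩ := hbig c hc
  obtain ⟨ε, hε, hsm⟩ := hsmall (C + 1) ξ hξ
  refine ⟨ε, hε, fun e b he he1 hb hb1 hb0 hτ => ?_⟩
  obtain ⟨m', hm', hK⟩ := hsm e he he1 (fun τ hh => (hτ τ hh).1)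
  obtain ⟨m, hm, hB⟩ := hC b hb hb1 hb0 fun τ hh => (hτ τ hh).2
  have h1 := sub_mul_left (hK (C + 1) le_rfl) m
  have h2 := sub_mul_left hB m'
  rw [mul_comm m' m] at h2
  refine sub_of_succ hω h (sub_mono_left (h1.trans h2) ?_)
  have : 1 ≤ m * m' := Nat.one_le_iff_ne_zero.2 (Nat.mul_ne_zero hm.ne' hm'.ne')
  nlinarith

/-- If the central sequence algebra of a simple nuclear algebra has no characters, an element
small in all traces is subequivalent, after a cut, to an element big in all traces. -/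
theorem compare [PartialOrder A] [StarOrderedRing A] [SeparableSpace A]
    (hω : (ω : Filter ℕ) ≤ cofinite) (h : NoCharacter A ω) (hA : IsNuclear A) [IsSimpleRing A]
    {c : ℝ} (hc : 0 < c) {ξ : ℝ} (hξ : 0 < ξ) :
    ∃ ε : ℝ, 0 < ε ∧ ∀ e b : A, 0 ≤ e → e ≤ 1 → 0 ≤ b → b ≤ 1 → b ≠ 0 →
      (∀ τ : A →ₗ[ℂ] ℂ, Vale.Agent.P095.Amenable.IsTrace τ → (τ e).re ≤ ε ∧ c ≤ (τ b).re) →
        Sub 1 (cfc (fun t : ℝ => max (t - ξ) 0) e) 1 b :=
  compare_of_packing hω h (fun K _ hξ => small_sub_one hA K hξ) (fun _ hc => one_sub_big hA hc)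
    hc hξ

/-- Without characters the algebra is not finite dimensional. -/
theorem not_finiteDimensional (h : NoCharacter A ω) : ¬ FiniteDimensional ℂ A := by
  intro hfd
  have : ProperSpace A := FiniteDimensional.proper ℂ A
  have hconst : ∀ z : CentralSeq A ω, ∃ a : A, constHom ω a = (z : Ultrapower A ω) := fun z => by
    obtain ⟨x, hx⟩ := Ideal.Quotient.mk_surjective (z : Ultrapower A ω)
    obtain ⟨a, -, ha⟩ := (isCompact_closedBall (0 : A) ‖x‖).ultrafilter_le_nhds
      (ω.map fun n => x n) (by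
        rw [le_principal_iff]
        exact (Eventually.of_forall fun n => mem_closedBall_zero_iff.2
          (Vale.Agent.P101.BddSeq.norm_apply_le x n) :
            ∀ᶠ n in (ω : Filter ℕ), x n ∈ Metric.closedBall 0 ‖x‖))
    have ha' : Tendsto (fun n => x n) ω (𝓝 a) := ha
    refine ⟨a, Eq.trans ?_ hx⟩
    exact (Vale.Agent.P101.qmk_eq_iff ω).2 (by
      have h0 := ((tendsto_const_nhds (x := a)).sub ha').norm
      rw [sub_self, norm_zero] at h0
      exact h0)
  have hcomm : ∀ z w : CentralSeq A ω, z * w = w * z := fun z w => by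
    obtain ⟨a, ha⟩ := hconst z
    have h1 := (commute_constHom a w).eq
    rw [ha] at h1
    exact Subtype.ext h1
  let : CommCStarAlgebra (CentralSeq A ω) :=
    { (inferInstance : CStarAlgebra (CentralSeq A ω)) with mul_comm := hcomm }
  obtain ⟨χ⟩ : Nonempty (WeakDual.characterSpace ℂ (CentralSeq A ω)) := inferInstance
  exact h.false
    { toFun := χ
      map_one' := map_one χ
      map_mul' := map_mul χ
      map_zero' := map_zero χ
      map_add' := map_add χ
      commutes' := fun r => AlgHomClass.commutes χ r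
      map_star' := map_star χ }

end Vale.Agent.P095.Lift
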