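import Vale.Agent.P095.Amenable.Fam

/-!
# Operator inequalities for the equivariant lift

Positivity of the Fejér sum of a contraction, the bound on the defects of a product of commuting
positive contractions, the commutator of such a product with a sum of contractions, and the
ratio of two square roots.
-/

open Finset

namespace Vale.Agent.P095.Lift

variable {F : Type*} [CStarAlgebra F] [PartialOrder F] [StarOrderedRing F]

/-- The triangular sum is the sum of the initial sums. -/
theorem triangle_sum {E : Type*} [AddCommGroup E] [Module ℝ E] (Z : ℕ → E) (L : ℕ) :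
    ∑ m ∈ Ico 1 L, ((L : ℝ) - m) • Z m = ∑ n ∈ range L, ∑ m ∈ Ico 1 (n + 1), Z m := by
  induction L with
  | zero => simp
  | succ L ih =>
    rw [sum_range_succ, ← ih]
    rcases Nat.eq_zero_or_pos L with rfl | hL
    · simp
    rw [sum_Ico_succ_top hL, sum_Ico_succ_top hL, ← add_assoc, ← sum_add_distrib]
    congr 1
    · refine sum_congr rfl fun m _ => ?_
      push_cast
      module
    · push_cast
      module

omit [PartialOrder F] [StarOrderedRing F] in
theorem sum_pow_range (X : F) (n : ℕ) :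
    ∑ j ∈ range (n + 1), X ^ j = 1 + ∑ m ∈ Ico 1 (n + 1), X ^ m := by
  rw [range_eq_Ico, sum_eq_sum_Ico_succ_bot n.succ_pos]
  simp

theorem fejer_pre {X : F} (hX : ‖X‖ ≤ 1) (L : ℕ) :
    0 ≤ ∑ n ∈ range L, (1 + ∑ m ∈ Ico 1 (n + 1), (X ^ m + star X ^ m)) := by
  have hd : 0 ≤ 1 - star X * X := by
    rw [sub_nonneg, ← CStarAlgebra.norm_le_one_iff_of_nonneg _ (star_mul_self_nonneg X),
      CStarRing.norm_star_mul_self]
    exact mul_le_one₀ hX (norm_nonneg _) hX
  set S : ℕ → F := fun n => ∑ j ∈ range n, X ^ j with hS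
  have key : ∀ L, ∑ n ∈ range L, (1 + ∑ m ∈ Ico 1 (n + 1), (X ^ m + star X ^ m))
      = star (S L) * S L + ∑ n ∈ range L, star (S n) * (1 - star X * X) * S n := by
    intro L
    induction L with
    | zero => simp [hS]
    | succ n ih =>
      rw [sum_range_succ, sum_range_succ, ih]
      have h1 : X * S n = S (n + 1) - 1 := by
        simp only [hS, mul_sum, ← pow_succ']
        rw [sum_range_succ' (fun j => X ^ j) n]
        simp
      have h2 : 1 + ∑ m ∈ Ico 1 (n + 1), (X ^ m + star X ^ m)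
          = S (n + 1) + star (S (n + 1)) - 1 := by
        simp only [hS, sum_pow_range, star_add, star_one, star_sum, star_pow, sum_add_distrib]
        abel
      have h3 : star (S n) * (1 - star X * X) * S n
          = star (S n) * S n - star (X * S n) * (X * S n) := by
        simp only [mul_sub, sub_mul, mul_one, star_mul, mul_assoc]
      rw [h2, h3, h1]
      simp only [star_sub, star_one, sub_mul, mul_sub, mul_one, one_mul]
      abel
  rw [key]
  exact add_nonneg (star_mul_self_nonneg _)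
    (sum_nonneg fun n _ => star_left_conjugate_nonneg hd _)

theorem fejer_nonneg {X : F} (hX : ‖X‖ ≤ 1) (L : ℕ) :
    0 ≤ 1 + ∑ m ∈ Finset.Ico 1 L, (1 - (m : ℝ) / L) • (X ^ m + star X ^ m) := by
  rcases Nat.eq_zero_or_pos L with rfl | hL
  · simp
  have hL' : (L : ℝ) ≠ 0 := by positivity
  have h := smul_nonneg (inv_nonneg.2 (Nat.cast_nonneg (α := ℝ) L)) (fejer_pre hX L)
  refine h.trans_eq ?_
  rw [sum_add_distrib, ← triangle_sum, sum_const, card_range, smul_add, Finset.smul_sum,
    ← Nat.cast_smul_eq_nsmul ℝ, inv_smul_smul₀ hL']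
  congr 1
  refine sum_congr rfl fun m _ => ?_
  rw [smul_smul]
  congr 1
  field_simp

theorem defect_induction {ι : Type*} [DecidableEq ι] (r : ι → F) (hr : ∀ i, 0 ≤ r i ∧ r i ≤ 1)
    (hc : ∀ i j, Commute (r i) (r j)) (s : Finset ι) :
    0 ≤ s.noncommProd r (fun a _ b _ _ => hc a b) ∧ s.noncommProd r (fun a _ b _ _ => hc a b) ≤ 1 ∧
      0 ≤ ∑ j ∈ s, (1 - r j) * (s.erase j).noncommProd r (fun a _ b _ _ => hc a b) ∧
      (∀ i, Commute (r i)
        (∑ j ∈ s, (1 - r j) * (s.erase j).noncommProd r (fun a _ b _ _ => hc a b))) ∧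
      (∑ j ∈ s, (1 - r j) * (s.erase j).noncommProd r (fun a _ b _ _ => hc a b))
        + s.noncommProd r (fun a _ b _ _ => hc a b) ≤ 1 := by
  induction s using Finset.induction_on with
  | empty =>
    have h0 : (∅ : Finset ι).noncommProd r (fun a _ b _ _ => hc a b) = 1 :=
      Finset.noncommProd_empty r _
    exact ⟨h0.symm ▸ zero_le_one, h0.le, by simp, by simp, by simp [h0]⟩
  | insert a s ha ih =>
    obtain ⟨hP0, hP1, hT0, hTc, hTP⟩ := ih
    set P := s.noncommProd r (fun a _ b _ _ => hc a b) with hP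
    set T := ∑ j ∈ s, (1 - r j) * (s.erase j).noncommProd r (fun a _ b _ _ => hc a b) with hT
    have hPc : ∀ i, Commute (r i) P := fun i =>
      Finset.noncommProd_commute s r _ _ fun x _ => hc i x
    have ePins : (insert a s).noncommProd r (fun a _ b _ _ => hc a b) = r a * P :=
      Finset.noncommProd_insert_of_notMem s a r _ ha
    have eTins : ∑ j ∈ insert a s,
        (1 - r j) * ((insert a s).erase j).noncommProd r (fun a _ b _ _ => hc a b)
        = (1 - r a) * P + r a * T := by
      rw [Finset.sum_insert ha, hT, mul_sum]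
      congr 1
      · congr 1
        exact Finset.noncommProd_congr (Finset.erase_insert ha) (fun _ _ => rfl) _
      · refine sum_congr rfl fun j hj => ?_
        have hja : a ≠ j := fun h => ha (h ▸ hj)
        refine (congrArg ((1 - r j) * ·)
          ((Finset.noncommProd_congr (Finset.erase_insert_of_ne hja) (fun _ _ => rfl) _).trans
            (Finset.noncommProd_insert_of_notMem _ a r _
              (fun h => ha (Finset.mem_of_mem_erase h))))).trans ?_
        rw [← mul_assoc, ← mul_assoc]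
        congr 1
        exact (((Commute.one_left (r a)).sub_left (hc j a))).eq
    rw [ePins, eTins]
    have h0 : 0 ≤ 1 - r a := sub_nonneg.2 (hr a).2
    have h0P : Commute (1 - r a) P := (Commute.one_left P).sub_left (hPc a)
    have hb : 0 ≤ 1 - (T + P) := sub_nonneg.2 hTP
    have hbc : Commute (r a) (1 - (T + P)) :=
      (Commute.one_right _).sub_right ((hTc a).add_right (hPc a))
    refine ⟨(hPc a).mul_nonneg (hr a).1 hP0, ?_, ?_, fun i => ?_, ?_⟩
    · have h1 := Commute.mul_nonneg h0 hP0 h0P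
      rw [sub_mul, one_mul, sub_nonneg] at h1
      exact h1.trans hP1
    · exact add_nonneg (h0P.mul_nonneg h0 hP0) ((hTc a).mul_nonneg (hr a).1 hT0)
    · exact (((Commute.one_right _).sub_right (hc i a)).mul_right (hPc i)).add_right
        ((hc i a).mul_right (hTc i))
    · have h2 : 0 ≤ (1 - r a) * (1 - P) :=
        Commute.mul_nonneg h0 (sub_nonneg.2 hP1) ((Commute.one_right _).sub_right h0P)
      have h3 : 0 ≤ r a * (1 - (T + P)) := hbc.mul_nonneg (hr a).1 hb
      have := add_nonneg h2 h3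
      rw [← sub_nonneg]
      refine this.trans_eq ?_
      simp only [sub_mul, mul_sub, mul_add, one_mul, mul_one]
      abel

theorem sum_defect_le_one {M : ℕ} (r : Fin M → F) (hr : ∀ i, 0 ≤ r i ∧ r i ≤ 1)
    (hc : ∀ i j, Commute (r i) (r j)) :
    ∑ j, (1 - r j) * (Finset.univ.erase j).noncommProd r (fun a _ b _ _ => hc a b) ≤ 1 := by
  obtain ⟨h0, -, -, -, h⟩ := defect_induction r hr hc Finset.univ
  exact (le_add_of_nonneg_right h0).trans h

/-- A sum of positive elements below `1` times contractions has norm at most the square root of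
the number of summands. -/
theorem norm_sum_mul_le {M : ℕ} (d K : Fin M → F) (hd : ∀ j, 0 ≤ d j) (hsum : ∑ j, d j ≤ 1)
    (hK : ∀ j, ‖K j‖ ≤ 1) : ‖∑ j, d j * K j‖ ≤ Real.sqrt M := by
  set u : Fin M → F := fun j => CFC.sqrt (d j) with hu
  have hu' : ∀ j, star (u j) = u j := fun j => (CFC.sqrt_nonneg (d j)).isSelfAdjoint
  have huu : ∀ j, u j * u j = d j := fun j => CFC.sqrt_mul_sqrt_self _ (hd j)
  have h := Vale.Agent.P095.Amenable.column_cauchy_schwarz u (fun j => u j * K j) one_pos
    (by simpa [hu', huu] using hsum)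
  simp only [hu', ← mul_assoc, huu, one_smul] at h
  have h2 : ∀ j, star (u j * K j) * u j * K j ≤ algebraMap ℝ F 1 := fun j => by
    have hd1 : d j ≤ 1 := (Finset.single_le_sum (fun i _ => hd i) (mem_univ j)).trans hsum
    calc star (u j * K j) * u j * K j = star (K j) * d j * K j := by
          rw [star_mul, hu', mul_assoc (star (K j)), huu]
      _ ≤ star (K j) * 1 * K j := star_left_conjugate_le_conjugate hd1 _
      _ ≤ _ := by
          rw [mul_one]
          refine (IsSelfAdjoint.star_mul_self _).le_algebraMap_norm_self.trans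
            (algebraMap_mono F ?_)
          rw [CStarRing.norm_star_mul_self]
          exact mul_le_one₀ (hK j) (norm_nonneg _) (hK j)
  have h3 : star (∑ j, d j * K j) * (∑ j, d j * K j) ≤ algebraMap ℝ F (M : ℝ) := by
    refine h.trans ((sum_le_sum fun j _ => h2 j).trans_eq ?_)
    simp
  have h4 : ‖∑ j, d j * K j‖ ^ 2 ≤ M := by
    rw [sq, ← CStarRing.norm_star_mul_self,
      CStarAlgebra.norm_le_iff_le_algebraMap _ (Nat.cast_nonneg M) (star_mul_self_nonneg _)]
    exact h3
  exact Real.le_sqrt_of_sq_le h4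

theorem norm_commutator_prod_le {M : ℕ} (r K : Fin M → F) (hr : ∀ i, 0 ≤ r i ∧ r i ≤ 1)
    (hK : ∀ i, ‖K i‖ ≤ 1) (hc : ∀ i j, Commute (r i) (r j))
    (hcK : ∀ i j, i ≠ j → Commute (r i) (K j) ∧ Commute (K i) (star (K j))) :
    ‖(Finset.univ.noncommProd r fun a _ b _ _ => hc a b) * (∑ j, K j)
      - (∑ j, K j) * (Finset.univ.noncommProd r fun a _ b _ _ => hc a b)‖
      ≤ 2 * Real.sqrt M := by
  set R : Fin M → F :=
    fun j => (Finset.univ.erase j).noncommProd r (fun a _ b _ _ => hc a b) with hR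
  set d : Fin M → F := fun j => (1 - r j) * R j with hd
  have hRc : ∀ i j, Commute (r i) (R j) := fun i j =>
    Finset.noncommProd_commute _ r _ _ fun x _ => hc i x
  have hRK : ∀ j, Commute (K j) (R j) := fun j =>
    Finset.noncommProd_commute _ r _ _ fun x hx => ((hcK x j (Finset.ne_of_mem_erase hx)).1).symm
  have hd0 : ∀ j, 0 ≤ d j := fun j =>
    Commute.mul_nonneg (sub_nonneg.2 (hr j).2) (defect_induction r hr hc _).1
      ((Commute.one_left _).sub_left (hRc j j))
  have hsum : ∑ j, d j ≤ 1 := sum_defect_le_one r hr hc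
  have hP : ∀ j, (Finset.univ.noncommProd r fun a _ b _ _ => hc a b) = r j * R j := fun j =>
    (Finset.mul_noncommProd_erase Finset.univ (Finset.mem_univ j) r _).symm
  have e : (Finset.univ.noncommProd r fun a _ b _ _ => hc a b) * (∑ j, K j)
      - (∑ j, K j) * (Finset.univ.noncommProd r fun a _ b _ _ => hc a b)
      = star (∑ j, d j * star (K j)) - ∑ j, d j * K j := by
    rw [mul_sum, sum_mul, ← sum_sub_distrib, star_sum, ← sum_sub_distrib]
    refine sum_congr rfl fun j _ => ?_
    rw [hP j, star_mul, star_star, (hd0 j).isSelfAdjoint.star_eq, hd]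
    simp only [sub_mul, mul_sub, one_mul, (hRK j).eq]
    abel
  rw [e, two_mul]
  refine (norm_sub_le _ _).trans (add_le_add ?_ (norm_sum_mul_le d K hd0 hsum hK))
  rw [norm_star]
  exact norm_sum_mul_le d _ hd0 hsum fun j => by rw [norm_star]; exact hK j

theorem norm_le_of_mem {z : F} {c : ℝ} (hc : 0 ≤ c) (hz : IsSelfAdjoint z)
    (h₁ : -algebraMap ℝ F c ≤ z) (h₂ : z ≤ algebraMap ℝ F c) : ‖z‖ ≤ c := by
  have hcz : Commute (algebraMap ℝ F c) z := Algebra.commutes c z
  have h := Commute.mul_nonneg (sub_nonneg.2 h₂) (sub_nonneg.2 h₁) (by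
    have e : Commute (algebraMap ℝ F c - z) (z + algebraMap ℝ F c) :=
      (hcz.add_right (Commute.refl _)).sub_left ((Commute.refl z).add_right hcz.symm)
    rwa [sub_neg_eq_add])
  have h3 : star z * z ≤ algebraMap ℝ F (c ^ 2) := by
    rw [hz.star_eq, ← sub_nonneg]
    refine h.trans_eq ?_
    rw [sub_neg_eq_add, mul_add, sub_mul, sub_mul, hcz.eq, sq, map_mul]
    abel
  have h4 : ‖z‖ ^ 2 ≤ c ^ 2 := by
    rw [sq ‖z‖, ← CStarRing.norm_star_mul_self,
      CStarAlgebra.norm_le_iff_le_algebraMap _ (sq_nonneg c) (star_mul_self_nonneg _)]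
    exact h3
  exact le_of_pow_le_pow_left₀ two_ne_zero hc h4

theorem sqrt_smul_real {c : ℝ} (hc : 0 ≤ c) {b : F} (hb : 0 ≤ b) :
    CFC.sqrt (c • b) = Real.sqrt c • CFC.sqrt b :=
  CFC.sqrt_unique (by rw [smul_mul_smul_comm, Real.mul_self_sqrt hc, CFC.sqrt_mul_sqrt_self b hb])
    (smul_nonneg (Real.sqrt_nonneg c) (CFC.sqrt_nonneg b))

theorem norm_sqrt_ratio (B ε : ℝ) (hB : 1 ≤ B) (hε : 0 < ε) : ∃ δ : ℝ, 0 < δ ∧ ∀ a b : F,
    1 ≤ a → 1 ≤ b → a ≤ B • (1 : F) → b ≤ B • (1 : F) → (1 - δ) • b ≤ a → a ≤ (1 + δ) • b →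
      ‖a * b - b * a‖ ≤ δ → ‖CFC.sqrt a * Ring.inverse (CFC.sqrt b) - 1‖ ≤ ε := by
  refine ⟨min (1 / 2) (ε / B), lt_min one_half_pos (by positivity), ?_⟩
  intro a b ha1 hb1 _ hbB hlo hhi _
  set δ := min (1 / 2) (ε / B) with hδ
  have hδ0 : 0 < δ := lt_min one_half_pos (by positivity)
  have hδ1 : δ ≤ 1 / 2 := min_le_left _ _
  have hδε : δ * B ≤ ε := (le_div_iff₀ (by linarith)).1 (min_le_right _ _)
  have hb0 : 0 ≤ b := zero_le_one.trans hb1
  set x := CFC.sqrt a with hx
  set y := CFC.sqrt b with hy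
  have hy0 : 0 ≤ y := CFC.sqrt_nonneg b
  have hy1 : 1 ≤ y := by
    simpa [hy, CFC.sqrt_one] using CFC.sqrt_le_sqrt (1 : F) b hb1
  have hyB : y ≤ B • (1 : F) := by
    calc y ≤ CFC.sqrt (B • (1 : F)) := CFC.sqrt_le_sqrt _ _ hbB
      _ = Real.sqrt B • (1 : F) := by rw [sqrt_smul_real (by linarith) zero_le_one, CFC.sqrt_one]
      _ ≤ B • (1 : F) := smul_le_smul_of_nonneg_right
          (Real.sqrt_le_iff.2 ⟨by linarith, by nlinarith⟩) zero_le_one
  have hup : x ≤ (1 + δ) • y := by
    calc x ≤ CFC.sqrt ((1 + δ) • b) := CFC.sqrt_le_sqrt _ _ hhi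
      _ = Real.sqrt (1 + δ) • y := sqrt_smul_real (by linarith) hb0
      _ ≤ (1 + δ) • y := smul_le_smul_of_nonneg_right
          (Real.sqrt_le_iff.2 ⟨by linarith, by nlinarith⟩) hy0
  have hdn : (1 - δ) • y ≤ x := by
    calc (1 - δ) • y ≤ Real.sqrt (1 - δ) • y := smul_le_smul_of_nonneg_right
          (Real.le_sqrt_of_sq_le (by nlinarith)) hy0
      _ = CFC.sqrt ((1 - δ) • b) := (sqrt_smul_real (by linarith) hb0).symm
      _ ≤ x := CFC.sqrt_le_sqrt _ _ hlo
  have hxy : ‖x - y‖ ≤ ε := by
    have h1 : x - y ≤ algebraMap ℝ F ε := by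
      rw [Algebra.algebraMap_eq_smul_one, sub_le_iff_le_add]
      calc x ≤ (1 + δ) • y := hup
        _ = δ • y + y := by rw [add_smul, one_smul, add_comm]
        _ ≤ ε • (1 : F) + y := by
            refine add_le_add_left ?_ _
            refine (smul_le_smul_of_nonneg_left hyB hδ0.le).trans ?_
            rw [smul_smul]
            exact smul_le_smul_of_nonneg_right hδε zero_le_one
    have h2 : -algebraMap ℝ F ε ≤ x - y := by
      rw [Algebra.algebraMap_eq_smul_one, neg_le, neg_sub, sub_le_iff_le_add]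
      calc y = δ • y + (1 - δ) • y := by rw [← add_smul]; simp
        _ ≤ ε • (1 : F) + x := by
            refine add_le_add ?_ hdn
            refine (smul_le_smul_of_nonneg_left hyB hδ0.le).trans ?_
            rw [smul_smul]
            exact smul_le_smul_of_nonneg_right hδε zero_le_one
    exact norm_le_of_mem hε.le
      ((CFC.sqrt_nonneg a).isSelfAdjoint.sub hy0.isSelfAdjoint) h2 h1
  have hu : IsUnit y := CStarAlgebra.isUnit_of_le 1 hy1
  have hinv : ‖Ring.inverse y‖ ≤ 1 := by
    obtain ⟨v, hv⟩ := hu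
    rw [← hv, Ring.inverse_unit]
    rw [← hv] at hy1 hy0
    exact (CStarAlgebra.norm_le_one_iff_of_nonneg _ (CFC.inv_nonneg_of_nonneg v hy0)).2
      (CStarAlgebra.inv_le_one hy1)
  have e : x * Ring.inverse y - 1 = (x - y) * Ring.inverse y := by
    rw [sub_mul, Ring.mul_inverse_cancel y hu]
  rw [e]
  exact (norm_mul_le _ _).trans ((mul_le_mul hxy hinv (norm_nonneg _) hε.le).trans_eq (mul_one ε))

end Vale.Agent.P095.Lift
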