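import Vale.Agent.P095.Lift.Defs
import Vale.Agent.P095.Lift.OpIneq
import Vale.Agent.P095.Amenable.Layer

/-!
# Mutually commuting copies of the data of the induction

Equivariant copies of the separable algebra generated by the orbit of the data, commuting with
each other and with a countable set.
-/

open TopologicalSpace
open Vale.Agent.P101 (genAlg isClosed_genAlg subset_genAlg genAlg_le isSeparable_genAlg IsOZ)
open Vale.Agent.P095.Amenable (Sys Saturated IsTrace)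

namespace Vale.Agent.P095.Lift

variable {F : Type*} [CStarAlgebra F] {G : Type} [Group G]

/-- The elements of one slot: the values of the order zero map, the two contractions, and the
orbit of the moving element together with its adjoints. -/
def slotSet (α : G → (F ≃⋆ₐ[ℂ] F)) (φ : Matrix (Fin 2) (Fin 2) ℂ →ₗ[ℂ] F) (e f s : F) : Set F :=
  Set.range φ ∪ {e, f} ∪ (Set.range fun g => α g s) ∪ Set.range fun g => star (α g s)

variable [PartialOrder F] [StarOrderedRing F]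

/-- A contractive star homomorphism of a subalgebra keeps positive contractions. -/
theorem map_mem_unit_interval {D : StarSubalgebra ℂ F} (θ : D →⋆ₐ[ℂ] F)
    (hθ : ∀ d : D, ‖θ d‖ ≤ ‖(d : F)‖) {a : D} (h0 : 0 ≤ (a : F)) (h1 : (a : F) ≤ 1) :
    0 ≤ θ a ∧ θ a ≤ 1 := by
  set w : D := (2 : ℂ) • a - 1 with hw
  have hsa : IsSelfAdjoint (w : F) := by
    have := h0.isSelfAdjoint
    simp [hw, isSelfAdjoint_iff, this.star_eq]
  have h2 : ((2 : ℂ) • (a : F)) = (a : F) + a := two_smul ℂ _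
  have hn : ‖(w : F)‖ ≤ 1 := by
    refine norm_le_of_mem zero_le_one hsa ?_ ?_
    · simpa [hw, h2] using add_nonneg h0 h0
    · simpa [hw, h2] using add_le_add h1 h1
  have hsa' : IsSelfAdjoint w := Subtype.ext hsa.star_eq
  have hθsa : IsSelfAdjoint (θ w) := hsa'.map θ
  have hle : algebraMap ℝ F ‖θ w‖ ≤ 1 := by
    simpa using algebraMap_mono F ((hθ w).trans hn)
  have hup : θ w ≤ 1 := hθsa.le_algebraMap_norm_self.trans hle
  have hdn : -1 ≤ θ w := (neg_le_neg hle).trans hθsa.neg_algebraMap_norm_le_self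
  have ha : θ a = (2⁻¹ : ℝ) • (θ w + 1) := by
    rw [hw, map_sub, map_one, map_smul, sub_add_cancel, two_smul ℂ, ← two_smul ℝ (θ a),
      smul_smul]
    norm_num
  rw [ha]
  refine ⟨smul_nonneg (by norm_num) (neg_le_iff_add_nonneg.1 hdn), ?_⟩
  calc (2⁻¹ : ℝ) • (θ w + 1) ≤ (2⁻¹ : ℝ) • ((2 : ℝ) • (1 : F)) := by
        refine smul_le_smul_of_nonneg_left ?_ (by norm_num)
        rw [two_smul]
        exact add_le_add hup le_rfl
    _ = 1 := by rw [smul_smul]; norm_num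

variable [Countable G] {T : Set (F →ₗ[ℂ] ℂ)} {α : G → (F ≃⋆ₐ[ℂ] F)}

/-- Mutually commuting copies of the data, commuting with a countable set. -/
theorem exists_slot_copies_avoid (hs : Sys T α) (hsat : Saturated T α)
    {N : Subgroup G} {φ : Matrix (Fin 2) (Fin 2) ℂ →ₗ[ℂ] F} {e f s : F} (h : BaseData α N φ e f s)
    (S : Set F) (hS : S.Countable) (M : ℕ) :
    ∃ (φs : Fin M → (Matrix (Fin 2) (Fin 2) ℂ →ₗ[ℂ] F)) (es fs ss : Fin M → F),
      (∀ i, BaseData α N (φs i) (es i) (fs i) (ss i)) ∧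
      (∀ i, ∀ a ∈ slotSet α (φs i) (es i) (fs i) (ss i), ∀ t ∈ S, Commute a t) ∧
      ∀ i j, i ≠ j → ∀ a ∈ slotSet α (φs i) (es i) (fs i) (ss i),
        ∀ b ∈ slotSet α (φs j) (es j) (fs j) (ss j), Commute a b := by
  set X : Set F := Set.range φ ∪ {e, f} ∪ Set.range fun g => α g s with hX
  set D := genAlg X with hD
  have hDcl : IsClosed (D : Set F) := isClosed_genAlg X
  have hXsep : IsSeparable X := by
    have : SeparableSpace (Matrix (Fin 2) (Fin 2) ℂ) :=
      inferInstanceAs (SeparableSpace (Fin 2 → Fin 2 → ℂ))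
    refine ((isSeparable_range φ.continuous_of_finiteDimensional).union ?_).union ?_
    · exact ((Set.finite_singleton f).insert e).countable.isSeparable
    · exact (Set.countable_range _).isSeparable
  have hDsep : IsSeparable (D : Set F) := isSeparable_genAlg hXsep
  have hXinv : ∀ g, ∀ x ∈ X, α g x ∈ X := by
    rintro g x ((⟨y, rfl⟩ | hx) | ⟨k, rfl⟩)
    · exact Or.inl (Or.inl ⟨y, (h.phi_fixed g y).symm⟩)
    · rcases hx with rfl | rfl
      · exact Or.inl (Or.inr (Or.inl (h.e_fixed g)))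
      · exact Or.inl (Or.inr (Or.inr (h.f_fixed g)))
    · exact Or.inr ⟨g * k, hs.act_mul g k s⟩
  have hinv : ∀ g, ∀ d ∈ D, α g d ∈ D := fun g d hd =>
    genAlg_le (U := D.comap ((α g : F ≃⋆ₐ[ℂ] F) : F →⋆ₐ[ℂ] F))
      (hDcl.preimage (Vale.Agent.P101.hom_continuous ((α g : F ≃⋆ₐ[ℂ] F) : F →⋆ₐ[ℂ] F)))
      (fun x hx => subset_genAlg X (hXinv g x hx)) hd
  obtain ⟨θ, hθS, hθc, hθg, -⟩ := Amenable.exists_copies hsat D hDcl hDsep hinv S hS
  have hθn : ∀ i (d : D), ‖θ i d‖ ≤ ‖(d : F)‖ := fun i d => by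
    let : CStarAlgebra D := Vale.Agent.P101.subCStar D hDcl
    exact NonUnitalStarAlgHom.norm_apply_le (θ i) d
  have hφD : ∀ x, φ x ∈ D := fun x => subset_genAlg X (Or.inl (Or.inl ⟨x, rfl⟩))
  have heD : e ∈ D := subset_genAlg X (Or.inl (Or.inr (Or.inl rfl)))
  have hfD : f ∈ D := subset_genAlg X (Or.inl (Or.inr (Or.inr rfl)))
  have hsD : s ∈ D := subset_genAlg X (Or.inr ⟨1, hs.act_one s⟩)
  let φD : Matrix (Fin 2) (Fin 2) ℂ →ₗ[ℂ] D := φ.codRestrict D.toSubalgebra.toSubmodule hφD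
  refine ⟨fun i => (θ i).toAlgHom.toLinearMap.comp φD, fun i => θ i ⟨e, heD⟩,
    fun i => θ i ⟨f, hfD⟩, fun i => θ i ⟨s, hsD⟩, fun i => ?_, ?_⟩
  · have hsub : ∀ a b : D, (a : F) = b → θ i a = θ i b := fun a b hab => by rw [Subtype.ext hab]
    have hu := map_mem_unit_interval (θ i) (hθn i) (a := φD 1) h.unit_nonneg h.unit_le
    have he := map_mem_unit_interval (θ i) (hθn i) (a := ⟨e, heD⟩) h.e_nonneg h.e_le
    have hf := map_mem_unit_interval (θ i) (hθn i) (a := ⟨f, hfD⟩) h.f_nonneg h.f_le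
    have hfix : ∀ g (d : D), α g (d : F) = d → α g (θ i d) = θ i d := fun g d hd => by
      rw [hθg i g d (hd.symm ▸ d.2)]
      exact hsub _ _ hd
    refine ⟨⟨fun x => ?_, fun x y => ?_⟩, hu.1, hu.2, he.1, he.2, hf.1, hf.2,
      fun g x => hfix g (φD x) (h.phi_fixed g x), fun g => hfix g ⟨e, heD⟩ (h.e_fixed g),
      fun g => hfix g ⟨f, hfD⟩ (h.f_fixed g), fun g hg => ?_, ?_, ?_, ?_, ?_, ?_, ?_⟩
    · show star (θ i (φD x)) = θ i (φD (star x))
      rw [← map_star]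
      exact hsub _ _ (h.oz.star_map x)
    · show θ i (φD x) * θ i (φD y) = θ i (φD 1) * θ i (φD (x * y))
      exact (map_mul (θ i) _ _).symm.trans
        ((hsub (φD x * φD y) (φD 1 * φD (x * y)) (h.oz.mul_map x y)).trans (map_mul (θ i) _ _))
    · exact hfix g ⟨s, hsD⟩ (h.s_fixed g hg)
    · exact (hθn i ⟨s, hsD⟩).trans h.s_norm
    · show θ i ⟨e, heD⟩ * (1 - θ i (φD 1)) = 1 - θ i (φD 1)
      rw [← map_one (θ i), ← map_sub, ← map_mul]
      exact hsub _ _ h.e_defect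
    · show θ i ⟨f, hfD⟩ * (1 - θ i (φD 1)) = 0
      rw [← map_one (θ i), ← map_sub, ← map_mul, ← map_zero (θ i)]
      exact hsub _ _ h.f_defect
    · rw [← map_mul, ← map_zero (θ i)]
      exact hsub _ _ h.f_e
    · rw [← map_mul]
      exact hsub _ _ h.f_s
    · rw [← map_star, ← map_mul, ← map_mul]
      exact hsub _ _ h.s_e
  · have hslot : ∀ i : Fin M, ∀ a ∈ slotSet α ((θ i).toAlgHom.toLinearMap.comp φD) (θ i ⟨e, heD⟩)
        (θ i ⟨f, hfD⟩) (θ i ⟨s, hsD⟩), ∃ d : D, θ i d = a := by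
      rintro i a (((⟨x, rfl⟩ | ha) | ⟨g, rfl⟩) | ⟨g, rfl⟩)
      · exact ⟨φD x, rfl⟩
      · rcases ha with rfl | rfl
        · exact ⟨⟨e, heD⟩, rfl⟩
        · exact ⟨⟨f, hfD⟩, rfl⟩
      · exact ⟨_, (hθg i g ⟨s, hsD⟩ (hinv g s hsD)).symm⟩
      · exact ⟨star _, by rw [map_star, ← hθg i g ⟨s, hsD⟩ (hinv g s hsD)]⟩
    refine ⟨fun i a ha t ht => ?_, fun i j hij a ha b hb => ?_⟩
    · obtain ⟨d, rfl⟩ := hslot i a ha
      exact hθS i d t ht
    · obtain ⟨d, rfl⟩ := hslot i a ha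
      obtain ⟨d', rfl⟩ := hslot j b hb
      exact hθc i j (fun hh => hij (Fin.ext hh)) d d'

/-- Mutually commuting copies of the data. -/
theorem exists_slot_copies (hs : Sys T α) (hsat : Saturated T α)
    {N : Subgroup G} {φ : Matrix (Fin 2) (Fin 2) ℂ →ₗ[ℂ] F} {e f s : F} (h : BaseData α N φ e f s) (M : ℕ) :
    ∃ (φs : Fin M → (Matrix (Fin 2) (Fin 2) ℂ →ₗ[ℂ] F)) (es fs ss : Fin M → F),
      (∀ i, BaseData α N (φs i) (es i) (fs i) (ss i)) ∧
      ∀ i j, i ≠ j → ∀ a ∈ slotSet α (φs i) (es i) (fs i) (ss i),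
        ∀ b ∈ slotSet α (φs j) (es j) (fs j) (ss j), Commute a b := by
  obtain ⟨φs, es, fs, ss, h1, -, h2⟩ :=
    exists_slot_copies_avoid hs hsat h ∅ Set.countable_empty M
  exact ⟨φs, es, fs, ss, h1, h2⟩

end Vale.Agent.P095.Lift
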