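import Vale.Agent.P095.Amenable.Trace
import Vale.Agent.P101.OZ

/-!
# Definitions for the equivariant lift (PROOF.md in this folder)

Completely positive approximation, the comparison relation for diagonal matrices over a C*-algebra,
and the induction predicate along subgroups.
-/

open scoped ComplexOrder

namespace Vale.Agent.P095.Lift

variable {A : Type*} [CStarAlgebra A] {k : ℕ}

/-- A linear map into matrices is completely positive: it turns every Gram matrix
`(star (a i) * a j)` into a positive semidefinite matrix. -/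
def IsCPToMatrix (σ : A →ₗ[ℂ] Matrix (Fin k) (Fin k) ℂ) : Prop :=
  ∀ (n : ℕ) (a : Fin n → A),
    (Matrix.of fun p q : Fin n × Fin k => σ (star (a p.1) * a q.1) p.2 q.2).PosSemidef

/-- A linear map out of matrices is completely positive: its Choi matrix is a Gram matrix. -/
def IsCPFromMatrix (ρ : Matrix (Fin k) (Fin k) ℂ →ₗ[ℂ] A) : Prop :=
  ∃ (n : ℕ) (c : Fin n → Fin k → A),
    ∀ x, ρ x = ∑ l, ∑ i, ∑ j, x i j • (star (c l i) * c l j)

/-- The completely positive approximation property (nuclearity), with unital maps. -/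
def IsNuclear (A : Type*) [CStarAlgebra A] : Prop :=
  ∀ (s : Finset A) (ε : ℝ), 0 < ε → ∃ (k : ℕ) (σ : A →ₗ[ℂ] Matrix (Fin k) (Fin k) ℂ)
    (ρ : Matrix (Fin k) (Fin k) ℂ →ₗ[ℂ] A), σ 1 = 1 ∧ ρ 1 = 1 ∧ IsCPToMatrix σ ∧
      IsCPFromMatrix ρ ∧ ∀ x ∈ s, ‖ρ (σ x) - x‖ < ε

/-- The diagonal matrix with entries `x` is subequivalent to the one with entries `y`. -/
def SubD {ι κ : Type} [DecidableEq ι] [Fintype κ] (x : ι → A) (y : κ → A) : Prop :=
  ∀ d : ℝ, 0 < d → ∃ R : κ → ι → A,
    ∀ i j, ‖(∑ p, star (R p i) * y p * R p j) - (if i = j then x i else 0)‖ < d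

/-- `k` copies of `x` are subequivalent to `l` copies of `y`. -/
def Sub (k : ℕ) (x : A) (l : ℕ) (y : A) : Prop :=
  SubD (fun _ : Fin k => x) (fun _ : Fin l => y)

variable {F : Type*} [CStarAlgebra F] [PartialOrder F] [StarOrderedRing F] {G : Type} [Group G]

/-- The induction predicate: an order zero map and two positive contractions fixed by the whole
group, and a contraction fixed by `N` moving `e` below `f`. -/
structure BaseData (α : G → (F ≃⋆ₐ[ℂ] F)) (N : Subgroup G)
    (φ : Matrix (Fin 2) (Fin 2) ℂ →ₗ[ℂ] F) (e f s : F) : Prop where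
  oz : Vale.Agent.P101.IsOZ φ
  unit_nonneg : 0 ≤ φ 1
  unit_le : φ 1 ≤ 1
  e_nonneg : 0 ≤ e
  e_le : e ≤ 1
  f_nonneg : 0 ≤ f
  f_le : f ≤ 1
  phi_fixed : ∀ g x, α g (φ x) = φ x
  e_fixed : ∀ g, α g e = e
  f_fixed : ∀ g, α g f = f
  s_fixed : ∀ g ∈ N, α g s = s
  s_norm : ‖s‖ ≤ 1
  e_defect : e * (1 - φ 1) = 1 - φ 1
  f_defect : f * (1 - φ 1) = 0
  f_e : f * e = 0
  f_s : f * s = s
  s_e : star s * s * e = e

/-- The induction predicate along subgroups. -/
def Base (α : G → (F ≃⋆ₐ[ℂ] F)) (N : Subgroup G) : Prop :=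
  ∃ φ e f s, BaseData α N φ e f s

end Vale.Agent.P095.Lift
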