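import Vale.Agent.P101.Copies
import Vale.Agent.P095.Amenable.Central

/-!
# Diagonal limits in the central sequence algebra

Countably many bounded sequences in `F_ω(A)` have simultaneous limits satisfying every polynomial
norm bound and every trace bound that holds eventually, compatibly with an induced action.
-/

open Filter Topology TopologicalSpace
open Vale.Agent.P101 (CentralSeq Ultrapower BddSeq qmk constSeq genAlg subset_genAlg tendsto_norm_qmk)
open Vale.Agent.P095.Amenable

namespace Vale.Agent.P095.Lift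

noncomputable section

set_option synthInstance.maxHeartbeats 100000

variable {A : Type} [CStarAlgebra A] [Nontrivial A] {ω : Ultrafilter ℕ}

/-- Evaluation of a *-polynomial in the variables `ι`. -/
def evalP {F : Type*} [Semiring F] [Algebra ℂ F] [Star F] {ι : Type*} (L : ι → F) :
    FreeAlgebra ℂ (ι ⊕ ι) →ₐ[ℂ] F :=
  FreeAlgebra.lift ℂ (Sum.elim L fun i => star (L i))

/-- The variable. -/
abbrev pv {ι : Type*} (i : ι) : FreeAlgebra ℂ (ι ⊕ ι) := FreeAlgebra.ι ℂ (Sum.inl i)

/-- The adjoint of a variable. -/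
abbrev pvs {ι : Type*} (i : ι) : FreeAlgebra ℂ (ι ⊕ ι) := FreeAlgebra.ι ℂ (Sum.inr i)

@[simp] lemma evalP_pv {F : Type*} [Semiring F] [Algebra ℂ F] [Star F] {ι : Type*} (L : ι → F)
    (i : ι) : evalP L (pv i) = L i := by simp [evalP, pv]

@[simp] lemma evalP_pvs {F : Type*} [Semiring F] [Algebra ℂ F] [Star F] {ι : Type*} (L : ι → F)
    (i : ι) : evalP L (pvs i) = star (L i) := by simp [evalP, pvs]

lemma evalP_map {E F : Type*} [Semiring E] [Algebra ℂ E] [Star E] [Semiring F] [Algebra ℂ F]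
    [Star F] {ι : Type*} (L : ι → E) (h : E →ₐ[ℂ] F) (hs : ∀ x, h (star x) = star (h x))
    (P : FreeAlgebra ℂ (ι ⊕ ι)) : h (evalP L P) = evalP (fun i => h (L i)) P := by
  suffices h.comp (evalP L) = evalP (fun i => h (L i)) from congrArg (fun φ => φ P) this
  ext (i | i) <;> simp [evalP, hs]

/-- An index map which is good for countably many double sequences. -/
theorem exists_index (hω : (ω : Filter ℕ) ≤ cofinite) (U : ℕ → ℕ → Set ℕ)
    (hU : ∀ j m, U j m ∈ (ω : Filter ℕ)) :
    ∃ ν : ℕ → ℕ, Tendsto ν ω atTop ∧ ∀ j, ∀ᶠ n in (ω : Filter ℕ), n ∈ U j (ν n) := by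
  classical
  have hle : (ω : Filter ℕ) ≤ atTop := Nat.cofinite_eq_atTop ▸ hω
  let V : ℕ → Set ℕ := fun k => {n | k ≤ n ∧ ∀ m ≤ k, ∀ j ≤ k, n ∈ U j m}
  have hV : ∀ k, V k ∈ (ω : Filter ℕ) := fun k => by
    have h1 : {n | k ≤ n} ∈ (ω : Filter ℕ) := hle (eventually_ge_atTop k)
    have h2 : {n | ∀ m ∈ Finset.range (k + 1), ∀ j ∈ Finset.range (k + 1), n ∈ U j m} ∈
        (ω : Filter ℕ) := by
      exact (Filter.eventually_all_finset _).2 fun m _ =>
        (Filter.eventually_all_finset _).2 fun j _ => hU j m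
    filter_upwards [h1, h2] with n a b
    exact ⟨a, fun m hm j hj => b m (Finset.mem_range.2 (by omega)) j (Finset.mem_range.2 (by omega))⟩
  refine ⟨fun n => Nat.findGreatest (fun k => n ∈ V k) n, tendsto_atTop.2 fun k => ?_, fun j => ?_⟩
  · filter_upwards [hV k] with n hn
    exact Nat.le_findGreatest hn.1 hn
  · filter_upwards [hV j] with n hn
    have hνn : n ∈ V (Nat.findGreatest (fun k => n ∈ V k) n) :=
      Nat.findGreatest_spec (P := fun k => n ∈ V k) hn.1 hn
    exact hνn.2 _ le_rfl j (Nat.le_findGreatest hn.1 hn)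

/-- A uniform trace bound holds on an index set of the ultrafilter. -/
theorem eventually_tn_le {x : BddSeq A} {z : CentralSeq A ω}
    (hx : qmk ω x = (z : Ultrapower A ω)) {c : ℝ} (h : ∀ τ ∈ limTraces A ω, tn τ z ≤ c) {ε : ℝ}
    (hε : 0 < ε) :
    ∀ᶠ n in (ω : Filter ℕ), ∀ σ : A →ₗ[ℂ] ℂ, IsTrace σ → tn σ (x n) ≤ c + ε := by
  classical
  by_contra hc
  rw [← Ultrafilter.eventually_not] at hc
  obtain ⟨n₀, hn₀⟩ := hc.exists
  push Not at hn₀
  obtain ⟨σ₀, hσ₀, -⟩ := hn₀
  let σ : ℕ → (A →ₗ[ℂ] ℂ) := fun n =>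
    if h : ∃ s : A →ₗ[ℂ] ℂ, IsTrace s ∧ c + ε < tn s (x n) then h.choose else σ₀
  have hσ : ∀ n, IsTrace (σ n) := fun n => by
    show IsTrace (if h : _ then _ else _)
    split_ifs with h
    · exact h.choose_spec.1
    · exact hσ₀
  obtain ⟨τ, hτ⟩ := exists_limTrace hσ
  have hlim : Tendsto (fun n => tn (σ n) (x n)) ω (𝓝 (tn τ z)) := by
    have h1 := hτ (star z * z) (star x * x)
      (by rw [map_mul, ← Vale.Agent.P101.star_qmk, hx]; rfl)
    exact (Real.continuous_sqrt.tendsto _).comp ((Complex.continuous_re.tendsto _).comp h1)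
  refine absurd (h τ ⟨σ, hσ, hτ⟩) (not_le.2 (lt_of_lt_of_le (lt_add_of_pos_right c hε) ?_))
  refine ge_of_tendsto hlim ?_
  filter_upwards [hc] with n hn
  push Not at hn
  have hn' : ∃ s : A →ₗ[ℂ] ℂ, IsTrace s ∧ c + ε < tn s (x n) := hn
  have : σ n = hn'.choose := dif_pos hn'
  rw [this]
  exact hn'.choose_spec.2.le

local instance : CStarRing (BddSeq A) :=
  (inferInstance : CStarRing ↥(lp (fun _ : ℕ => A) ⊤))

local instance : CStarAlgebra (BddSeq A) where

/-- The `m`-th row of a sequence, read as a double sequence through the pairing. -/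
def row (m : ℕ) : BddSeq A →ₐ[ℂ] BddSeq A where
  toFun Y := BddSeq.mk (fun n => Y (Nat.pair m n)) ‖Y‖ fun n => Y.norm_apply_le _
  map_one' := Subtype.ext (funext fun _ => rfl)
  map_mul' _ _ := Subtype.ext (funext fun _ => rfl)
  map_zero' := Subtype.ext (funext fun _ => rfl)
  map_add' _ _ := Subtype.ext (funext fun _ => rfl)
  commutes' _ := Subtype.ext (funext fun _ => rfl)

/-- The diagonal of a double sequence along an index map. -/
def dgl (ν : ℕ → ℕ) : BddSeq A →ₐ[ℂ] BddSeq A where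
  toFun Y := BddSeq.mk (fun n => Y (Nat.pair (ν n) n)) ‖Y‖ fun n => Y.norm_apply_le _
  map_one' := Subtype.ext (funext fun _ => rfl)
  map_mul' _ _ := Subtype.ext (funext fun _ => rfl)
  map_zero' := Subtype.ext (funext fun _ => rfl)
  map_add' _ _ := Subtype.ext (funext fun _ => rfl)
  commutes' _ := Subtype.ext (funext fun _ => rfl)

/-- The quotient map as an algebra homomorphism. -/
def qal : BddSeq A →ₐ[ℂ] Ultrapower A ω := Ideal.Quotient.mkₐ ℂ _

lemma qal_apply (Y : BddSeq A) : (qal (ω := ω)) Y = qmk ω Y := rfl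

lemma qal_star (Y : BddSeq A) : (qal (ω := ω)) (star Y) = star ((qal (ω := ω)) Y) := rfl

lemma norm_qmk_sub_le (X Y : BddSeq A) : |‖qmk ω X‖ - ‖qmk ω Y‖| ≤ ‖X - Y‖ := by
  refine (abs_norm_sub_norm_le _ _).trans ?_
  rw [← map_sub]
  exact Submodule.Quotient.norm_mk_le _ _

variable [SeparableSpace A]

set_option maxHeartbeats 1000000 in
theorem exists_diag (hω : (ω : Filter ℕ) ≤ cofinite) {G : Type} [Group G]
    {β : G → (A ≃⋆ₐ[ℂ] A)} {α : G → (CentralSeq A ω ≃⋆ₐ[ℂ] CentralSeq A ω)}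
    (hα : Induced A ω β α) [Countable G] {ι : Type} [Countable ι]
    (x : ι → ℕ → CentralSeq A ω) (C : ι → ℝ) (hC : ∀ i m, ‖x i m‖ ≤ C i) :
    ∃ L : ι → CentralSeq A ω,
      (∀ (P : FreeAlgebra ℂ (ι ⊕ ι)) (c : ℝ), (∀ᶠ m in atTop, ‖evalP (fun i => x i m) P‖ ≤ c) →
        ‖evalP L P‖ ≤ c) ∧
      (∀ i j g, (∀ᶠ m in atTop, x j m = α g (x i m)) → L j = α g (L i)) ∧
      (∀ i t, (∀ᶠ m in atTop, x i m = t) → L i = t) ∧
      ∀ i (c : ℝ), (∀ᶠ m in atTop, ∀ τ ∈ limTraces A ω, tn τ (x i m) ≤ c) →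
        ∀ τ ∈ limTraces A ω, tn τ (L i) ≤ c := by
  classical
  have hle : (ω : Filter ℕ) ≤ atTop := Nat.cofinite_eq_atTop ▸ hω
  have hrep : ∀ z : CentralSeq A ω,
      ∃ r : BddSeq A, qmk ω r = (z : Ultrapower A ω) ∧ ‖r‖ ≤ ‖z‖ + 1 := fun z => by
    obtain ⟨r, hr, hlt⟩ := Submodule.Quotient.norm_mk_lt (S := Vale.Agent.P101.nullSeq A ω)
      (z : Ultrapower A ω) one_pos
    exact ⟨r, hr, hlt.le⟩
  choose R hR hRn using hrep
  let X : ι → BddSeq A := fun i =>
    BddSeq.mk (fun p => R (x i p.unpair.1) p.unpair.2) (C i + 1) fun p =>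
      ((R _).norm_apply_le _).trans ((hRn _).trans (add_le_add (hC i _) le_rfl))
  have hrow : ∀ i m, qal (ω := ω) (row m (X i)) = (x i m : Ultrapower A ω) := fun i m => by
    rw [qal_apply, ← hR (x i m)]
    congr 1
    exact Subtype.ext (funext fun n => by
      show R (x i (Nat.pair m n).unpair.1) (Nat.pair m n).unpair.2 = R (x i m) n
      rw [Nat.unpair_pair])
  have heval : ∀ (P : FreeAlgebra ℂ (ι ⊕ ι)) (L : ι → CentralSeq A ω),
      ((evalP L P : CentralSeq A ω) : Ultrapower A ω) =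
        evalP (fun i => (L i : Ultrapower A ω)) P := fun P L =>
    evalP_map L (StarSubalgebra.subtype _).toAlgHom (fun _ => rfl) P
  -- the separable algebra of double sequences
  set S : Set (BddSeq A) := Set.range X with hS
  have hsep : IsSeparable (genAlg S : Set (BddSeq A)) :=
    Vale.Agent.P101.isSeparable_genAlg (Set.countable_range _).isSeparable
  obtain ⟨d, hdc, hd⟩ := hsep
  obtain ⟨Y, hY⟩ := (hdc.insert 0).exists_eq_range (Set.insert_nonempty _ _)
  obtain ⟨e, he⟩ := exists_surjective_nat (Option ι)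
  obtain ⟨g0, hg0⟩ := exists_surjective_nat G
  obtain ⟨a0, ha0⟩ : ∃ a : ℕ → A, DenseRange a := ⟨denseSeq A, denseRange_denseSeq A⟩
  -- conditions
  let U : ℕ → ℕ → Set ℕ := fun j m =>
    {n | ‖Y j (Nat.pair m n)‖ ≤ ‖qmk ω (row m (Y j))‖ + 1 / ((m : ℝ) + 1)} ∩
    {n | ∀ i, e (Nat.unpair j).1 = some i → ‖R (x i m) n * a0 (Nat.unpair j).2
        - a0 (Nat.unpair j).2 * R (x i m) n‖ ≤ 1 / ((m : ℝ) + 1)} ∩
    {n | ∀ i i' g, e (Nat.unpair j).1 = some i → e (Nat.unpair (Nat.unpair j).2).1 = some i' →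
        g0 (Nat.unpair (Nat.unpair j).2).2 = g → x i' m = α g (x i m) →
        ‖R (x i' m) n - β g (R (x i m) n)‖ ≤ 1 / ((m : ℝ) + 1)} ∩
    {n | ∀ i, e j = some i → ∀ c : ℚ, (Encodable.encode c) ≤ m →
        (∀ τ ∈ limTraces A ω, tn τ (x i m) ≤ c) →
          ∀ σ : A →ₗ[ℂ] ℂ, IsTrace σ → tn σ (R (x i m) n) ≤ c + 1 / ((m : ℝ) + 1)} ∩
    {n | ∀ i, e j = some i → ∀ t, x i m = t → ‖R (x i m) n - R t n‖ ≤ 1 / ((m : ℝ) + 1)}
  have hUω : ∀ j m, U j m ∈ (ω : Filter ℕ) := by
    intro j m
    have hε : (0 : ℝ) < 1 / ((m : ℝ) + 1) := by positivity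
    refine inter_mem (inter_mem (inter_mem (inter_mem ?_ ?_) ?_) ?_) ?_
    · exact (tendsto_norm_qmk ω (row m (Y j))).eventually_le_const (lt_add_of_pos_right _ hε)
    · rcases hj : e (Nat.unpair j).1 with _ | i
      · simp
      · have h0 := (Vale.Agent.P101.qmk_constSeq_comm (x i m) (a0 (Nat.unpair j).2)).eq
        rw [← hR (x i m), ← map_mul, ← map_mul, Vale.Agent.P101.qmk_eq_iff] at h0
        filter_upwards [h0.eventually_le_const hε] with n hn i' hi'
        obtain rfl : i = i' := Option.some_injective _ hi'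
        exact hn
    · rcases hj : e (Nat.unpair j).1 with _ | i
      · simp
      rcases hj' : e (Nat.unpair (Nat.unpair j).2).1 with _ | i'
      · simp
      set g := g0 (Nat.unpair (Nat.unpair j).2).2 with hg
      by_cases hx : x i' m = α g (x i m)
      · have h0 : qmk ω (R (x i' m)) = qmk ω (mapSeq (β g) (R (x i m))) := by
          rw [hR, hx, hα g (x i m) _ _ (hR _) fun n => rfl]
        rw [Vale.Agent.P101.qmk_eq_iff] at h0
        filter_upwards [h0.eventually_le_const hε] with n hn k k' g' hk hk' hg' _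
        obtain rfl : i = k := Option.some_injective _ hk
        obtain rfl : i' = k' := Option.some_injective _ hk'
        subst hg'
        exact hn
      · refine Eventually.of_forall fun n k k' g' hk hk' hg' he' => absurd ?_ hx
        obtain rfl : i = k := Option.some_injective _ hk
        obtain rfl : i' = k' := Option.some_injective _ hk'
        subst hg'
        exact he'
    · rcases hj : e j with _ | i
      · simp
      have hfin : {c : ℚ | Encodable.encode c ≤ m}.Finite :=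
        Set.Finite.preimage Encodable.encode_injective.injOn (Set.finite_Iic m)
      have hev : ∀ᶠ n in (ω : Filter ℕ), ∀ c ∈ hfin.toFinset,
          (∀ τ ∈ limTraces A ω, tn τ (x i m) ≤ c) →
          ∀ σ : A →ₗ[ℂ] ℂ, IsTrace σ → tn σ (R (x i m) n) ≤ c + 1 / ((m : ℝ) + 1) := by
        refine (Filter.eventually_all_finset _).2 fun c _ => ?_
        by_cases hc : ∀ τ ∈ limTraces A ω, tn τ (x i m) ≤ c
        · exact (eventually_tn_le (hR (x i m)) hc hε).mono fun n hn _ => hn
        · exact Eventually.of_forall fun n h => absurd h hc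
      filter_upwards [hev] with n hn k hk c hc
      obtain rfl : i = k := Option.some_injective _ hk
      exact hn c (hfin.mem_toFinset.2 hc)
    · refine Eventually.of_forall fun n i _ t ht => ?_
      subst ht
      simp only [sub_self, norm_zero]
      exact hε.le
  obtain ⟨ν, hν, hνU⟩ := exists_index hω U hUω
  have hν0 : Tendsto (fun n => 1 / ((ν n : ℝ) + 1)) ω (𝓝 0) :=
    tendsto_one_div_add_atTop_nhds_zero_nat.comp hν
  have hdia : ∀ i n, dgl ν (X i) n = R (x i (ν n)) n := fun i n => by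
    show R (x i (Nat.pair (ν n) n).unpair.1) (Nat.pair (ν n) n).unpair.2 = R (x i (ν n)) n
    rw [Nat.unpair_pair]
  -- the norm bound on the algebra
  have hbound : ∀ Z ∈ genAlg S, ∀ c : ℝ, (∀ᶠ m in atTop, ‖qmk ω (row m Z)‖ ≤ c) →
      ‖qmk ω (dgl ν Z)‖ ≤ c := by
    intro Z hZ c hc
    refine le_of_forall_pos_le_add fun ε hε => ?_
    have hZ' : Z ∈ closure d := hd hZ
    obtain ⟨Z', hZ'd, hdist⟩ := Metric.mem_closure_iff.1 hZ' (ε / 4) (by positivity)
    obtain ⟨j, rfl⟩ : ∃ j, Y j = Z' := (hY ▸ Set.mem_insert_of_mem _ hZ'd : Z' ∈ Set.range Y)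
    rw [dist_eq_norm] at hdist
    have h1 : ‖qmk ω (dgl ν (Y j))‖ ≤ c + ε / 2 := by
      refine le_of_tendsto (tendsto_norm_qmk ω _) ?_
      filter_upwards [hνU j, hν.eventually hc,
        hν0.eventually_le_const (show (0 : ℝ) < ε / 4 by positivity)] with n hn hm h4
      have a1 : ‖dgl ν (Y j) n‖ ≤ ‖qmk ω (row (ν n) (Y j))‖ + 1 / ((ν n : ℝ) + 1) := hn.1.1.1.1
      have a2 := (abs_le.1 (norm_qmk_sub_le (ω := ω) (row (ν n) (Y j)) (row (ν n) Z))).2
      have a3 : ‖row (ν n) (Y j) - row (ν n) Z‖ ≤ ε / 4 := by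
        rw [← map_sub]
        exact BddSeq.norm_le (by positivity) fun k =>
          ((Y j - Z).norm_apply_le _).trans (by rw [norm_sub_rev]; exact hdist.le)
      linarith
    have a2 := (abs_le.1 (norm_qmk_sub_le (ω := ω) (dgl ν Z) (dgl ν (Y j)))).2
    have a3 : ‖dgl ν Z - dgl ν (Y j)‖ ≤ ε / 4 := by
      rw [← map_sub]
      exact BddSeq.norm_le (by positivity) fun k => ((Z - Y j).norm_apply_le _).trans hdist.le
    linarith
  -- centrality
  have hcent : ∀ i, qmk ω (dgl ν (X i)) ∈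
      StarSubalgebra.centralizer ℂ (Set.range fun a : A => qmk ω (constSeq a)) := by
    intro i
    have key : ∀ a : A, Commute (qmk ω (dgl ν (X i))) (qmk ω (constSeq a)) := by
      intro a
      have hcc : Continuous fun a : A => qmk ω (constSeq a) :=
        (LipschitzWith.of_dist_le_mul (K := 1) fun a b => by
          rw [NNReal.coe_one, one_mul, dist_eq_norm, dist_eq_norm, ← map_sub]
          exact le_of_tendsto (tendsto_norm_qmk ω _)
            (Eventually.of_forall fun _ => le_rfl)).continuous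
      refine ha0.induction_on (p := fun a => qmk ω (dgl ν (X i)) * qmk ω (constSeq a) =
        qmk ω (constSeq a) * qmk ω (dgl ν (X i))) a (isClosed_eq (by fun_prop) (by fun_prop))
        fun k => ?_
      rw [← map_mul, ← map_mul, Vale.Agent.P101.qmk_eq_iff]
      obtain ⟨j1, hj1⟩ := he (some i)
      refine squeeze_zero' (Eventually.of_forall fun n => norm_nonneg _) ?_ hν0
      filter_upwards [hνU (Nat.pair j1 k)] with n hn
      have h2 := hn.1.1.1.2 i (by simpa using hj1)
      rw [← hdia, (Nat.unpair_pair j1 k)] at h2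
      exact h2
    rw [StarSubalgebra.mem_centralizer_iff]
    rintro _ ⟨a, rfl⟩
    exact ⟨(key a).symm.eq, by
      rw [Vale.Agent.P101.star_qmk]
      exact (key (star a)).symm.eq⟩
  refine ⟨fun i => ⟨qmk ω (dgl ν (X i)), hcent i⟩, fun P c hP => ?_, fun i i' g hg => ?_,
    fun i t ht => ?_, fun i c hc τ hτ => ?_⟩
  · have hmem : evalP X P ∈ genAlg S := by
      induction P using FreeAlgebra.induction with
      | grade0 r => rw [AlgHom.commutes]; exact StarSubalgebra.algebraMap_mem _ r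
      | grade1 v =>
        rcases v with i | i <;> simp only [evalP, FreeAlgebra.lift_ι_apply, Sum.elim_inl,
          Sum.elim_inr]
        · exact subset_genAlg _ ⟨i, rfl⟩
        · exact star_mem (subset_genAlg _ ⟨i, rfl⟩)
      | mul a b ha hb => rw [map_mul]; exact mul_mem ha hb
      | add a b ha hb => rw [map_add]; exact add_mem ha hb
    have e1 : qmk ω (dgl ν (evalP X P)) = evalP (fun i => qmk ω (dgl ν (X i))) P :=
      evalP_map X ((qal (ω := ω)).comp (dgl ν)) (fun Z => rfl) P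
    have e2 : ∀ m, qmk ω (row m (evalP X P)) =
        ((evalP (fun i => x i m) P : CentralSeq A ω) : Ultrapower A ω) := fun m => by
      rw [heval, ← qal_apply, show (qal (ω := ω)) (row m (evalP X P)) =
        evalP (fun i => (qal (ω := ω)) (row m (X i))) P from
          evalP_map X ((qal (ω := ω)).comp (row m)) (fun Z => rfl) P]
      simp only [hrow]
    have := hbound _ hmem c (hP.mono fun m hm => by rw [e2]; exact hm)
    rw [e1] at this
    show ‖((evalP _ P : CentralSeq A ω) : Ultrapower A ω)‖ ≤ c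
    rw [heval]
    exact this
  · refine Subtype.ext ?_
    rw [← hα g _ (dgl ν (X i)) (mapSeq (β g) (dgl ν (X i))) rfl fun n => rfl]
    show qmk ω (dgl ν (X i')) = _
    rw [Vale.Agent.P101.qmk_eq_iff]
    obtain ⟨j1, hj1⟩ := he (some i)
    obtain ⟨j2, hj2⟩ := he (some i')
    obtain ⟨j3, hj3⟩ := hg0 g
    refine squeeze_zero' (Eventually.of_forall fun n => norm_nonneg _) ?_ hν0
    filter_upwards [hνU (Nat.pair j1 (Nat.pair j2 j3)), hν.eventually hg] with n hn hm
    have h2 := hn.1.1.2 i i' g (by simpa using hj1) (by simpa using hj2) (by simpa using hj3) hm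
    rw [← hdia, ← hdia] at h2
    exact h2
  · refine Subtype.ext ?_
    rw [← hR t]
    show qmk ω (dgl ν (X i)) = _
    rw [Vale.Agent.P101.qmk_eq_iff]
    refine squeeze_zero' (Eventually.of_forall fun n => norm_nonneg _) ?_ hν0
    filter_upwards [hν.eventually ht] with n hm
    rw [hdia, hm, sub_self, norm_zero]
    positivity
  · obtain ⟨σ, hσ, hτ'⟩ := hτ
    set z : CentralSeq A ω := ⟨qmk ω (dgl ν (X i)), hcent i⟩ with hz
    refine le_of_forall_pos_le_add fun ε hε => ?_
    obtain ⟨cq, hcq1, hcq2⟩ := exists_rat_btwn (show c < c + ε / 2 by linarith)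
    have h1 := hτ' (star z * z) (star (dgl ν (X i)) * dgl ν (X i))
      (by rw [map_mul, ← Vale.Agent.P101.star_qmk]; rfl)
    have h2 : Tendsto (fun n => tn (σ n) (dgl ν (X i) n)) ω (𝓝 (tn τ z)) :=
      (Real.continuous_sqrt.tendsto _).comp ((Complex.continuous_re.tendsto _).comp h1)
    refine le_of_tendsto h2 ?_
    obtain ⟨j, hj⟩ := he (some i)
    filter_upwards [hνU j, hν.eventually hc,
      hν.eventually (eventually_ge_atTop (Encodable.encode cq)),
      hν0.eventually_le_const (show (0 : ℝ) < ε / 2 by positivity)] with n hn hm hq h4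
    have h3 := hn.1.2 i hj cq hq (fun τ' hτ'' => (hm τ' hτ'').trans hcq1.le) (σ n) (hσ n)
    rw [← hdia] at h3
    linarith

end

end Vale.Agent.P095.Lift
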