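import Vale.Agent.P095.Lift.Defs

/-!
# An excised state

In every nonzero separable unital C*-algebra a decreasing sequence of positive norm one elements
excises a state. The state is built directly: given `p` and a self-adjoint `y`, a spectral top
piece `b` of `p (y + K) p` below `p` satisfies `b y b` close to a multiple of `b b` as soon as
`K` is in a range where `‖p (y + K) p‖ - K`, a decreasing function of `K`, has stopped falling.
-/

noncomputable section

open TopologicalSpace Filter Topology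
open scoped ComplexOrder

namespace Vale.Agent.P095.Lift

variable {A : Type*} [CStarAlgebra A] [PartialOrder A] [StarOrderedRing A]

/-- A continuous cut-off from zero at `u` to one at `u + w`. -/
def rampTo (u w t : ℝ) : ℝ := max 0 (min 1 ((t - u) / w))

lemma continuous_rampTo (u w : ℝ) : Continuous (rampTo u w) := by unfold rampTo; fun_prop

lemma rampTo_mem (u w t : ℝ) : 0 ≤ rampTo u w t ∧ rampTo u w t ≤ 1 :=
  ⟨le_max_left _ _, max_le zero_le_one (min_le_left _ _)⟩

lemma rampTo_eq_zero {u w t : ℝ} (hw : 0 < w) (h : t ≤ u) : rampTo u w t = 0 :=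
  max_eq_left ((min_le_right _ _).trans (div_nonpos_of_nonpos_of_nonneg (by linarith) hw.le))

lemma rampTo_eq_one {u w t : ℝ} (hw : 0 < w) (h : u + w ≤ t) : rampTo u w t = 1 := by
  rw [rampTo, min_eq_left ((one_le_div hw).2 (by linarith)), max_eq_right zero_le_one]

lemma norm_le_of_sa_bounds [Nontrivial A] {D : A} (hD : IsSelfAdjoint D) {c : ℝ}
    (h1 : D ≤ algebraMap ℝ A c) (h2 : algebraMap ℝ A (-c) ≤ D) : ‖D‖ ≤ c := by
  have u1 := (le_algebraMap_iff_spectrum_le (ha := hD)).1 h1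
  have u2 := (algebraMap_le_iff_le_spectrum (ha := hD)).1 h2
  rcases CStarAlgebra.norm_or_neg_norm_mem_spectrum (a := D) hD with h | h
  · exact u1 _ h
  · linarith [u2 _ h]

lemma mul_self_le_one {b : A} (hb : 0 ≤ b) (hb1 : b ≤ 1) : b * b ≤ 1 := by
  have h := (CStarAlgebra.norm_le_one_iff_of_nonneg b hb).2 hb1
  refine (CStarAlgebra.norm_le_one_iff_of_nonneg _ ?_).1
    ((norm_mul_le _ _).trans (mul_le_one₀ h (norm_nonneg _) h))
  simpa [hb.isSelfAdjoint.star_eq] using star_mul_self_nonneg b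

lemma norm_one_of_mem_spectrum [Nontrivial A] {b : A} (hb : 0 ≤ b) (hb1 : b ≤ 1)
    (h : (1 : ℝ) ∈ spectrum ℝ b) : ‖b‖ = 1 := by
  refine le_antisymm ((CStarAlgebra.norm_le_one_iff_of_nonneg b hb).2 hb1) ?_
  have := spectrum.norm_le_norm_of_mem h
  simpa using this

lemma exists_small_drop (g : ℕ → ℝ) {M e : ℝ} (he : 0 < e) (hlow : ∀ n, -M ≤ g n) :
    ∃ n, g n - g (n + 1) ≤ e := by
  by_contra h
  push Not at h
  have hdec : ∀ n : ℕ, g n ≤ g 0 - n * e := by
    intro n
    induction n with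
    | zero => simp
    | succ n ih => push_cast; linarith [h n]
  obtain ⟨m, hm⟩ := exists_nat_gt ((g 0 + M) / e)
  rw [div_lt_iff₀ he] at hm
  linarith [hdec m, hlow m]

lemma mul_self_nonneg_sa {b : A} (hb : 0 ≤ b) : 0 ≤ b * b := by
  simpa [hb.isSelfAdjoint.star_eq] using star_mul_self_nonneg b

lemma sandwich_le {b u v : A} (hb : 0 ≤ b) (h : u ≤ v) : b * u * b ≤ b * v * b := by
  simpa [hb.isSelfAdjoint.star_eq] using star_left_conjugate_le_conjugate h b

lemma sandwich_le_norm {b u : A} (hb : 0 ≤ b) (hu : IsSelfAdjoint u) :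
    b * u * b ≤ ‖u‖ • (b * b) := by
  have := sandwich_le hb hu.le_algebraMap_norm_self
  rwa [Algebra.algebraMap_eq_smul_one, mul_smul_comm, smul_mul_assoc, mul_one] at this

lemma mul_self_le_self {p : A} (hp : 0 ≤ p) (hp1 : p ≤ 1) : p * p ≤ p := by
  have e3 : p * p = cfc (fun t : ℝ => t * t) p := by
    rw [cfc_mul (fun t : ℝ => t) (fun t => t) p continuousOn_id continuousOn_id, cfc_id' ℝ p]
  rw [e3]
  conv_rhs => rw [← cfc_id' ℝ p]
  refine cfc_mono (fun t ht => ?_) (by fun_prop) (by fun_prop)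
  have h0 : 0 ≤ t := spectrum_nonneg_of_nonneg hp ht
  have h1 : t ≤ 1 := (le_algebraMap_iff_spectrum_le (ha := hp.isSelfAdjoint)).1
    (by rw [map_one]; exact hp1) t ht
  nlinarith

/-- If `b` nearly lives under `p`, then the part of `b` off `p` is small. -/
lemma norm_off_le {b p : A} (hb : 0 ≤ b) (hb1 : b ≤ 1) (hp : 0 ≤ p) (hp1 : p ≤ 1) {c : ℝ}
    (hc : 0 ≤ c) (hdef : b * b - b * (p * p) * b ≤ c • (b * b)) :
    ‖(1 - p) * b‖ ≤ √c ∧ ‖b * (1 - p)‖ ≤ √c := by
  have hps : star p = p := hp.isSelfAdjoint.star_eq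
  have hbs : star b = b := hb.isSelfAdjoint.star_eq
  have h2 : (1 - p) * (1 - p) ≤ 1 - p * p := by
    rw [← sub_nonneg, show 1 - p * p - (1 - p) * (1 - p) = 2 • (p - p * p) by noncomm_ring]
    exact nsmul_nonneg (sub_nonneg.2 (mul_self_le_self hp hp1)) 2
  have h1 : star ((1 - p) * b) * ((1 - p) * b) ≤ algebraMap ℝ A c := by
    calc star ((1 - p) * b) * ((1 - p) * b) = b * ((1 - p) * (1 - p)) * b := by
          simp only [star_mul, star_sub, star_one, hps, hbs, mul_assoc]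
      _ ≤ b * (1 - p * p) * b := sandwich_le hb h2
      _ = b * b - b * (p * p) * b := by noncomm_ring
      _ ≤ c • (b * b) := hdef
      _ ≤ algebraMap ℝ A c := by
          rw [Algebra.algebraMap_eq_smul_one]
          exact smul_le_smul_of_nonneg_left (mul_self_le_one hb hb1) hc
  have hq : ‖(1 - p) * b‖ ≤ √c := by
    refine Real.le_sqrt_of_sq_le ?_
    rw [sq, ← CStarRing.norm_star_mul_self]
    exact (CStarAlgebra.norm_le_iff_le_algebraMap _ hc (star_mul_self_nonneg _)).2 h1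
  refine ⟨hq, ?_⟩
  have : ‖star ((1 - p) * b)‖ ≤ √c := by rw [norm_star]; exact hq
  simpa [hps, hbs] using this

/-- A piece of the functional calculus at the top of the spectrum. -/
lemma exists_piece [Nontrivial A] {a Z : A} (hZ : 0 ≤ Z) {e : ℝ} (he : 0 < e) (het : e < ‖Z‖)
    (haZ : a * Z = Z) :
    ∃ b p' : A, 0 ≤ b ∧ b ≤ 1 ∧ ‖b‖ = 1 ∧ 0 ≤ p' ∧ ‖p'‖ = 1 ∧ a * b = b ∧ b * p' = p' ∧
      (‖Z‖ - e) • (b * b) ≤ b * Z * b := by
  set top : ℝ := ‖Z‖ with htop
  have hmem : top ∈ spectrum ℝ Z := CStarAlgebra.norm_mem_spectrum_of_nonneg hZ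
  set g₁ : ℝ → ℝ := rampTo (top - e) (e / 2) with hg₁
  set g₂ : ℝ → ℝ := rampTo (top - e / 2) (e / 2) with hg₂
  have he2 : 0 < e / 2 := half_pos he
  have hc1 : Continuous g₁ := continuous_rampTo _ _
  have hc2 : Continuous g₂ := continuous_rampTo _ _
  have hone : ∀ (g : ℝ → ℝ), Continuous g → g top = 1 → (1 : ℝ) ∈ spectrum ℝ (cfc g Z) := by
    intro g hg h1
    rw [cfc_map_spectrum g Z]
    exact ⟨top, hmem, h1⟩
  have hb0 : 0 ≤ cfc g₁ Z := cfc_nonneg fun t _ => (rampTo_mem _ _ t).1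
  have hb1 : cfc g₁ Z ≤ 1 := cfc_le_one _ _ fun t _ => (rampTo_mem _ _ t).2
  refine ⟨cfc g₁ Z, cfc g₂ Z, hb0, hb1, norm_one_of_mem_spectrum hb0 hb1
      (hone g₁ hc1 (rampTo_eq_one he2 (by linarith))),
    cfc_nonneg fun t _ => (rampTo_mem _ _ t).1, norm_one_of_mem_spectrum
      (cfc_nonneg fun t _ => (rampTo_mem _ _ t).1) (cfc_le_one _ _ fun t _ => (rampTo_mem _ _ t).2)
      (hone g₂ hc2 (rampTo_eq_one he2 (by linarith))), ?_, ?_, ?_⟩
  · have hcont : Continuous fun t => g₁ t / max t (top - e) :=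
      hc1.div (by fun_prop) fun t => (lt_of_lt_of_le (sub_pos.2 het) (le_max_right _ _)).ne'
    have e1 : cfc g₁ Z = Z * cfc (fun t => g₁ t / max t (top - e)) Z := by
      conv_rhs => enter [1]; rw [← cfc_id' ℝ Z]
      rw [← cfc_mul (fun t => t) _ Z continuousOn_id hcont.continuousOn]
      refine cfc_congr fun t _ => ?_
      change g₁ t = t * (g₁ t / max t (top - e))
      rcases le_total t (top - e) with h | h
      · simp only [hg₁, rampTo_eq_zero he2 h, zero_div, mul_zero]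
      · have : t ≠ 0 := by linarith [sub_pos.2 het]
        rw [max_eq_left h]
        field_simp
    rw [e1, ← mul_assoc, haZ]
  · rw [← cfc_mul g₁ g₂ Z hc1.continuousOn hc2.continuousOn]
    refine cfc_congr fun t _ => ?_
    change g₁ t * g₂ t = g₂ t
    rcases le_total t (top - e / 2) with h | h
    · simp only [hg₂, rampTo_eq_zero he2 h, mul_zero]
    · simp only [hg₁, rampTo_eq_one he2 (by linarith : top - e + e / 2 ≤ t), one_mul]
  · have h1 : cfc (fun t => (top - e) * (g₁ t * g₁ t)) Z ≤ cfc (fun t => g₁ t * t * g₁ t) Z := by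
      refine cfc_mono (fun t _ => ?_) (by fun_prop) (by fun_prop)
      rcases le_total t (top - e) with h | h
      · simp [hg₁, rampTo_eq_zero he2 h]
      · nlinarith [mul_self_nonneg (g₁ t)]
    rw [cfc_mul (fun t => g₁ t * t) g₁ Z (by fun_prop) hc1.continuousOn,
      cfc_mul g₁ (fun t => t) Z hc1.continuousOn continuousOn_id, cfc_id' ℝ Z,
      cfc_const_mul (top - e) (fun t => g₁ t * g₁ t) Z (by fun_prop),
      cfc_mul g₁ g₁ Z hc1.continuousOn hc1.continuousOn] at h1
    exact h1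

/-- The estimate on a top piece. -/
lemma piece_estimate [Nontrivial A] {b p y : A} (hb : 0 ≤ b) (hb1 : b ≤ 1) (hp : 0 ≤ p)
    (hp1 : p ≤ 1) (hy : IsSelfAdjoint y) {K top s e : ℝ} (hK : 1 ≤ K) (he : 0 ≤ e)
    (hlo : (top - e) • (b * b) ≤ b * (p * y * p + (2 * K) • (p * p)) * b)
    (hup : b * (p * y * p + (2 * K) • (p * p)) * b ≤ top • (b * b))
    (hupK : b * (p * y * p + K • (p * p)) * b ≤ s • (b * b))
    (hdrop : K - 2 * e ≤ top - e - s) :
    ‖b * y * b - (top - 2 * K) • (b * b)‖ ≤ 2 * ‖y‖ * √(2 * e) + 4 * e := by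
  have hbb : 0 ≤ b * b := mul_self_nonneg_sa hb
  have hbb1 : b * b ≤ 1 := mul_self_le_one hb hb1
  have hbs : star b = b := hb.isSelfAdjoint.star_eq
  have hps : star p = p := hp.isSelfAdjoint.star_eq
  set P : A := b * (p * p) * b with hP
  set W : A := b * (p * y * p) * b with hW
  have hsplit : ∀ L : ℝ, b * (p * y * p + L • (p * p)) * b = W + L • P := fun L => by
    simp only [hW, hP, mul_add, add_mul, mul_smul_comm, smul_mul_assoc]
  rw [hsplit] at hlo hup hupK
  have hPle : P ≤ b * b := by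
    simpa [hP] using sandwich_le hb (mul_self_le_one hp hp1)
  have h3 : K • (b * b - P) ≤ (2 * e) • (b * b) := by
    have h1 : (top - e) • (b * b) - s • (b * b) ≤ K • P := by
      refine le_trans (sub_le_sub hlo hupK) (le_of_eq ?_)
      module
    have h2 : (K - 2 * e) • (b * b) ≤ K • P := by
      refine le_trans ?_ h1
      rw [← sub_smul]
      exact smul_le_smul_of_nonneg_right hdrop hbb
    rw [sub_smul, sub_le_iff_le_add] at h2
    rw [smul_sub, sub_le_iff_le_add']
    exact h2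
  have hdef : b * b - P ≤ (2 * e) • (b * b) := by
    refine le_trans ?_ h3
    nth_rewrite 1 [← one_smul ℝ (b * b - P)]
    exact smul_le_smul_of_nonneg_right hK (sub_nonneg.2 hPle)
  have hdefK : (2 * K) • (b * b - P) ≤ (4 * e) • (b * b) := by
    have h4 := smul_le_smul_of_nonneg_left h3 (zero_le_two : (0 : ℝ) ≤ 2)
    rw [smul_smul, smul_smul] at h4
    refine h4.trans (le_of_eq ?_)
    congr 1
    ring
  set D : A := W - (top - 2 * K) • (b * b) with hD
  have hDs : IsSelfAdjoint D := by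
    refine IsSelfAdjoint.sub ?_ ((IsSelfAdjoint.all _).smul hbb.isSelfAdjoint)
    rw [IsSelfAdjoint, hW]
    simp [hbs, hps, hy.star_eq, mul_assoc]
  have eD : D = (W + (2 * K) • P - top • (b * b)) + (2 * K) • (b * b - P) := by
    rw [hD]; module
  have hDup : D ≤ algebraMap ℝ A (4 * e) := by
    rw [eD]
    refine le_trans (add_le_add (sub_nonpos.2 hup) hdefK) ?_
    rw [zero_add, Algebra.algebraMap_eq_smul_one]
    exact smul_le_smul_of_nonneg_left hbb1 (by positivity)
  have hDlo : algebraMap ℝ A (-(4 * e)) ≤ D := by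
    rw [eD]
    refine le_trans ?_ (add_le_add (sub_le_sub_right hlo _)
      (smul_nonneg (by linarith : (0 : ℝ) ≤ 2 * K) (sub_nonneg.2 hPle)))
    rw [add_zero, ← sub_smul, show top - e - top = -e by ring, map_neg, neg_smul, neg_le_neg_iff,
      Algebra.algebraMap_eq_smul_one]
    refine le_trans (smul_le_smul_of_nonneg_left hbb1 he) ?_
    exact smul_le_smul_of_nonneg_right (by linarith) zero_le_one
  have hDn : ‖D‖ ≤ 4 * e := norm_le_of_sa_bounds hDs hDup hDlo
  obtain ⟨hq, hq'⟩ := norm_off_le hb hb1 hp hp1 (by linarith) hdef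
  have hbn : ‖b‖ ≤ 1 := (CStarAlgebra.norm_le_one_iff_of_nonneg b hb).2 hb1
  have hpb : ‖p * b‖ ≤ 1 := (norm_mul_le _ _).trans
    (mul_le_one₀ ((CStarAlgebra.norm_le_one_iff_of_nonneg p hp).2 hp1) (norm_nonneg _) hbn)
  have eall : b * y * b - (top - 2 * K) • (b * b) =
      (b * y * ((1 - p) * b) + b * (1 - p) * y * (p * b)) + D := by
    rw [hD, hW]; noncomm_ring
  rw [eall]
  refine (norm_add_le _ _).trans (add_le_add ((norm_add_le _ _).trans ?_) hDn)
  have a1 : ‖b * y * ((1 - p) * b)‖ ≤ 1 * ‖y‖ * √(2 * e) := (norm_mul₃_le ..).trans (by gcongr)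
  have a2 : ‖b * (1 - p) * y * (p * b)‖ ≤ √(2 * e) * ‖y‖ * 1 :=
    (norm_mul₃_le ..).trans (by gcongr)
  linarith

lemma small_choice {ε r : ℝ} (hε : 0 < ε) (hr : 0 ≤ r) :
    ∃ e : ℝ, 0 < e ∧ e ≤ 1 ∧ 2 * r * √(2 * e) + 4 * e ≤ ε := by
  refine ⟨min 1 ((ε / (4 + 4 * r)) ^ 2), by positivity, min_le_left _ _, ?_⟩
  set e : ℝ := min 1 ((ε / (4 + 4 * r)) ^ 2)
  have he0 : 0 < e := by positivity
  have hs : √e ≤ ε / (4 + 4 * r) :=
    (Real.sqrt_le_sqrt (min_le_right _ _)).trans (Real.sqrt_sq (by positivity)).le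
  have h2 : √(2 * e) ≤ 2 * √e := by
    rw [Real.sqrt_mul zero_le_two]
    exact mul_le_mul_of_nonneg_right (Real.sqrt_le_iff.2 ⟨by norm_num, by norm_num⟩)
      (Real.sqrt_nonneg _)
  have h3 : e ≤ √e := by
    nth_rewrite 1 [← Real.mul_self_sqrt he0.le]
    exact mul_le_of_le_one_left (Real.sqrt_nonneg _) (Real.sqrt_le_one.2 (min_le_left _ _))
  rw [le_div_iff₀ (by positivity)] at hs
  nlinarith [mul_le_mul_of_nonneg_left h2 hr]

lemma shifted_nonneg {p y : A} (hp : 0 ≤ p) (hy : IsSelfAdjoint y) {L : ℝ} (hL : ‖y‖ ≤ L) :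
    0 ≤ p * y * p + L • (p * p) := by
  have hle : -algebraMap ℝ A L ≤ y :=
    (neg_le_neg (algebraMap_mono A hL)).trans hy.neg_algebraMap_norm_le_self
  have h1 : 0 ≤ y + algebraMap ℝ A L := neg_le_iff_add_nonneg.1 hle
  have e1 : p * y * p + L • (p * p) = star p * (y + algebraMap ℝ A L) * p := by
    simp only [hp.isSelfAdjoint.star_eq, Algebra.algebraMap_eq_smul_one, mul_add, add_mul,
      mul_smul_comm, smul_mul_assoc, mul_one]
  rw [e1]
  exact star_left_conjugate_nonneg h1 p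

lemma le_norm_shifted {p y : A} (hp : 0 ≤ p) (hp1 : ‖p‖ = 1) {L : ℝ} (hL : 0 ≤ L) :
    L - ‖y‖ ≤ ‖p * y * p + L • (p * p)‖ := by
  have hppn : ‖p * p‖ = 1 := by
    have h := CStarRing.norm_star_mul_self (x := p)
    rw [hp.isSelfAdjoint.star_eq, hp1, one_mul] at h
    exact h
  have hwn : ‖p * y * p‖ ≤ ‖y‖ := (norm_mul₃_le ..).trans (by rw [hp1, one_mul, mul_one])
  have h := norm_sub_le (p * y * p + L • (p * p)) (p * y * p)
  rw [add_sub_cancel_left, norm_smul, hppn, Real.norm_of_nonneg hL, mul_one] at h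
  linarith

/-- The spectral top piece. -/
lemma exists_top [Nontrivial A] {a p y : A} (hp : 0 ≤ p) (hp1 : ‖p‖ = 1)
    (hy : IsSelfAdjoint y) (hap : a * p = p) {ε : ℝ} (hε : 0 < ε) :
    ∃ b p' : A, 0 ≤ b ∧ ‖b‖ = 1 ∧ 0 ≤ p' ∧ ‖p'‖ = 1 ∧ a * b = b ∧ b * p' = p' ∧
      ∃ c : ℝ, ‖b * y * b - c • (b * b)‖ ≤ ε := by
  have hp1' : p ≤ 1 := (CStarAlgebra.norm_le_one_iff_of_nonneg p hp).1 hp1.le
  obtain ⟨e, he0, he1, hesmall⟩ := small_choice hε (norm_nonneg y)
  have hy0 := norm_nonneg y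
  have hpos : ∀ n : ℕ, 0 ≤ (‖y‖ + 1) * 2 ^ n := fun n => by positivity
  obtain ⟨n, hn⟩ := exists_small_drop
    (fun n => ‖p * y * p + ((‖y‖ + 1) * 2 ^ n) • (p * p)‖ - (‖y‖ + 1) * 2 ^ n) (M := ‖y‖) he0
    fun n => by linarith [le_norm_shifted (y := y) hp hp1 (hpos n)]
  have hK' : (‖y‖ + 1) * (2 : ℝ) ^ (n + 1) = 2 * ((‖y‖ + 1) * 2 ^ n) := by rw [pow_succ]; ring
  rw [hK'] at hn
  have hKy : ‖y‖ + 1 ≤ (‖y‖ + 1) * 2 ^ n :=
    le_mul_of_one_le_right (by positivity) (one_le_pow₀ (by norm_num))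
  generalize (‖y‖ + 1) * 2 ^ n = K at hn hKy
  have haZ : a * (p * y * p + (2 * K) • (p * p)) = p * y * p + (2 * K) • (p * p) := by
    simp only [mul_add, mul_smul_comm, ← mul_assoc, hap]
  have het : e < ‖p * y * p + (2 * K) • (p * p)‖ := by
    linarith [le_norm_shifted (y := y) hp hp1 (by linarith : 0 ≤ 2 * K)]
  obtain ⟨b, p', hb0, hb1, hbn, hp'0, hp'n, hab, hbp', hlo⟩ :=
    exists_piece (shifted_nonneg hp hy (by linarith : ‖y‖ ≤ 2 * K)) he0 het haZ
  refine ⟨b, p', hb0, hbn, hp'0, hp'n, hab, hbp', _, (piece_estimate hb0 hb1 hp hp1' hy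
    (by linarith : 1 ≤ K) he0.le hlo ?_ (sandwich_le_norm hb0 ?_) (by linarith)).trans hesmall⟩
  · exact sandwich_le_norm hb0 (shifted_nonneg hp hy (by linarith)).isSelfAdjoint
  · exact (shifted_nonneg hp hy (by linarith)).isSelfAdjoint

/-- A pair `(a, p)` of positive norm one elements with `a * p = p`. -/
def NestPair (A : Type*) [CStarAlgebra A] [PartialOrder A] : Type _ :=
  { q : A × A // 0 ≤ q.1 ∧ ‖q.1‖ = 1 ∧ 0 ≤ q.2 ∧ ‖q.2‖ = 1 ∧ q.1 * q.2 = q.2 }

omit [PartialOrder A] [StarOrderedRing A] in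
lemma norm_compress {a c y : A} (l : ℂ) (hac : a * c = c) (hca : c * a = c) (hc : ‖c‖ ≤ 1) :
    ‖c * y * c - l • (c * c)‖ ≤ ‖a * y * a - l • (a * a)‖ := by
  have e : c * y * c - l • (c * c) = c * (a * y * a - l • (a * a)) * c := by
    rw [mul_sub, sub_mul, mul_smul_comm, smul_mul_assoc]
    congr 1
    · calc c * y * c = (c * a) * y * (a * c) := by rw [hac, hca]
        _ = c * (a * y * a) * c := by noncomm_ring
    · congr 1
      calc c * c = (c * a) * (a * c) := by rw [hac, hca]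
        _ = c * (a * a) * c := by noncomm_ring
  rw [e]
  refine (norm_mul₃_le ..).trans ?_
  refine (mul_le_of_le_one_right (by positivity) hc).trans ?_
  exact mul_le_of_le_one_left (norm_nonneg _) hc

lemma nest_mul_comm {a c : A} (ha : 0 ≤ a) (hc : 0 ≤ c) (h : a * c = c) : c * a = c := by
  have := congrArg star h
  simpa [ha.isSelfAdjoint.star_eq, hc.isSelfAdjoint.star_eq] using this

/-- A pair below a given one which nearly excises a finite list of elements. -/
lemma exists_step [Nontrivial A] (q : NestPair A) (l : List A) {ε : ℝ} (hε : 0 < ε) :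
    ∃ q' : NestPair A, q.1.1 * q'.1.1 = q'.1.1 ∧
      ∀ y ∈ l, ∃ c : ℂ, ‖q'.1.1 * y * q'.1.1 - c • (q'.1.1 * q'.1.1)‖ ≤ ε := by
  induction l with
  | nil =>
    obtain ⟨b, p', hb, hbn, hp', hp'n, hab, hbp, -⟩ :=
      exists_top q.2.2.2.1 q.2.2.2.2.1 (IsSelfAdjoint.zero A) q.2.2.2.2.2 hε
    exact ⟨⟨(b, p'), hb, hbn, hp', hp'n, hbp⟩, hab, by simp⟩
  | cons x t ih =>
    obtain ⟨⟨⟨a, p⟩, ha, han, hp, hpn, hap⟩, hqa, ht⟩ := ih
    dsimp only at ha han hp hpn hap hqa ht
    obtain ⟨b₁, p₁, hb₁, hb₁n, hp₁, hp₁n, hab₁, hbp₁, c₁, hc₁⟩ :=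
      exists_top (y := (realPart x : A)) hp hpn (realPart x).2 hap (half_pos hε)
    obtain ⟨b₂, p₂, hb₂, hb₂n, hp₂, hp₂n, hab₂, hbp₂, c₂, hc₂⟩ :=
      exists_top (y := (imaginaryPart x : A)) hp₁ hp₁n (imaginaryPart x).2 hbp₁ (half_pos hε)
    have hab : a * b₂ = b₂ := by rw [← hab₂, ← mul_assoc, hab₁]
    have hba : b₂ * a = b₂ := nest_mul_comm ha hb₂ hab
    refine ⟨⟨(b₂, p₂), hb₂, hb₂n, hp₂, hp₂n, hbp₂⟩, ?_, fun y hy => ?_⟩
    · change q.1.1 * b₂ = b₂
      rw [← hab, ← mul_assoc, hqa]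
    · dsimp only
      rcases List.mem_cons.1 hy with rfl | hy
      · refine ⟨(c₁ : ℂ) + Complex.I * (c₂ : ℂ), ?_⟩
        have h1 := (norm_compress (y := (realPart y : A)) (c₁ : ℂ) hab₂
          (nest_mul_comm hb₁ hb₂ hab₂) hb₂n.le).trans (le_of_eq_of_le (by rw [Complex.coe_smul]) hc₁)
        rw [← Complex.coe_smul] at hc₂
        have e : b₂ * y * b₂ - ((c₁ : ℂ) + Complex.I * (c₂ : ℂ)) • (b₂ * b₂) =
            (b₂ * (realPart y : A) * b₂ - (c₁ : ℂ) • (b₂ * b₂)) +
              Complex.I • (b₂ * (imaginaryPart y : A) * b₂ - (c₂ : ℂ) • (b₂ * b₂)) := by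
          conv_lhs => rw [← realPart_add_I_smul_imaginaryPart y]
          simp only [mul_add, add_mul, mul_smul_comm, smul_mul_assoc, smul_sub, add_smul, smul_smul]
          abel
        rw [e]
        refine (norm_add_le _ _).trans ?_
        rw [norm_smul, Complex.norm_I, one_mul]
        linarith
      · obtain ⟨c, hc⟩ := ht y hy
        exact ⟨c, (norm_compress c hab hba hb₂n.le).trans hc⟩

/-- An excised state in a separable algebra. -/
theorem exists_excised_state [Nontrivial A] [SeparableSpace A] :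
    ∃ (a : ℕ → A) (lam : A →ₗ[ℂ] ℂ), (∀ i, 0 ≤ a i ∧ ‖a i‖ = 1) ∧
      (∀ i, a i * a (i + 1) = a (i + 1)) ∧ lam 1 = 1 ∧ (∀ y, 0 ≤ lam (star y * y)) ∧
      ∀ y, Tendsto (fun i => ‖a i * y * a i - lam y • (a i * a i)‖) atTop (𝓝 0) := by
  obtain ⟨u, hu⟩ := TopologicalSpace.exists_dense_seq A
  have q₀ : NestPair A := ⟨(1, 1), zero_le_one, norm_one, zero_le_one, norm_one, one_mul 1⟩
  choose nx hnx1 hnx2 using fun (q : NestPair A) (i : ℕ) =>
    exists_step q ((List.range (i + 1)).map u) (Nat.one_div_pos_of_nat (α := ℝ) (n := i))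
  let Q : ℕ → NestPair A := fun i => Nat.rec q₀ (fun i q => nx q i) i
  set a : ℕ → A := fun i => (Q i).1.1 with ha_def
  have ha : ∀ i, 0 ≤ a i ∧ ‖a i‖ = 1 := fun i => ⟨(Q i).2.1, (Q i).2.2.1⟩
  have hsucc : ∀ i, a i * a (i + 1) = a (i + 1) := fun i => hnx1 (Q i) i
  have hnest : ∀ i k, a i * a (i + k + 1) = a (i + k + 1) := by
    intro i k
    induction k with
    | zero => exact hsucc i
    | succ k ih => rw [← add_assoc, ← hsucc (i + k + 1), ← mul_assoc, ih]
  have hdec : ∀ {i j : ℕ}, i ≤ j → ∀ (y : A) (l : ℂ),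
      ‖a j * y * a j - l • (a j * a j)‖ ≤ ‖a i * y * a i - l • (a i * a i)‖ := by
    intro i j hij y l
    rcases eq_or_lt_of_le hij with rfl | hlt
    · exact le_rfl
    · obtain ⟨k, rfl⟩ := Nat.exists_eq_add_of_lt hlt
      exact norm_compress l (hnest i k) (nest_mul_comm (ha i).1 (ha (i + k + 1)).1 (hnest i k)) (ha (i + k + 1)).2.le
  have happrox : ∀ (y : A) (η : ℝ), 0 < η → ∃ (c : ℂ) (i₀ : ℕ), ∀ i, i₀ ≤ i →
      ‖a i * y * a i - c • (a i * a i)‖ ≤ η := by
    intro y η hη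
    obtain ⟨j, hj⟩ := hu.exists_dist_lt y (half_pos hη)
    obtain ⟨k, hk⟩ := exists_nat_one_div_lt (half_pos hη)
    set i₁ := max j k
    obtain ⟨c, hc⟩ := hnx2 (Q i₁) i₁ (u j)
      (List.mem_map.2 ⟨j, List.mem_range.2 (Nat.lt_succ_of_le (le_max_left _ _)), rfl⟩)
    refine ⟨c, i₁ + 1, fun i hi => ?_⟩
    have h1 : ‖a i * u j * a i - c • (a i * a i)‖ ≤ η / 2 := by
      refine ((hdec hi _ c).trans hc).trans (le_trans ?_ hk.le)
      exact Nat.one_div_le_one_div (le_max_right _ _)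
    have h2 : ‖a i * (y - u j) * a i‖ ≤ η / 2 := by
      refine (norm_mul₃_le ..).trans ?_
      rw [(ha i).2, one_mul, mul_one, ← dist_eq_norm]
      exact hj.le
    have e : a i * y * a i - c • (a i * a i) =
        a i * (y - u j) * a i + (a i * u j * a i - c • (a i * a i)) := by noncomm_ring
    rw [e]
    linarith [norm_add_le (a i * (y - u j) * a i) (a i * u j * a i - c • (a i * a i))]
  have haa : ∀ i, ‖a i * a i‖ = 1 := fun i => by
    have h := CStarRing.norm_star_mul_self (x := a i)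
    rw [(ha i).1.isSelfAdjoint.star_eq, (ha i).2, one_mul] at h
    exact h
  have hdiff : ∀ (y : A) (i : ℕ) (c c' : ℂ), ‖c - c'‖ ≤
      ‖a i * y * a i - c • (a i * a i)‖ + ‖a i * y * a i - c' • (a i * a i)‖ := by
    intro y i c c'
    have e : (c' - c) • (a i * a i) =
        (a i * y * a i - c • (a i * a i)) - (a i * y * a i - c' • (a i * a i)) := by
      rw [sub_smul]; abel
    have := congrArg norm e
    rw [norm_smul, haa, mul_one, norm_sub_rev] at this
    rw [this]
    exact norm_sub_le _ _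
  have hlim : ∀ y : A, ∃ l : ℂ,
      Tendsto (fun i => ‖a i * y * a i - l • (a i * a i)‖) atTop (𝓝 0) := by
    intro y
    choose c i₀ hc using fun m : ℕ => happrox y (1 / ((m : ℝ) + 1)) Nat.one_div_pos_of_nat
    have hcau : CauchySeq c := by
      refine Metric.cauchySeq_iff.2 fun η hη => ?_
      obtain ⟨m₀, hm₀⟩ := exists_nat_one_div_lt (half_pos hη)
      refine ⟨m₀, fun m hm m' hm' => ?_⟩
      rw [dist_eq_norm]
      refine (hdiff y (max (i₀ m) (i₀ m')) (c m) (c m')).trans_lt ?_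
      have := hc m _ (le_max_left (i₀ m) (i₀ m'))
      have := hc m' _ (le_max_right (i₀ m) (i₀ m'))
      have := Nat.one_div_le_one_div (α := ℝ) hm
      have := Nat.one_div_le_one_div (α := ℝ) hm'
      linarith
    obtain ⟨l, hl⟩ := cauchySeq_tendsto_of_complete hcau
    refine ⟨l, Metric.tendsto_atTop.2 fun η hη => ?_⟩
    obtain ⟨m₁, hm₁⟩ := exists_nat_one_div_lt (half_pos hη)
    obtain ⟨m₂, hm₂⟩ := Metric.tendsto_atTop.1 hl (η / 2) (half_pos hη)
    set m := max m₁ m₂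
    refine ⟨i₀ m, fun i hi => ?_⟩
    rw [dist_zero_right, norm_norm]
    have e : a i * y * a i - l • (a i * a i) =
        (a i * y * a i - c m • (a i * a i)) + (c m - l) • (a i * a i) := by rw [sub_smul]; abel
    rw [e]
    refine (norm_add_le _ _).trans_lt ?_
    rw [norm_smul, haa, mul_one, ← dist_eq_norm (c m) l]
    have := hc m i hi
    have := Nat.one_div_le_one_div (α := ℝ) (le_max_left m₁ m₂)
    have := hm₂ m (le_max_right m₁ m₂)
    linarith
  choose L hL using hlim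
  have huniq : ∀ y l, Tendsto (fun i => ‖a i * y * a i - l • (a i * a i)‖) atTop (𝓝 0) → L y = l := by
    intro y l hl
    refine sub_eq_zero.1 (norm_le_zero_iff.1 ?_)
    refine ge_of_tendsto (by simpa using (hL y).add hl) (Eventually.of_forall fun i => ?_)
    exact hdiff y i _ _
  let lam : A →ₗ[ℂ] ℂ :=
    { toFun := L
      map_add' := fun x y => huniq _ _ (squeeze_zero (fun i => norm_nonneg _) (fun i => by
          refine le_trans (le_of_eq ?_) (norm_add_le (a i * x * a i - L x • (a i * a i))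
            (a i * y * a i - L y • (a i * a i)))
          congr 1
          simp only [mul_add, add_mul, add_smul]
          abel) (by simpa using (hL x).add (hL y)))
      map_smul' := fun t y => huniq _ _ (squeeze_zero (fun i => norm_nonneg _) (fun i => by
          refine le_of_eq (b := ‖t‖ * ‖a i * y * a i - L y • (a i * a i)‖) ?_
          rw [← norm_smul]
          congr 1
          simp only [RingHom.id_apply, smul_eq_mul, mul_smul_comm, smul_mul_assoc, smul_sub,
            smul_smul]) (by simpa using (hL y).const_mul ‖t‖)) }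
  refine ⟨a, lam, ha, hsucc, huniq 1 1 ?_, fun y => ?_, hL⟩
  · simp
  · have hy : 0 ≤ star y * y := star_mul_self_nonneg y
    set x := star y * y with hx
    have hreal : (starRingEnd ℂ) (L x) = L x := by
      refine (huniq x _ ((hL x).congr fun i => ?_)).symm
      rw [← norm_star]
      simp [star_smul, (ha i).1.isSelfAdjoint.star_eq, hy.isSelfAdjoint.star_eq, mul_assoc]
    have hre : ((L x).re : ℂ) = L x := Complex.conj_eq_iff_re.1 hreal
    change 0 ≤ L x
    rw [← hre, Complex.zero_le_real]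
    by_contra hneg
    push Not at hneg
    have hge : ∀ i, -(L x).re ≤ ‖a i * x * a i - L x • (a i * a i)‖ := fun i => by
      have hsa := (ha i).1.isSelfAdjoint.star_eq
      have h1 : 0 ≤ a i * a i := by simpa [hsa] using star_mul_self_nonneg (a i)
      have h2 : 0 ≤ a i * x * a i := by simpa [hsa] using star_left_conjugate_nonneg hy (a i)
      have h3 : 0 ≤ (-(L x).re) • (a i * a i) := smul_nonneg (by linarith) h1
      have h4 := CStarAlgebra.norm_le_norm_of_nonneg_of_le h3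
        (b := a i * x * a i + (-(L x).re) • (a i * a i)) (le_add_of_nonneg_left h2)
      rw [norm_smul, haa, mul_one, Real.norm_of_nonneg (by linarith)] at h4
      refine h4.trans (le_of_eq ?_)
      rw [← hre, Complex.coe_smul, Complex.ofReal_re, neg_smul, ← sub_eq_add_neg]
    linarith [ge_of_tendsto (hL x) (Eventually.of_forall hge)]

/-- The interface form. -/
theorem exists_excision {A : Type} [CStarAlgebra A] [PartialOrder A] [StarOrderedRing A]
    [SeparableSpace A] [IsSimpleRing A] (_hA : ¬ FiniteDimensional ℂ A) :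
    ∃ (a : ℕ → A) (lam : A →ₗ[ℂ] ℂ), (∀ i, 0 ≤ a i ∧ ‖a i‖ = 1) ∧
      (∀ i, a i * a (i + 1) = a (i + 1)) ∧ lam 1 = 1 ∧ (∀ y, 0 ≤ lam (star y * y)) ∧
      ∀ y, Tendsto (fun i => ‖a i * y * a i - lam y • (a i * a i)‖) atTop (𝓝 0) :=
  exists_excised_state

end Vale.Agent.P095.Lift
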