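import Vale.Agent.P095.Lift.FreeWords

/-!
# P095 Lift C2: the bilinear form of the free packing operator on interior vectors

With `X_l f w = ∑ j, T (l,j) (f (u_(l,j) w))` split into `A_l` (the word starts with the letter) and
`B_l` (it does not), `⟪A' , M A⟫ = ⟪A', A⟫` exactly and `B` is small.
-/

open scoped InnerProductSpace BigOperators

namespace Vale.Agent.P095.Lift.FreeWords

variable {L N q R : ℕ} [NeZero q] {E : Type*} [NormedAddCommGroup E] [InnerProductSpace ℂ E]

/-- the words used by the packing -/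
abbrev W (L N q R : ℕ) : Type := Wd (Fin L × Fin N) q R

/-- the vectors -/
abbrev Vec (L N q R : ℕ) [NeZero q] (E : Type*) [NormedAddCommGroup E] : Type _ :=
  PiLp 2 fun _ : W L N q R => E

/-- supported on words of length at most `t` -/
def Supp (t : ℕ) (v : Vec L N q R E) : Prop := ∀ w, t < w.1.length → v w = 0

variable (T : Fin L × Fin N → E →L[ℂ] E)

/-- the range part -/
noncomputable def partA (l : Fin L) (v : Vec L N q R E) : Vec L N q R E :=
  WithLp.toLp 2 fun w => ∑ j, if HeadIs (l, j) w then T (l, j) (v (uPerm (l, j) w)) else 0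

/-- the domain part -/
noncomputable def partB (l : Fin L) (v : Vec L N q R E) : Vec L N q R E :=
  WithLp.toLp 2 fun w => ∑ j, if HeadIs (l, j) w then 0 else T (l, j) (v (uPerm (l, j) w))

/-- the cyclic sum -/
noncomputable def cyc (d : ℕ) (e : ZMod q) (v : Vec L N q R E) : Vec L N q R E :=
  WithLp.toLp 2 fun w => ∑ t ∈ Finset.range d, v (aPerm (-((t : ZMod q) * e)) w)

omit [InnerProductSpace ℂ E] in
theorem norm_cyc_le (d : ℕ) (e : ZMod q) (v : Vec L N q R E) : ‖cyc d e v‖ ≤ d * ‖v‖ := by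
  have h : cyc d e v = ∑ t ∈ Finset.range d,
      (WithLp.toLp 2 fun w => v (aPerm (-((t : ZMod q) * e)) w) : Vec L N q R E) := by
    apply PiLp.ext
    intro w
    simp [cyc]
  rw [h]
  refine (norm_sum_le _ _).trans (le_of_eq ?_)
  rw [Finset.sum_congr rfl (fun t _ => ?_), Finset.sum_const, Finset.card_range, nsmul_eq_mul]
  rw [PiLp.norm_eq_of_L2, PiLp.norm_eq_of_L2]
  congr 1
  exact Equiv.sum_comp (aPerm (-((t : ZMod q) * e))) fun w => ‖v w‖ ^ 2

omit [InnerProductSpace ℂ E] in
theorem sum_head_le (v : Vec L N q R E) :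
    ∑ x : Fin L × Fin N, ∑ w, (if HeadIs x w then ‖v w‖ ^ 2 else 0) ≤ ‖v‖ ^ 2 := by
  classical
  rw [Finset.sum_comm, PiLp.norm_sq_eq_of_L2]
  refine Finset.sum_le_sum fun w _ => ?_
  by_cases h : ∃ x, HeadIs x w
  · obtain ⟨x, hx⟩ := h
    rw [Finset.sum_eq_single x]
    · simp [hx]
    · intro y _ hy
      rw [if_neg]
      intro hy'
      exact hy (by
        have := (hy' : w.1.head? = _).symm.trans (hx : w.1.head? = _)
        simpa using this)
    · simp
  · push Not at h
    simp [h]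

/-- reindexing by one of the involutions -/
theorem sum_head_comp {M : Type*} [AddCommMonoid M] (x : Fin L × Fin N) (F : W L N q R → M)
    (hF : ∀ w, R ≤ w.1.length → F w = 0) :
    ∑ w, (if HeadIs x w then F (uPerm x w) else 0)
      = ∑ w, (if HeadIs x w then 0 else F w) ∧
    ∑ w, (if HeadIs x w then 0 else F (uPerm x w))
      = ∑ w, (if HeadIs x w then F w else 0) := by
  constructor
  · rw [← Equiv.sum_comp (uPerm x)]
    refine Finset.sum_congr rfl fun w _ => ?_
    change (if HeadIs x (uAct x w) then F (uAct x (uAct x w)) else 0) = _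
    rw [uAct_uAct]
    simp only [head_uAct_iff]
    by_cases h : HeadIs x w
    · simp [h]
    · by_cases h' : w.1.length < R
      · simp [h, h']
      · simp [h, h', hF w (by omega)]
  · rw [← Equiv.sum_comp (uPerm x)]
    refine Finset.sum_congr rfl fun w _ => ?_
    change (if HeadIs x (uAct x w) then 0 else F (uAct x (uAct x w))) = _
    rw [uAct_uAct]
    simp only [head_uAct_iff]
    by_cases h : HeadIs x w
    · simp [h]
    · by_cases h' : w.1.length < R
      · simp [h, h']
      · simp [h, h', hF w (by omega)]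

variable {T}

theorem inner_partA (l : Fin L) {v v' : Vec L N q R E} (hv : Supp (R - 1) v) (hR : 0 < R) :
    ⟪partA T l v', partA T l v⟫_ℂ = ∑ j, ∑ w, (if HeadIs (l, j) w then 0
      else ⟪T (l, j) (v' w), T (l, j) (v w)⟫_ℂ) := by
  classical
  have h1 : ∀ w, ⟪partA T l v' w, partA T l v w⟫_ℂ = ∑ j, if HeadIs (l, j) w then
      ⟪T (l, j) (v' (uPerm (l, j) w)), T (l, j) (v (uPerm (l, j) w))⟫_ℂ else 0 := by
    intro w
    simp only [partA]
    by_cases h : ∃ j, HeadIs (l, j) w
    · obtain ⟨j, hj⟩ := h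
      have hne : ∀ i, i ≠ j → ¬HeadIs (l, i) w := fun i hi hi' => hi (by
        have := (hi' : w.1.head? = _).symm.trans (hj : w.1.head? = _)
        simpa using this)
      rw [Finset.sum_eq_single j, Finset.sum_eq_single j, Finset.sum_eq_single j]
      · simp [hj]
      all_goals first
        | (intro i _ hi; simp [hne i hi])
        | simp
    · push Not at h
      simp [h]
  rw [PiLp.inner_apply, Finset.sum_congr rfl (fun w _ => h1 w), Finset.sum_comm]
  refine Finset.sum_congr rfl fun j _ => ?_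
  exact (sum_head_comp (l, j) (fun w => ⟪T (l, j) (v' w), T (l, j) (v w)⟫_ℂ)
    fun w hw => by simp [hv w (by omega)]).1

theorem inner_partA_cyc (l : Fin L) {v v' : Vec L N q R E} (hv : Supp (R - 2) v)
    (hR : 2 ≤ R) {d : ℕ} {e : ZMod q} (hd : 0 < d) (he : ∀ t, 0 < t → t < d → (t : ZMod q) * e ≠ 0) :
    ⟪partA T l v', cyc d e (partA T l v)⟫_ℂ = ⟪partA T l v', partA T l v⟫_ℂ := by
  classical
  rw [PiLp.inner_apply, PiLp.inner_apply]
  refine Finset.sum_congr rfl fun w _ => ?_
  by_cases hh : ∃ j, HeadIs (l, j) w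
  · obtain ⟨j, hj⟩ := hh
    congr 1
    simp only [cyc]
    rw [Finset.sum_eq_single 0]
    · simp [aPerm_zero]
    · intro t ht ht0
      rw [Finset.mem_range] at ht
      set s := -((t : ZMod q) * e) with hs
      have hs0 : s ≠ 0 := neg_ne_zero.2 (he t (by omega) ht)
      obtain ⟨r, hr⟩ : ∃ r, w.1 = Sum.inl (l, j) :: r := List.head?_eq_some_iff.1 hj
      simp only [partA]
      by_cases hlen : w.1.length < R
      · have e1 : (aPerm s w).1 = Sum.inr s :: w.1 := by
          show (aAct s w).1 = _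
          have hsp : asplit w.1 = (0, w.1) := by rw [hr]; rfl
          rw [aAct_val s w (by rw [hsp]; exact hlen), hsp, zero_add, acons, if_neg hs0]
        refine Finset.sum_eq_zero fun i _ => ?_
        rw [if_neg]
        intro hi
        rw [HeadIs, e1] at hi
        simp at hi
      · have e1 : aPerm s w = w := by
          show aAct s w = w
          have hsp : asplit w.1 = (0, w.1) := by rw [hr]; rfl
          rw [aAct, dif_neg (by rw [hsp]; exact hlen)]
        refine Finset.sum_eq_zero fun i _ => ?_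
        rw [e1]
        split
        · rename_i hi
          obtain ⟨-, -, -, h4⟩ := uAct_of_head hi
          have hl := congrArg List.length h4
          simp at hl
          have : R - 2 < (uPerm (l, i) w).1.length := by
            show R - 2 < (uAct (l, i) w).1.length
            have := w.2.2
            omega
          simp [hv _ this]
        · rfl
    · intro h
      simp at h
      omega
  · push Not at hh
    have : partA T l v' w = 0 := by simp [partA, hh]
    simp [this]

theorem norm_partB_sq (l : Fin L) {v : Vec L N q R E} (hv : Supp (R - 1) v) (hR : 0 < R) {r : ℝ}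
    (hcol : ∀ x : Fin N → E, ‖∑ j, T (l, j) (x j)‖ ^ 2 ≤ r * ∑ j, ‖x j‖ ^ 2) :
    ‖partB T l v‖ ^ 2 ≤ r * ∑ j, ∑ w, (if HeadIs (l, j) w then ‖v w‖ ^ 2 else 0) := by
  classical
  rw [PiLp.norm_sq_eq_of_L2]
  have h1 : ∀ w, ‖partB T l v w‖ ^ 2
      ≤ r * ∑ j, (if HeadIs (l, j) w then 0 else ‖v (uPerm (l, j) w)‖ ^ 2) := by
    intro w
    have h := hcol fun j => if HeadIs (l, j) w then 0 else v (uPerm (l, j) w)
    refine le_trans (le_of_eq ?_) (h.trans (le_of_eq ?_))
    · simp only [partB]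
      congr 2
      exact Finset.sum_congr rfl fun j _ => by split <;> simp
    · congr 1
      refine Finset.sum_congr rfl fun j _ => ?_
      split <;> simp
  refine (Finset.sum_le_sum fun w _ => h1 w).trans (le_of_eq ?_)
  rw [← Finset.mul_sum, Finset.sum_comm]
  congr 1
  refine Finset.sum_congr rfl fun j _ => ?_
  exact (sum_head_comp (l, j) (fun w => ‖v w‖ ^ 2) fun w hw => by simp [hv w (by omega)]).2

/-- the column of the range parts -/
theorem sum_partA_sq {v : Vec L N q R E} (hv : Supp (R - 1) v) (hR : 0 < R)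
    (hs : ∀ e : E, ∑ x : Fin L × Fin N, ‖T x e‖ ^ 2 ≤ 2 * ‖e‖ ^ 2) :
    ∑ l, ‖partA T l v‖ ^ 2 ≤ 2 * ‖v‖ ^ 2 := by
  classical
  have h1 : ∀ l, ‖partA T l v‖ ^ 2 ≤ ∑ j, ∑ w, ‖T (l, j) (v w)‖ ^ 2 := by
    intro l
    rw [← inner_self_eq_norm_sq (𝕜 := ℂ), inner_partA l hv hR]
    simp only [map_sum]
    refine Finset.sum_le_sum fun j _ => Finset.sum_le_sum fun w _ => ?_
    split
    · simp
    · rw [inner_self_eq_norm_sq]
  refine (Finset.sum_le_sum fun l _ => h1 l).trans ?_
  rw [← Fintype.sum_prod_type', Finset.sum_comm, PiLp.norm_sq_eq_of_L2, Finset.mul_sum]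
  exact Finset.sum_le_sum fun w _ => hs _

/-- the form bound -/
theorem form_le {v v' : Vec L N q R E} (hv : Supp (R - 2) v) (hv' : Supp (R - 2) v') (hR : 2 ≤ R)
    (d : Fin L → ℕ) (e : Fin L → ZMod q) (hd : ∀ l, 0 < d l)
    (he : ∀ l t, 0 < t → t < d l → (t : ZMod q) * e l ≠ 0) (rr : Fin L → ℝ) (hrr : ∀ l, 0 ≤ rr l)
    (hcol : ∀ l (x : Fin N → E), ‖∑ j, T (l, j) (x j)‖ ^ 2 ≤ rr l * ∑ j, ‖x j‖ ^ 2)
    (hs : ∀ x : E, ∑ y : Fin L × Fin N, ‖T y x‖ ^ 2 ≤ 2 * ‖x‖ ^ 2) {K : ℝ} (hK0 : 0 ≤ K)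
    (hK : ∀ l, (d l : ℝ) * Real.sqrt (rr l) ≤ K) (hr1 : ∀ l, rr l ≤ 1)
    (hdiag : ∀ (y : Fin L × Fin N) (x : E), ‖T y x‖ ^ 2 ≤ K * ‖x‖ ^ 2) :
    ‖(∑ l, ⟪partA T l v' + partB T l v', cyc (d l) (e l) (partA T l v + partB T l v)⟫_ℂ)
        - ∑ y : Fin L × Fin N, ∑ w, ⟪T y (v' w), T y (v w)⟫_ℂ‖ ≤ 5 * K * (‖v‖ * ‖v'‖) := by
  classical
  have hv1 : Supp (R - 1) v := fun w hw => hv w (by omega)
  have hv1' : Supp (R - 1) v' := fun w hw => hv' w (by omega)
  set β : Fin L → Vec L N q R E → ℝ :=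
    fun l u => ∑ j, ∑ w, (if HeadIs (l, j) w then ‖u w‖ ^ 2 else 0) with hβ
  have hβ0 : ∀ l u, 0 ≤ β l u := fun l u =>
    Finset.sum_nonneg fun j _ => Finset.sum_nonneg fun w _ => by split <;> positivity
  have hβs : ∀ u : Vec L N q R E, ∑ l, β l u ≤ ‖u‖ ^ 2 := fun u =>
    le_trans (le_of_eq (by rw [hβ, Fintype.sum_prod_type])) (sum_head_le u)
  have hB : ∀ l (u : Vec L N q R E), Supp (R - 1) u →
      (d l : ℝ) * ‖partB T l u‖ ≤ K * Real.sqrt (β l u) := by
    intro l u hu
    have h := Real.sqrt_le_sqrt (norm_partB_sq l hu (by omega) (hcol l))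
    rw [Real.sqrt_sq (norm_nonneg _), Real.sqrt_mul (hrr l)] at h
    calc (d l : ℝ) * ‖partB T l u‖ ≤ d l * (Real.sqrt (rr l) * Real.sqrt (β l u)) :=
          mul_le_mul_of_nonneg_left h (Nat.cast_nonneg _)
      _ ≤ K * Real.sqrt (β l u) := by
          rw [← mul_assoc]; exact mul_le_mul_of_nonneg_right (hK l) (Real.sqrt_nonneg _)
  have hB' : ∀ l (u : Vec L N q R E), Supp (R - 1) u → ‖partB T l u‖ ≤ Real.sqrt (β l u) := by
    intro l u hu
    have h := Real.sqrt_le_sqrt ((norm_partB_sq l hu (by omega) (hcol l)).trans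
      (mul_le_of_le_one_left (hβ0 l u) (hr1 l)))
    rwa [Real.sqrt_sq (norm_nonneg _)] at h
  -- the main terms
  set Q : ℂ := ∑ y : Fin L × Fin N, ∑ w, (if HeadIs y w then ⟪T y (v' w), T y (v w)⟫_ℂ else 0)
  have hmain : (∑ l, ⟪partA T l v', partA T l v⟫_ℂ)
      - ∑ y : Fin L × Fin N, ∑ w, ⟪T y (v' w), T y (v w)⟫_ℂ = -Q := by
    simp only [inner_partA _ hv1 (by omega : 0 < R), Q]
    rw [← Fintype.sum_prod_type', ← Finset.sum_sub_distrib, ← Finset.sum_neg_distrib]
    refine Finset.sum_congr rfl fun y _ => ?_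
    rw [← Finset.sum_sub_distrib, ← Finset.sum_neg_distrib]
    refine Finset.sum_congr rfl fun w _ => ?_
    split <;> simp
  have hQ : ‖Q‖ ≤ K * (‖v‖ * ‖v'‖) := by
    have h1 : ∀ y w, ‖(if HeadIs y w then ⟪T y (v' w), T y (v w)⟫_ℂ else 0 : ℂ)‖
        ≤ K * ((if HeadIs y w then ‖v w‖ else 0) * (if HeadIs y w then ‖v' w‖ else 0)) := by
      intro y w
      split
      · refine (norm_inner_le_norm _ _).trans ?_
        have a := Real.sqrt_le_sqrt (hdiag y (v' w))
        have b := Real.sqrt_le_sqrt (hdiag y (v w))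
        rw [Real.sqrt_sq (norm_nonneg _), Real.sqrt_mul hK0,
          Real.sqrt_sq (norm_nonneg _)] at a b
        refine (mul_le_mul a b (norm_nonneg _) (by positivity)).trans (le_of_eq ?_)
        linear_combination (‖v' w‖ * ‖v w‖) * Real.mul_self_sqrt hK0
      · simp
    refine (norm_sum_le _ _).trans ?_
    refine (Finset.sum_le_sum fun y _ => (norm_sum_le _ _).trans
      (Finset.sum_le_sum fun w _ => h1 y w)).trans ?_
    simp only [← Finset.mul_sum]
    refine mul_le_mul_of_nonneg_left ?_ hK0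
    rw [← Fintype.sum_prod_type' (f := fun y w => (if HeadIs y w then ‖v w‖ else 0)
      * (if HeadIs y w then ‖v' w‖ else 0))]
    refine (Real.sum_mul_le_sqrt_mul_sqrt _ _ _).trans ?_
    have hle : ∀ u : Vec L N q R E,
        Real.sqrt (∑ p : (Fin L × Fin N) × W L N q R, (if HeadIs p.1 p.2 then ‖u p.2‖ else 0) ^ 2)
          ≤ ‖u‖ := by
      intro u
      rw [← Real.sqrt_sq (norm_nonneg u)]
      refine Real.sqrt_le_sqrt (le_trans (le_of_eq ?_) (sum_head_le u))
      rw [Fintype.sum_prod_type]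
      refine Finset.sum_congr rfl fun y _ => Finset.sum_congr rfl fun w _ => ?_
      split <;> simp
    exact mul_le_mul (hle v) (hle v') (Real.sqrt_nonneg _) (norm_nonneg _)
  -- the remainders
  have hrem : ∀ l, ‖⟪partA T l v' + partB T l v', cyc (d l) (e l) (partA T l v + partB T l v)⟫_ℂ
      - ⟪partA T l v', partA T l v⟫_ℂ‖
      ≤ K * (‖partA T l v'‖ * Real.sqrt (β l v) + Real.sqrt (β l v') * ‖partA T l v‖
          + Real.sqrt (β l v') * Real.sqrt (β l v)) := by
    intro l
    have hadd : cyc (d l) (e l) (partA T l v + partB T l v)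
        = cyc (d l) (e l) (partA T l v) + cyc (d l) (e l) (partB T l v) := by
      apply PiLp.ext
      intro w
      simp [cyc, Finset.sum_add_distrib]
    rw [hadd, inner_add_left, inner_add_right, inner_add_right,
      inner_partA_cyc l hv hR (hd l) (he l)]
    set A' := partA T l v'
    set A := partA T l v
    set B' := partB T l v'
    set B := partB T l v
    have e1 : ∀ x : ℂ, ∀ y z : ℂ, ∀ a : ℂ, (a + x) + (y + z) - a = x + y + z := by
      intro x y z a; ring
    rw [e1, mul_add, mul_add]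
    refine (norm_add₃_le).trans (add_le_add (add_le_add ?_ ?_) ?_)
    · refine (norm_inner_le_norm _ _).trans ?_
      refine (mul_le_mul_of_nonneg_left (norm_cyc_le _ _ _) (norm_nonneg _)).trans ?_
      refine (mul_le_mul_of_nonneg_left (hB l v hv1) (norm_nonneg _)).trans (le_of_eq ?_)
      ring
    · refine (norm_inner_le_norm _ _).trans ?_
      refine (mul_le_mul_of_nonneg_left (norm_cyc_le _ _ _) (norm_nonneg _)).trans ?_
      rw [← mul_assoc, ← mul_assoc, mul_comm ‖B'‖]
      exact mul_le_mul_of_nonneg_right (hB l v' hv1') (norm_nonneg _)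
    · refine (norm_inner_le_norm _ _).trans ?_
      refine (mul_le_mul_of_nonneg_left (norm_cyc_le _ _ _) (norm_nonneg _)).trans ?_
      refine (mul_le_mul_of_nonneg_left (hB l v hv1) (norm_nonneg _)).trans ?_
      refine (mul_le_mul_of_nonneg_right (hB' l v' hv1') (by positivity)).trans (le_of_eq ?_)
      ring
  have hsplit : (∑ l, ⟪partA T l v' + partB T l v', cyc (d l) (e l) (partA T l v + partB T l v)⟫_ℂ)
      - ∑ y : Fin L × Fin N, ∑ w, ⟪T y (v' w), T y (v w)⟫_ℂ
      = (∑ l, (⟪partA T l v' + partB T l v', cyc (d l) (e l) (partA T l v + partB T l v)⟫_ℂ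
          - ⟪partA T l v', partA T l v⟫_ℂ)) + (-Q) := by
    rw [← hmain, Finset.sum_sub_distrib]; ring
  rw [hsplit]
  refine (norm_add_le _ _).trans ?_
  rw [norm_neg]
  refine (add_le_add ((norm_sum_le _ _).trans (Finset.sum_le_sum fun l _ => hrem l)) hQ).trans ?_
  rw [← Finset.mul_sum, Finset.sum_add_distrib, Finset.sum_add_distrib, ← mul_add]
  have hA : ∀ u : Vec L N q R E, Supp (R - 1) u →
      Real.sqrt (∑ l, ‖partA T l u‖ ^ 2) ≤ 3 / 2 * ‖u‖ := by
    intro u hu
    rw [Real.sqrt_le_left (by positivity)]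
    refine (sum_partA_sq hu (by omega) hs).trans ?_
    have := sq_nonneg ‖u‖
    linarith
  have hbs : ∀ u : Vec L N q R E, Real.sqrt (∑ l, Real.sqrt (β l u) ^ 2) ≤ ‖u‖ := by
    intro u
    rw [← Real.sqrt_sq (norm_nonneg u)]
    refine Real.sqrt_le_sqrt (le_trans (le_of_eq ?_) (hβs u))
    exact Finset.sum_congr rfl fun l _ => Real.sq_sqrt (hβ0 l u)
  have t1 := (Real.sum_mul_le_sqrt_mul_sqrt Finset.univ (fun l => ‖partA T l v'‖)
    (fun l => Real.sqrt (β l v))).trans (mul_le_mul (hA v' hv1') (hbs v) (Real.sqrt_nonneg _)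
      (by positivity))
  have t2 := (Real.sum_mul_le_sqrt_mul_sqrt Finset.univ (fun l => Real.sqrt (β l v'))
    (fun l => ‖partA T l v‖)).trans (mul_le_mul (hbs v') (hA v hv1) (Real.sqrt_nonneg _)
      (norm_nonneg _))
  have t3 := (Real.sum_mul_le_sqrt_mul_sqrt Finset.univ (fun l => Real.sqrt (β l v'))
    (fun l => Real.sqrt (β l v))).trans (mul_le_mul (hbs v') (hbs v) (Real.sqrt_nonneg _)
      (norm_nonneg _))
  refine (mul_le_mul_of_nonneg_left (add_le_add (add_le_add (add_le_add t1 t2) t3) le_rfl)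
    hK0).trans (le_of_eq ?_)
  ring

end Vale.Agent.P095.Lift.FreeWords
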