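import Mathlib

/-!
# P095 Lift C2: truncated free product of `Z_q` and copies of `Z_2` (PROOF.md II.2)

Reduced words of length at most `R`, the two families of permutations acting on them by left
multiplication (fixing the points where they would leave the set), and the fact that a short
product of them is determined by its value at the empty word.
-/

open scoped BigOperators

namespace Vale.Agent.P095.Lift.FreeWords

variable {ι : Type} {q R : ℕ}

/-- A letter: an involution `inl x` or a power `inr t` of the generator of order `q`. -/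
abbrev Letter (ι : Type) (q : ℕ) : Type := ι ⊕ ZMod q

/-- The kind of a letter. -/
def kind : Letter ι q → Option ι := Sum.elim some fun _ => none

/-- Reduced words. -/
def Red (w : List (Letter ι q)) : Prop :=
  w.IsChain (fun a b => kind a ≠ kind b) ∧ ∀ t, Sum.inr t ∈ w → t ≠ 0

/-- The words of length at most `R`. -/
abbrev Wd (ι : Type) (q R : ℕ) : Type := {w : List (Letter ι q) // Red w ∧ w.length ≤ R}

instance [Finite ι] [NeZero q] : Finite (Wd ι q R) :=
  Set.Finite.to_subtype ((List.finite_length_le (Letter ι q) R).subset fun _ h => h.2)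

noncomputable instance [Finite ι] [NeZero q] : Fintype (Wd ι q R) := Fintype.ofFinite _

/-- The empty word. -/
def one : Wd ι q R := ⟨[], ⟨List.IsChain.nil, by simp⟩, by simp⟩

theorem red_inl_cons {x : ι} {w : List (Letter ι q)} :
    Red (Sum.inl x :: w) ↔ Red w ∧ w.head? ≠ some (Sum.inl x) := by
  simp only [Red, List.isChain_cons, List.mem_cons, reduceCtorEq, false_or]
  constructor
  · rintro ⟨⟨h1, h2⟩, h3⟩
    exact ⟨⟨h2, h3⟩, fun h => h1 _ h rfl⟩
  · rintro ⟨⟨h2, h3⟩, h1⟩
    refine ⟨⟨fun y hy he => ?_, h2⟩, h3⟩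
    rcases y with y | y
    · obtain rfl : x = y := by simpa [kind] using he
      exact h1 hy
    · simp [kind] at he

theorem red_inr_cons {t : ZMod q} {w : List (Letter ι q)} :
    Red (Sum.inr t :: w) ↔ Red w ∧ t ≠ 0 ∧ ∀ s, w.head? ≠ some (Sum.inr s) := by
  simp only [Red, List.isChain_cons, List.mem_cons, Sum.inr.injEq]
  constructor
  · rintro ⟨⟨h1, h2⟩, h3⟩
    exact ⟨⟨h2, fun s hs => h3 s (Or.inr hs)⟩, h3 t (Or.inl rfl), fun s hs => h1 _ hs rfl⟩
  · rintro ⟨⟨h2, h3⟩, ht, h1⟩
    refine ⟨⟨fun y hy he => ?_, h2⟩, fun s hs => hs.elim (fun e => e ▸ ht) (h3 s)⟩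
    rcases y with y | y
    · simp [kind] at he
    · exact h1 y hy

/-- split off the power at the head -/
def asplit : List (Letter ι q) → ZMod q × List (Letter ι q)
  | Sum.inr t :: w => (t, w)
  | w => (0, w)

/-- put a power at the head -/
def acons (t : ZMod q) (w : List (Letter ι q)) : List (Letter ι q) :=
  if t = 0 then w else Sum.inr t :: w

theorem asplit_spec {w : List (Letter ι q)} (h : Red w) :
    acons (asplit w).1 (asplit w).2 = w ∧ Red (asplit w).2 ∧
      (∀ s, (asplit w).2.head? ≠ some (Sum.inr s)) ∧ (asplit w).2.length ≤ w.length := by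
  match w, h with
  | [], h => exact ⟨by simp [asplit, acons], h, by simp [asplit], le_rfl⟩
  | Sum.inl x :: w, h => exact ⟨by simp [asplit, acons], h, by simp [asplit], le_rfl⟩
  | Sum.inr t :: w, h =>
    obtain ⟨h1, h2, h3⟩ := red_inr_cons.1 h
    exact ⟨by simp [asplit, acons, h2], h1, h3, by simp [asplit]⟩

theorem asplit_acons {t : ZMod q} {w : List (Letter ι q)}
    (h : ∀ s, w.head? ≠ some (Sum.inr s)) : asplit (acons t w) = (t, w) := by
  by_cases ht : t = 0
  · subst ht
    rw [acons, if_pos rfl]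
    match w, h with
    | [], _ => rfl
    | Sum.inl x :: w, _ => rfl
    | Sum.inr s :: w, h => exact absurd rfl (h s)
  · simp [acons, ht, asplit]

theorem red_acons {t : ZMod q} {w : List (Letter ι q)} (hw : Red w)
    (h : ∀ s, w.head? ≠ some (Sum.inr s)) : Red (acons t w) := by
  rw [acons]
  split
  · exact hw
  · rename_i ht
    exact red_inr_cons.2 ⟨hw, ht, h⟩

theorem length_acons (t : ZMod q) (w : List (Letter ι q)) :
    (acons t w).length ≤ w.length + 1 := by
  rw [acons]
  split <;> simp

variable [DecidableEq ι]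

/-- the action of `a ^ s` -/
def aAct (s : ZMod q) (w : Wd ι q R) : Wd ι q R :=
  if h : (asplit w.1).2.length < R then
    ⟨acons ((asplit w.1).1 + s) (asplit w.1).2,
      red_acons (asplit_spec w.2.1).2.1 (asplit_spec w.2.1).2.2.1,
      le_trans (length_acons _ _) h⟩
  else w

omit [DecidableEq ι] in
theorem aAct_zero (w : Wd ι q R) : aAct 0 w = w := by
  unfold aAct
  split
  · exact Subtype.ext (by simp [(asplit_spec w.2.1).1])
  · rfl

omit [DecidableEq ι] in
theorem asplit_aAct (s : ZMod q) (w : Wd ι q R) (h : (asplit w.1).2.length < R) :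
    asplit (aAct s w).1 = ((asplit w.1).1 + s, (asplit w.1).2) := by
  rw [aAct, dif_pos h]
  exact asplit_acons (asplit_spec w.2.1).2.2.1

omit [DecidableEq ι] in
theorem aAct_val (s : ZMod q) (w : Wd ι q R) (h : (asplit w.1).2.length < R) :
    (aAct s w).1 = acons ((asplit w.1).1 + s) (asplit w.1).2 := by
  rw [aAct, dif_pos h]

omit [DecidableEq ι] in
theorem aAct_add (s t : ZMod q) (w : Wd ι q R) : aAct s (aAct t w) = aAct (t + s) w := by
  by_cases h : (asplit w.1).2.length < R
  · have h' := asplit_aAct t w h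
    refine Subtype.ext ?_
    rw [aAct_val s (aAct t w) (by rw [h']; exact h), h', aAct_val (t + s) w h, add_assoc]
  · have hw : ∀ r : ZMod q, aAct r w = w := fun r => by rw [aAct, dif_neg h]
    rw [hw, hw, hw]

/-- the action of the generator of order `q`, as permutations -/
def aPerm (s : ZMod q) : Equiv.Perm (Wd ι q R) where
  toFun := aAct s
  invFun := aAct (-s)
  left_inv w := by rw [aAct_add, add_neg_cancel, aAct_zero]
  right_inv w := by rw [aAct_add, neg_add_cancel, aAct_zero]

theorem aPerm_add (s t : ZMod q) :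
    (aPerm (s + t) : Equiv.Perm (Wd ι q R)) = aPerm s * aPerm t := by
  ext w : 1
  simp [aPerm, aAct_add, add_comm]

theorem aPerm_zero : (aPerm 0 : Equiv.Perm (Wd ι q R)) = 1 := by
  ext w : 1
  exact aAct_zero w

theorem aPerm_pow (i : ℕ) :
    (aPerm (1 : ZMod q) : Equiv.Perm (Wd ι q R)) ^ i = aPerm (i : ZMod q) := by
  induction i with
  | zero => simp [aPerm_zero]
  | succ i ih => rw [pow_succ, ih, Nat.cast_succ, aPerm_add]

/-- the word starts with the involution `x` -/
def HeadIs (x : ι) (w : Wd ι q R) : Prop := w.1.head? = some (Sum.inl x)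

instance (x : ι) (w : Wd ι q R) : Decidable (HeadIs x w) := by
  unfold HeadIs; infer_instance

/-- the action of the involution `x` -/
def uAct (x : ι) (w : Wd ι q R) : Wd ι q R :=
  if h : HeadIs x w then
    ⟨w.1.tail, by
      obtain ⟨⟨l, hl⟩, hlen⟩ := w.2
      obtain ⟨r, hr⟩ : ∃ r, w.1 = Sum.inl x :: r := List.head?_eq_some_iff.1 h
      rw [hr] at hlen ⊢
      refine ⟨(red_inl_cons.1 (hr ▸ (⟨l, hl⟩ : Red w.1))).1, ?_⟩
      simp at hlen ⊢
      omega⟩
  else if h' : w.1.length < R then ⟨Sum.inl x :: w.1, red_inl_cons.2 ⟨w.2.1, h⟩, h'⟩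
  else w

theorem uAct_of_head {x : ι} {w : Wd ι q R} (h : HeadIs x w) :
    (uAct x w).1 = w.1.tail ∧ ¬HeadIs x (uAct x w) ∧ (uAct x w).1.length < R
      ∧ w.1 = Sum.inl x :: (uAct x w).1 := by
  obtain ⟨r, hr⟩ : ∃ r, w.1 = Sum.inl x :: r := List.head?_eq_some_iff.1 h
  have e : (uAct x w).1 = r := by rw [uAct, dif_pos h]; simp [hr]
  refine ⟨by rw [e, hr]; rfl, ?_, ?_, by rw [e, hr]⟩
  · rw [HeadIs, e]
    exact (red_inl_cons.1 (hr ▸ w.2.1)).2
  · rw [e]
    have := w.2.2
    rw [hr] at this
    simp at this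
    omega

theorem uAct_of_lt {x : ι} {w : Wd ι q R} (h : ¬HeadIs x w) (h' : w.1.length < R) :
    (uAct x w).1 = Sum.inl x :: w.1 := by
  rw [uAct, dif_neg h, dif_pos h']

theorem uAct_uAct (x : ι) (w : Wd ι q R) : uAct x (uAct x w) = w := by
  by_cases h : HeadIs x w
  · obtain ⟨-, h2, h3, h4⟩ := uAct_of_head h
    exact Subtype.ext (by rw [uAct_of_lt h2 h3, ← h4])
  · by_cases h' : w.1.length < R
    · have e := uAct_of_lt h h'
      have hh : HeadIs x (uAct x w) := by rw [HeadIs, e]; rfl
      exact Subtype.ext (by rw [(uAct_of_head hh).1, e]; rfl)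
    · have e : uAct x w = w := by rw [uAct, dif_neg h, dif_neg h']
      rw [e, e]

/-- the involutions as permutations -/
def uPerm (x : ι) : Equiv.Perm (Wd ι q R) where
  toFun := uAct x
  invFun := uAct x
  left_inv := uAct_uAct x
  right_inv := uAct_uAct x

theorem uPerm_mul_self (x : ι) : (uPerm x : Equiv.Perm (Wd ι q R)) * uPerm x = 1 := by
  ext w : 1
  exact uAct_uAct x w

theorem head_uAct_iff (x : ι) (w : Wd ι q R) :
    HeadIs x (uAct x w) ↔ ¬HeadIs x w ∧ w.1.length < R := by
  by_cases h : HeadIs x w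
  · simp [(uAct_of_head h).2.1, h]
  · by_cases h' : w.1.length < R
    · have : HeadIs x (uAct x w) := by rw [HeadIs, uAct_of_lt h h']; rfl
      simp [this, h, h']
    · simp [uAct, h, h']

/-- the permutation of a letter -/
def lPerm : Letter ι q → Equiv.Perm (Wd ι q R) := Sum.elim uPerm aPerm

/-- the product along a word -/
def wPerm (w : List (Letter ι q)) : Equiv.Perm (Wd ι q R) := (w.map lPerm).prod

theorem wPerm_cons (l : Letter ι q) (w : List (Letter ι q)) :
    (wPerm (l :: w) : Equiv.Perm (Wd ι q R)) = lPerm l * wPerm w := by simp [wPerm]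

theorem wPerm_acons (t : ZMod q) (w : List (Letter ι q)) :
    (wPerm (acons t w) : Equiv.Perm (Wd ι q R)) = aPerm t * wPerm w := by
  unfold acons
  split
  · rename_i ht; subst ht; rw [aPerm_zero, one_mul]
  · rw [wPerm_cons]; rfl

/-- one letter applied to a word -/
theorem lPerm_apply (l : Letter ι q) (w : Wd ι q R) (h : w.1.length < R) :
    (lPerm l w).1.length ≤ w.1.length + 1 ∧
      (wPerm (lPerm l w).1 : Equiv.Perm (Wd ι q R)) = lPerm l * wPerm w.1 := by
  rcases l with x | s
  · by_cases hh : HeadIs x w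
    · obtain ⟨-, -, -, h4⟩ := uAct_of_head hh
      refine ⟨?_, ?_⟩
      · have := congrArg List.length h4
        simp [lPerm, uPerm] at this ⊢
        omega
      · conv_rhs => rw [h4, wPerm_cons]
        show wPerm (uAct x w).1 = uPerm x * (uPerm x * wPerm _)
        rw [← mul_assoc, uPerm_mul_self, one_mul]
    · have e := uAct_of_lt hh h
      refine ⟨by simp [lPerm, uPerm, e], ?_⟩
      show wPerm (uAct x w).1 = _
      rw [e, wPerm_cons]
  · obtain ⟨h1, -, -, h4⟩ := asplit_spec w.2.1
    have hlt : (asplit w.1).2.length < R := lt_of_le_of_lt h4 h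
    have e : (aAct s w).1 = acons ((asplit w.1).1 + s) (asplit w.1).2 := by
      rw [aAct, dif_pos hlt]
    refine ⟨?_, ?_⟩
    · show (aAct s w).1.length ≤ _
      rw [e]; exact (length_acons _ _).trans (by omega)
    · show wPerm (aAct s w).1 = aPerm s * wPerm w.1
      conv_rhs => rw [← h1, wPerm_acons, ← mul_assoc, ← aPerm_add, add_comm]
      rw [e, wPerm_acons]

/-- a product of at most `R` letters is determined by its value at the empty word -/
theorem short_prod_eq : ∀ w : List (Letter ι q), w.length ≤ R →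
    (wPerm w (one : Wd ι q R)).1.length ≤ w.length ∧
      (wPerm (wPerm w (one : Wd ι q R)).1 : Equiv.Perm (Wd ι q R)) = wPerm w := by
  intro w
  induction w with
  | nil => intro _; simp [wPerm, one]
  | cons l w ih =>
    intro hw
    simp at hw
    obtain ⟨h1, h2⟩ := ih (by omega)
    have hlt : (wPerm w (one : Wd ι q R)).1.length < R := by omega
    obtain ⟨h3, h4⟩ := lPerm_apply l _ hlt
    have e : wPerm (l :: w) (one : Wd ι q R) = lPerm l (wPerm w one) := by rw [wPerm_cons]; rfl
    refine ⟨?_, ?_⟩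
    · rw [e]; simp; omega
    · rw [e, h4, h2, wPerm_cons]

theorem eq_one_of_fix {w : List (Letter ι q)} (hw : w.length ≤ R)
    (h : wPerm w (one : Wd ι q R) = one) : (wPerm w : Equiv.Perm (Wd ι q R)) = 1 := by
  have := (short_prod_eq w hw).2
  rw [h] at this
  simpa [wPerm, one] using this.symm

theorem orderOf_aPerm [NeZero q] (hR : 0 < R) :
    orderOf (aPerm (1 : ZMod q) : Equiv.Perm (Wd ι q R)) = q := by
  rw [orderOf_eq_iff (Nat.pos_of_ne_zero (NeZero.ne q))]
  refine ⟨by rw [aPerm_pow, ZMod.natCast_self, aPerm_zero], fun m hm hm0 h => ?_⟩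
  rw [aPerm_pow] at h
  have h1 := congrArg (fun g : Equiv.Perm (Wd ι q R) => (g one).1) h
  have h2 : ((m : ℕ) : ZMod q) ≠ 0 := by
    rw [Ne, ZMod.natCast_eq_zero_iff]
    exact fun hd => absurd (Nat.le_of_dvd hm0 hd) (by omega)
  simp [aPerm, aAct, one, asplit, acons, hR, h2] at h1

end Vale.Agent.P095.Lift.FreeWords
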