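import Vale.Agent.P095.Lift.Defs

/-!
# Vector states of a simple algebra in finite codimension

`A` is a simple infinite dimensional unital C*-algebra and `lam` a state. A completely positive
map to matrices is approximated by vectors of the semi-inner product of `lam` orthogonal to a given
finite set. No completion is used: the positive part of a self-adjoint matrix which is negative on a
subspace of finite codimension has finite rank, hence vanishes by simplicity.
-/

open scoped ComplexOrder ComplexConjugate Topology CStarAlgebra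
open Filter

namespace Vale.Agent.P095.Lift

namespace Vec

/-- The two parts of a self-adjoint element, as squares. -/
lemma exists_parts {B : Type*} [CStarAlgebra B] (h : B) (hh : IsSelfAdjoint h) :
    ∃ r s : B, IsSelfAdjoint r ∧ IsSelfAdjoint s ∧ h = r * r - s * s ∧ s * s * (r * r) = 0 := by
  let := CStarAlgebra.spectralOrder B
  let := CStarAlgebra.spectralOrderedRing B
  refine ⟨CFC.sqrt h⁺, CFC.sqrt h⁻, (CFC.sqrt_nonneg _).isSelfAdjoint,
    (CFC.sqrt_nonneg _).isSelfAdjoint, ?_, ?_⟩ <;>
    rw [CFC.sqrt_mul_sqrt_self _ (CFC.posPart_nonneg h),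
      CFC.sqrt_mul_sqrt_self _ (CFC.negPart_nonneg h)]
  · exact (CFC.posPart_sub_negPart h hh).symm
  · exact CFC.negPart_mul_posPart h

variable {A : Type*} [CStarAlgebra A] {k : ℕ}

/-- The action of a matrix over `A` on columns. -/
noncomputable def act (M : CStarMatrix (Fin k) (Fin k) A) (ξ : Fin k → A) : Fin k → A :=
  fun i => ∑ j, M i j * ξ j

lemma act_mul (M N : CStarMatrix (Fin k) (Fin k) A) (ξ : Fin k → A) :
    act (M * N) ξ = act M (act N ξ) := by
  funext i
  simp only [act, CStarMatrix.mul_apply, Finset.sum_mul, Finset.mul_sum, mul_assoc]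
  exact Finset.sum_comm

/-- The semi-inner product of columns. -/
noncomputable def ipv (lam : A →ₗ[ℂ] ℂ) (ξ η : Fin k → A) : ℂ :=
  ∑ i, lam (star (ξ i) * η i)

/-- The form of a matrix. -/
noncomputable def form (lam : A →ₗ[ℂ] ℂ) (M : CStarMatrix (Fin k) (Fin k) A) (ξ : Fin k → A) : ℂ :=
  ipv lam ξ (act M ξ)

lemma form_eq (lam : A →ₗ[ℂ] ℂ) (M : CStarMatrix (Fin k) (Fin k) A) (ξ : Fin k → A) :
    form lam M ξ = ∑ i, ∑ j, lam (star (ξ i) * M i j * ξ j) := by
  simp only [form, ipv, act, Finset.mul_sum, map_sum, mul_assoc]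

lemma ipv_act (lam : A →ₗ[ℂ] ℂ) (M : CStarMatrix (Fin k) (Fin k) A) (ξ η : Fin k → A) :
    ipv lam (act M ξ) η = ipv lam ξ (act (star M) η) := by
  simp only [ipv, act, star_sum, star_mul, Finset.sum_mul, Finset.mul_sum, map_sum, mul_assoc,
    CStarMatrix.star_apply]
  exact Finset.sum_comm

/-- Orthogonality to a finite set. -/
def Perp (lam : A →ₗ[ℂ] ℂ) (W : Finset A) (ξ : Fin k → A) : Prop :=
  ∀ w ∈ W, ∀ i, lam (star w * ξ i) = 0

lemma Perp.mono {lam : A →ₗ[ℂ] ℂ} {W W' : Finset A} {ξ : Fin k → A} (h : W ⊆ W')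
    (hξ : Perp lam W' ξ) : Perp lam W ξ :=
  fun w hw => hξ w (h hw)

/-- The map of `A` to its dual by the semi-inner product. -/
noncomputable def toFun (lam : A →ₗ[ℂ] ℂ) : A →ₗ[ℂ] (A → ℂ) where
  toFun y z := lam (star z * y)
  map_add' x y := funext fun z => by simp [mul_add]
  map_smul' c x := funext fun z => by simp

@[simp] lemma toFun_apply (lam : A →ₗ[ℂ] ℂ) (y z : A) : toFun lam y z = lam (star z * y) := rfl

/-- Left multiplication carried to the dual. -/
noncomputable def shiftFun (a : A) : (A → ℂ) →ₗ[ℂ] (A → ℂ) where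
  toFun f z := f (star a * z)
  map_add' _ _ := rfl
  map_smul' _ _ := rfl

lemma shiftFun_toFun (lam : A →ₗ[ℂ] ℂ) (a y : A) :
    shiftFun a (toFun lam y) = toFun lam (a * y) :=
  funext fun z => by simp [shiftFun, star_mul, mul_assoc]

/-- The range of left multiplication modulo the null space. -/
noncomputable def leftRange (lam : A →ₗ[ℂ] ℂ) (a : A) : Submodule ℂ (A → ℂ) :=
  LinearMap.range (toFun lam ∘ₗ LinearMap.mulLeft ℂ a)

section Positive

variable {lam : A →ₗ[ℂ] ℂ} (hpos : ∀ y, 0 ≤ lam (star y * y))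
include hpos

lemma im_self (y : A) : (lam (star y * y)).im = 0 := (Complex.le_def.1 (hpos y)).2.symm

lemma re_self_nonneg (y : A) : 0 ≤ (lam (star y * y)).re := (Complex.le_def.1 (hpos y)).1

lemma lam_swap (a b : A) : lam (star a * b) = conj (lam (star b * a)) := by
  have h1 := im_self hpos (a + b)
  have h2 := im_self hpos (a + Complex.I • b)
  simp only [star_add, star_smul, add_mul, mul_add, smul_mul_assoc, mul_smul_comm, map_add,
    map_smul, smul_eq_mul, Complex.star_def, Complex.conj_I, Complex.add_im, Complex.mul_im,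
    Complex.mul_re, Complex.I_re, Complex.I_im, Complex.neg_re, Complex.neg_im,
    im_self hpos] at h1 h2
  refine Complex.ext ?_ ?_
  · simp only [Complex.conj_re]; linarith
  · simp only [Complex.conj_im]; linarith

lemma lam_star (y : A) : lam (star y) = conj (lam y) := by
  simpa using lam_swap hpos y 1

lemma two_norm_le (a b : A) :
    2 * ‖lam (star a * b)‖ ≤ (lam (star a * a)).re + (lam (star b * b)).re := by
  set z := lam (star a * b) with hz
  rcases eq_or_ne z 0 with h0 | h0
  · rw [h0, norm_zero, mul_zero]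
    exact add_nonneg (re_self_nonneg hpos a) (re_self_nonneg hpos b)
  have hn : ((‖z‖ : ℂ)) ≠ 0 := by simpa using norm_ne_zero_iff.2 h0
  set u := conj z / (‖z‖ : ℂ) with hu
  have huz : u * z = (‖z‖ : ℂ) := by
    rw [hu, div_mul_eq_mul_div, Complex.conj_mul', div_eq_iff hn, sq]
  have huu : conj u * u = 1 := by
    rw [hu, map_div₀, Complex.conj_conj, Complex.conj_ofReal, div_mul_div_comm, Complex.mul_conj',
      sq, div_self (mul_ne_zero hn hn)]
  have h := re_self_nonneg hpos (a - u • b)
  simp only [star_sub, star_smul, sub_mul, mul_sub, smul_mul_assoc, mul_smul_comm, map_sub,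
    map_smul, smul_eq_mul, Complex.star_def] at h
  rw [← hz, lam_swap hpos b a, ← hz, ← map_mul, huz, Complex.conj_ofReal, ← mul_assoc u, mul_comm u,
    huu, one_mul] at h
  simp only [Complex.sub_re, Complex.ofReal_re] at h
  linarith

lemma toFun_eq_zero {y : A} (hy : (lam (star y * y)).re = 0) : toFun lam y = 0 := by
  funext z
  have h : ∀ t : ℝ, 0 < t → 2 * ‖lam (star z * y)‖ ≤ t * (lam (star z * z)).re := fun t ht => by
    have h2 := two_norm_le hpos ((t : ℂ) • z) y
    simp only [star_smul, smul_mul_assoc, mul_smul_comm, map_smul, smul_eq_mul, Complex.star_def,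
      Complex.conj_ofReal, norm_mul, Complex.norm_real, Real.norm_eq_abs, abs_of_pos ht,
      Complex.re_ofReal_mul, hy, add_zero] at h2
    nlinarith
  by_contra hne
  set Z := (lam (star z * z)).re
  have hZ : 0 ≤ Z := re_self_nonneg hpos z
  have hp : 0 < ‖lam (star z * y)‖ := norm_pos_iff.2 hne
  have h2 := h (‖lam (star z * y)‖ / (Z + 1)) (by positivity)
  rw [div_mul_eq_mul_div, le_div_iff₀ (by linarith)] at h2
  nlinarith

lemma ipv_self_re (ξ : Fin k → A) : 0 ≤ (ipv lam ξ ξ).re := by
  rw [ipv, Complex.re_sum]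
  exact Finset.sum_nonneg fun i _ => re_self_nonneg hpos _

lemma toFun_eq_zero_of_ipv {ξ : Fin k → A} (h : (ipv lam ξ ξ).re ≤ 0) (i : Fin k) :
    toFun lam (ξ i) = 0 := by
  refine toFun_eq_zero hpos (le_antisymm ?_ (re_self_nonneg hpos _))
  rw [ipv, Complex.re_sum] at h
  exact le_trans (Finset.single_le_sum (f := fun j => (lam (star (ξ j) * ξ j)).re)
    (fun j _ => re_self_nonneg hpos _) (Finset.mem_univ i)) h

lemma form_star (M : CStarMatrix (Fin k) (Fin k) A) (ξ : Fin k → A) :
    form lam (star M) ξ = conj (form lam M ξ) := by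
  simp only [form_eq, map_sum, CStarMatrix.star_apply]
  rw [Finset.sum_comm]
  refine Finset.sum_congr rfl fun j _ => Finset.sum_congr rfl fun i _ => ?_
  rw [← lam_star hpos]
  simp [mul_assoc]

variable [PartialOrder A] [StarOrderedRing A]

lemma re_conj_le (x b : A) :
    (lam (star (x * b) * (x * b))).re ≤ ‖x‖ ^ 2 * (lam (star b * b)).re := by
  have hd : 0 ≤ algebraMap ℝ A (‖x‖ ^ 2) - star x * x :=
    sub_nonneg.2 (by
      have := IsSelfAdjoint.le_algebraMap_norm_self (IsSelfAdjoint.star_mul_self x)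
      rwa [CStarRing.norm_star_mul_self, ← sq] at this)
  set r := CFC.sqrt (algebraMap ℝ A (‖x‖ ^ 2) - star x * x) with hr
  have hsa : star r = r := (CFC.sqrt_nonneg _).isSelfAdjoint
  have h := re_self_nonneg hpos (r * b)
  rw [star_mul, hsa, ← mul_assoc, mul_assoc (star b) r r, hr,
    CFC.sqrt_mul_sqrt_self _ hd] at h
  simp only [mul_sub, sub_mul, map_sub, Complex.sub_re] at h
  rw [Algebra.algebraMap_eq_smul_one, mul_smul_comm, mul_one, smul_mul_assoc,
    ← Complex.coe_smul, map_smul, smul_eq_mul, Complex.re_ofReal_mul] at h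
  rw [star_mul]
  simp only [mul_assoc] at h ⊢
  linarith

lemma norm_coeff_le (x : A) (ξ : Fin k → A) (i j : Fin k) :
    2 * ‖lam (star (ξ i) * x * ξ j)‖ ≤ (1 + ‖x‖ ^ 2) * (ipv lam ξ ξ).re := by
  have hle : ∀ l, (lam (star (ξ l) * ξ l)).re ≤ (ipv lam ξ ξ).re := fun l => by
    rw [ipv, Complex.re_sum]
    exact Finset.single_le_sum (f := fun j => (lam (star (ξ j) * ξ j)).re)
      (fun j _ => re_self_nonneg hpos _) (Finset.mem_univ l)
  have h := two_norm_le hpos (ξ i) (x * ξ j)
  rw [← mul_assoc] at h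
  have h2 := (re_conj_le hpos x (ξ j)).trans
    (mul_le_mul_of_nonneg_left (hle j) (sq_nonneg ‖x‖))
  have h3 := hle i
  linarith

end Positive

section Simple

variable [IsSimpleRing A] (hA : ¬ FiniteDimensional ℂ A) {lam : A →ₗ[ℂ] ℂ} (h1 : lam 1 = 1)
include hA h1

lemma not_finite_range : ¬ FiniteDimensional ℂ (LinearMap.range (toFun lam)) := fun hfin => by
  obtain ⟨t, ht⟩ := (Submodule.fg_iff_finiteDimensional _).2 hfin
  have hmem : ∀ f ∈ t, ∃ y, toFun lam y = f := fun f hf =>
    LinearMap.mem_range.1 (ht ▸ Submodule.subset_span hf)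
  choose y hy using hmem
  let T : A →ₗ[ℂ] ({f // f ∈ t} → LinearMap.range (toFun lam)) :=
    LinearMap.pi fun p => (toFun lam).rangeRestrict ∘ₗ LinearMap.mulRight ℂ (y p.1 p.2)
  refine hA (FiniteDimensional.of_injective T ((injective_iff_map_eq_zero T).2 fun a ha => ?_))
  have hall : ∀ z, toFun lam (a * z) = 0 := fun z => by
    have hle : LinearMap.range (toFun lam) ≤ LinearMap.ker (shiftFun a) := by
      rw [← ht, Submodule.span_le]
      intro f hf
      rw [SetLike.mem_coe, LinearMap.mem_ker, ← hy f hf, shiftFun_toFun]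
      exact congrArg Subtype.val (congrFun ha ⟨f, hf⟩)
    have := LinearMap.mem_ker.1 (hle (LinearMap.mem_range_self (toFun lam) z))
    rwa [shiftFun_toFun] at this
  let J : TwoSidedIdeal A := TwoSidedIdeal.mk' {b | ∀ z, toFun lam (b * z) = 0}
    (fun z => by simp) (fun {b c} hb hc z => by rw [add_mul, map_add, hb z, hc z, add_zero])
    (fun {b} hb z => by rw [neg_mul, map_neg, hb z, neg_zero])
    (fun {c b} hb z => by rw [mul_assoc, ← shiftFun_toFun, hb z, map_zero])
    (fun {b c} hb z => by rw [mul_assoc, hb])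
  by_contra hne
  have hone : (1 : A) ∈ J := IsSimpleRing.one_mem_of_ne_zero_mem J hne
    ((TwoSidedIdeal.mem_mk' _ _ _ _ _ _ _).2 hall)
  have := congrFun ((TwoSidedIdeal.mem_mk' _ _ _ _ _ _ _).1 hone 1) 1
  simp [h1] at this

lemma eq_zero_of_finite_range {a : A} (h : FiniteDimensional ℂ (leftRange lam a)) : a = 0 := by
  let I : TwoSidedIdeal A := TwoSidedIdeal.mk' {b | FiniteDimensional ℂ (leftRange lam b)}
    (by
      show FiniteDimensional ℂ (leftRange lam 0)
      have : leftRange lam (0 : A) = ⊥ := by simp [leftRange]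
      rw [this]; infer_instance)
    (fun {b c} hb hc => by
      have : FiniteDimensional ℂ (leftRange lam b) := hb
      have : FiniteDimensional ℂ (leftRange lam c) := hc
      refine Submodule.finiteDimensional_of_le (S₂ := leftRange lam b ⊔ leftRange lam c) ?_
      rintro _ ⟨z, rfl⟩
      refine Submodule.mem_sup.2 ⟨_, ⟨z, rfl⟩, _, ⟨z, rfl⟩, ?_⟩
      simp [add_mul])
    (fun {b} hb => by
      have : FiniteDimensional ℂ (leftRange lam b) := hb
      refine Submodule.finiteDimensional_of_le (S₂ := leftRange lam b) ?_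
      rintro _ ⟨z, rfl⟩
      exact ⟨-z, by simp⟩)
    (fun {c b} hb => by
      have : FiniteDimensional ℂ (leftRange lam b) := hb
      refine Submodule.finiteDimensional_of_le (S₂ := (leftRange lam b).map (shiftFun c)) ?_
      rintro _ ⟨z, rfl⟩
      exact ⟨_, ⟨z, rfl⟩, by simp [shiftFun_toFun]⟩)
    (fun {b c} hb => by
      have : FiniteDimensional ℂ (leftRange lam b) := hb
      refine Submodule.finiteDimensional_of_le (S₂ := leftRange lam b) ?_
      rintro _ ⟨z, rfl⟩
      exact ⟨c * z, by simp⟩)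
  by_contra hne
  have hI : ∀ b, b ∈ I ↔ FiniteDimensional ℂ (leftRange lam b) :=
    fun b => TwoSidedIdeal.mem_mk' _ _ _ _ _ _ b
  have h2 : FiniteDimensional ℂ (leftRange lam (1 : A)) :=
    (hI 1).1 (IsSimpleRing.one_mem_of_ne_zero_mem I hne ((hI a).2 h))
  refine not_finite_range hA h1 ?_
  have he : leftRange lam (1 : A) = LinearMap.range (toFun lam) := by simp [leftRange]
  rwa [he] at h2

variable [PartialOrder A] [StarOrderedRing A] (hpos : ∀ y, 0 ≤ lam (star y * y))
include hpos

omit [PartialOrder A] [StarOrderedRing A] in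
/-- The positive part of a matrix negative in finite codimension vanishes. -/
lemma posPart_eq_zero {h r t : CStarMatrix (Fin k) (Fin k) A} (hr : IsSelfAdjoint r)
    (hd : h = r * r - t * t) (ho : t * t * (r * r) = 0) (W : Finset A)
    (hneg : ∀ ξ, Perp lam W ξ → (form lam h ξ).re ≤ 0) : r * r = 0 := by
  set q := r * r with hrr
  have hrs : star r = r := hr.star_eq
  have hqs : star q = q := by rw [hrr, star_mul, hrs]
  have hsand : star q * h * q = star (r * q) * (r * q) := by
    rw [mul_assoc, show h * q = q * q by rw [hd, sub_mul, ho, sub_zero], hqs, star_mul, hrs, hqs]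
    calc q * (q * q) = q * ((r * r) * q) := by rw [hrr]
      _ = _ := by simp only [mul_assoc]
  have key : ∀ ξ, Perp lam W (act q ξ) → ∀ i, toFun lam (act q ξ i) = 0 := fun ξ hξ => by
    have h2 := hneg _ hξ
    rw [form, ipv_act, ← act_mul, ← act_mul, hsand, act_mul, ← ipv_act] at h2
    have h3 := toFun_eq_zero_of_ipv hpos h2
    have h4 : ∀ i, toFun lam (act q (act q ξ) i) = 0 := fun i => by
      rw [show act q (act q ξ) = act r (act (r * q) ξ) by
        rw [← act_mul, ← act_mul, show r * (r * q) = q * q from (mul_assoc r r q).symm],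
        show act r (act (r * q) ξ) i = ∑ j, r i j * act (r * q) ξ j from rfl, map_sum]
      exact Finset.sum_eq_zero fun j _ => by rw [← shiftFun_toFun, h3 j, map_zero]
    refine toFun_eq_zero_of_ipv hpos (le_of_eq ?_)
    rw [ipv_act, hqs, ipv, Complex.re_sum]
    refine Finset.sum_eq_zero fun i _ => ?_
    have := congrFun (h4 i) (ξ i)
    rw [toFun_apply] at this
    rw [this]; rfl
  let Q : (Fin k → A) →ₗ[ℂ] (Fin k → A → ℂ) :=
    { toFun := fun ξ i => toFun lam (act q ξ i)
      map_add' := fun ξ η => by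
        funext i
        simp [act, mul_add, Finset.sum_add_distrib]
      map_smul' := fun c ξ => by
        funext i
        simp [act, ← Finset.smul_sum] }
  let Λ : (Fin k → A → ℂ) →ₗ[ℂ] ({w // w ∈ W} × Fin k → ℂ) :=
    { toFun := fun f p => f p.2 p.1
      map_add' := fun _ _ => rfl
      map_smul' := fun _ _ => rfl }
  have hfin : FiniteDimensional ℂ (LinearMap.range Q) := by
    refine FiniteDimensional.of_injective (Λ ∘ₗ (LinearMap.range Q).subtype)
      ((injective_iff_map_eq_zero _).2 fun f hf => ?_)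
    obtain ⟨f, ξ, rfl⟩ := f
    refine Subtype.ext (funext fun i => key ξ (fun w hw j => ?_) i)
    exact congrFun hf (⟨w, hw⟩, j)
  ext i j
  refine eq_zero_of_finite_range hA h1 (Submodule.finiteDimensional_of_le
    (S₂ := (LinearMap.range Q).map (LinearMap.proj i)) ?_)
  rintro _ ⟨y, rfl⟩
  refine ⟨Q (Pi.single j y), ⟨_, rfl⟩, ?_⟩
  show toFun lam (act q (Pi.single j y) i) = toFun lam (q i j * y)
  congr 1
  simp [act, Pi.single_apply]

/-- A self-adjoint matrix of positive value is positive somewhere in every finite codimension. -/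
lemma exists_pos_form {σ : A →ₗ[ℂ] Matrix (Fin k) (Fin k) ℂ} (hσ : IsCPToMatrix σ)
    {h : CStarMatrix (Fin k) (Fin k) A} (hh : IsSelfAdjoint h)
    (hs : 0 < (∑ i, ∑ j, σ (h i j) i j).re) (W : Finset A) :
    ∃ ξ, Perp lam W ξ ∧ 0 < (form lam h ξ).re := by
  by_contra hneg
  push Not at hneg
  obtain ⟨r, s, hr, hsa, hd, ho⟩ := exists_parts h hh
  have hhs : h = -(star s * s) := by
    rw [hsa.star_eq, hd, posPart_eq_zero hA h1 hpos hr hd ho W hneg, zero_sub]
  have hcp : ∀ l : Fin k, (0 : ℂ) ≤ ∑ i, ∑ j, σ (star (s l i) * s l j) i j := fun l => by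
    have h0 := (hσ k fun p => s l p).dotProduct_mulVec_nonneg
      (fun p : Fin k × Fin k => if p.1 = p.2 then (1 : ℂ) else 0)
    simpa [dotProduct, Matrix.mulVec, Fintype.sum_prod_type, apply_ite] using h0
  have hsum : ∑ i, ∑ j, σ (h i j) i j = -(∑ l, ∑ i, ∑ j, σ (star (s l i) * s l j) i j) := by
    have hentry : ∀ i j, h i j = -(∑ l, star (s l i) * s l j) := fun i j => by
      rw [hhs]
      show -((star s * s) i j) = _
      simp [CStarMatrix.mul_apply, CStarMatrix.star_apply]
    simp only [hentry, map_neg, map_sum, Matrix.neg_apply, Matrix.sum_apply, Finset.sum_neg_distrib]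
    rw [neg_inj]
    exact (Finset.sum_congr rfl fun i _ => Finset.sum_comm).trans Finset.sum_comm
  rw [hsum, Complex.neg_re] at hs
  have h2 := (Complex.le_def.1 (Finset.sum_nonneg fun l (_ : l ∈ Finset.univ) => hcp l)).1
  simp only [Complex.zero_re] at h2
  linarith

end Simple

lemma star_map_of_cp {σ : A →ₗ[ℂ] Matrix (Fin k) (Fin k) ℂ} (hσ : IsCPToMatrix σ) (x : A)
    (i j : Fin k) : σ (star x) i j = conj (σ x j i) := by
  have h := (hσ 2 ![1, x]).isHermitian.apply (1, i) (0, j)
  simpa using h.symm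

section Values

variable [IsSimpleRing A] [PartialOrder A] [StarOrderedRing A]

/-- The values of the vectors orthogonal to `W`. -/
def valueSet (lam : A →ₗ[ℂ] ℂ) (s : Finset A) (k : ℕ) (W : Finset A) :
    Set ({x // x ∈ s} × Fin k × Fin k → ℂ) :=
  {v | ∃ ξ : Fin k → A, Perp lam W ξ ∧
    v = fun p => lam (star (ξ p.2.1) * p.1.1 * ξ p.2.2)}

/-- The values attained in every finite codimension. -/
def limitSet (lam : A →ₗ[ℂ] ℂ) (s : Finset A) (k : ℕ) : Set ({x // x ∈ s} × Fin k × Fin k → ℂ) :=
  ⋂ W : Finset A, closure (valueSet lam s k W)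

variable {lam : A →ₗ[ℂ] ℂ} (hpos : ∀ y, 0 ≤ lam (star y * y))
include hpos

omit [IsSimpleRing A] [PartialOrder A] [StarOrderedRing A] in
lemma convex_limitSet (s : Finset A) : Convex ℝ (limitSet lam s k) := by
  classical
  have hscale : ∀ p ∈ limitSet lam s k, ∀ t : ℝ, 0 ≤ t → t • p ∈ limitSet lam s k := by
    intro p hp t ht
    refine Set.mem_iInter.2 fun W => map_mem_closure (continuous_const_smul t)
      (Set.mem_iInter.1 hp W) ?_
    rintro _ ⟨ξ, hξ, rfl⟩
    refine ⟨fun i => (Real.sqrt t : ℂ) • ξ i, fun w hw i => by simp [hξ w hw i], ?_⟩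
    funext p
    simp only [Pi.smul_apply, star_smul, smul_mul_assoc, mul_smul_comm, map_smul, smul_eq_mul,
      Complex.star_def, Complex.conj_ofReal, Complex.real_smul, ← mul_assoc, ← Complex.ofReal_mul,
      Real.mul_self_sqrt ht]
  have hadd : ∀ p ∈ limitSet lam s k, ∀ q ∈ limitSet lam s k, p + q ∈ limitSet lam s k := by
    intro p hp q hq
    refine Set.mem_iInter.2 fun W => Metric.mem_closure_iff.2 fun ε hε => ?_
    obtain ⟨_, ⟨ξ, hξ, rfl⟩, h2⟩ :=
      Metric.mem_closure_iff.1 (Set.mem_iInter.1 hp W) (ε / 2) (half_pos hε)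
    set W' := W ∪ ((s ×ˢ (Finset.univ : Finset (Fin k))).image fun p => p.1 * ξ p.2) ∪
      ((s ×ˢ (Finset.univ : Finset (Fin k))).image fun p => star p.1 * ξ p.2)
    obtain ⟨_, ⟨η, hη, rfl⟩, h4⟩ :=
      Metric.mem_closure_iff.1 (Set.mem_iInter.1 hq W') (ε / 2) (half_pos hε)
    refine ⟨_, ⟨ξ + η, fun w hw i => ?_, rfl⟩, ?_⟩
    · have := hη w (Finset.mem_union_left _ (Finset.mem_union_left _ hw)) i
      simp [mul_add, hξ w hw i, this]
    refine lt_of_le_of_lt (le_of_eq (congrArg (dist _) ?_))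
      (lt_of_le_of_lt (dist_add_add_le _ _ _ _) (by linarith))
    funext z
    have hc1 : lam (star (ξ z.2.1) * z.1.1 * η z.2.2) = 0 := by
      have hm : star z.1.1 * ξ z.2.1 ∈ W' := Finset.mem_union_right _
        (Finset.mem_image.2 ⟨(z.1.1, z.2.1), Finset.mem_product.2 ⟨z.1.2, Finset.mem_univ _⟩, rfl⟩)
      simpa using hη _ hm z.2.2
    have hc2 : lam (star (η z.2.1) * z.1.1 * ξ z.2.2) = 0 := by
      have hm : z.1.1 * ξ z.2.2 ∈ W' := Finset.mem_union_left _ (Finset.mem_union_right _
        (Finset.mem_image.2 ⟨(z.1.1, z.2.2), Finset.mem_product.2 ⟨z.1.2, Finset.mem_univ _⟩, rfl⟩))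
      rw [mul_assoc, lam_swap hpos, hη _ hm z.2.1, map_zero]
    simp only [Pi.add_apply, star_add, add_mul, mul_add, map_add, hc1, hc2, add_zero, zero_add]
  intro p hp q hq a b ha hb _
  exact hadd _ (hscale p hp a ha) _ (hscale q hq b hb)

variable (hA : ¬ FiniteDimensional ℂ A) (h1 : lam 1 = 1)
include hA h1

lemma mem_limitSet {σ : A →ₗ[ℂ] Matrix (Fin k) (Fin k) ℂ} (hσ : IsCPToMatrix σ) (hσ1 : σ 1 = 1)
    (s : Finset A) : (fun p => σ p.1.1 p.2.1 p.2.2) ∈ limitSet lam s k := by
  classical
  by_contra hnot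
  have hcl : IsClosed (limitSet lam s k) := isClosed_iInter fun W => isClosed_closure
  obtain ⟨f, u, hfu, hfσ⟩ := geometric_hahn_banach_closed_point (convex_limitSet hpos s) hcl hnot
  have hzero : (0 : {x // x ∈ s} × Fin k × Fin k → ℂ) ∈ limitSet lam s k :=
    Set.mem_iInter.2 fun W => subset_closure ⟨0, fun w _ i => by simp, funext fun p => by simp⟩
  have hu : 0 < u := by simpa using hfu 0 hzero
  set c : {x // x ∈ s} × Fin k × Fin k → ℂ :=
    fun p => (f (Pi.single p 1) : ℂ) - Complex.I * (f (Pi.single p Complex.I) : ℂ) with hc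
  have hrep : ∀ v, f v = (∑ p, c p * v p).re := fun v => by
    conv_lhs => rw [show v = ∑ p, ((v p).re • (Pi.single p 1 : {x // x ∈ s} × Fin k × Fin k → ℂ)
        + (v p).im • (Pi.single p Complex.I : {x // x ∈ s} × Fin k × Fin k → ℂ)) from funext fun p' => by
      simp [Finset.sum_apply, Pi.single_apply, Complex.real_smul, Finset.sum_add_distrib,
        Complex.re_add_im]]
    rw [map_sum, Complex.re_sum]
    refine Finset.sum_congr rfl fun p _ => ?_
    simp [hc, Complex.mul_re]
    ring
  let a : CStarMatrix (Fin k) (Fin k) A :=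
    CStarMatrix.ofMatrix fun i j => ∑ x : {x // x ∈ s}, c (x, i, j) • x.1
  have ha : ∀ i j, a i j = ∑ x : {x // x ∈ s}, c (x, i, j) • x.1 := fun i j => rfl
  have hfξ : ∀ ξ : Fin k → A, f (fun p => lam (star (ξ p.2.1) * p.1.1 * ξ p.2.2)) =
      (form lam a ξ).re := fun ξ => by
    rw [hrep, form_eq]
    congr 1
    simp only [ha, Finset.mul_sum, Finset.sum_mul, mul_smul_comm, smul_mul_assoc, map_sum,
      map_smul, smul_eq_mul, Fintype.sum_prod_type]
    rw [Finset.sum_comm]
    exact Finset.sum_congr rfl fun i _ => Finset.sum_comm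
  set h : CStarMatrix (Fin k) (Fin k) A := (1 / 2 : ℂ) • (a + star a) with hhdef
  have hh : IsSelfAdjoint h :=
    IsSelfAdjoint.smul (by rw [isSelfAdjoint_iff]; simp) (IsSelfAdjoint.add_star_self a)
  have hform : ∀ ξ, (form lam h ξ).re = (form lam a ξ).re := fun ξ => by
    have : form lam h ξ = (1 / 2 : ℂ) * (form lam a ξ + form lam (star a) ξ) := by
      simp only [hhdef, form_eq, CStarMatrix.smul_apply, CStarMatrix.add_apply, mul_smul_comm,
        smul_mul_assoc, mul_add, add_mul, map_add, map_smul, smul_eq_mul, Finset.sum_add_distrib,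
        Finset.mul_sum]
    rw [this, form_star hpos]
    simp
    ring
  set S := fun M : CStarMatrix (Fin k) (Fin k) A => ∑ i, ∑ j, σ (M i j) i j with hS
  have hSa : (S a).re = f (fun p => σ p.1.1 p.2.1 p.2.2) := by
    rw [hrep, hS]
    congr 1
    simp only [ha, map_sum, map_smul, Matrix.sum_apply, Matrix.smul_apply, smul_eq_mul,
      Fintype.sum_prod_type]
    conv_rhs => rw [Finset.sum_comm]
    exact Finset.sum_congr rfl fun i _ => Finset.sum_comm
  have hSh : (S h).re = (S a).re := by
    have h2 : S (star a) = conj (S a) := by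
      simp only [hS, CStarMatrix.star_apply, star_map_of_cp hσ, map_sum]
      rw [Finset.sum_comm]
    have : S h = (1 / 2 : ℂ) * (S a + S (star a)) := by
      simp only [hS, hhdef, CStarMatrix.smul_apply, CStarMatrix.add_apply, map_add, map_smul,
        Matrix.smul_apply, Matrix.add_apply, smul_eq_mul, Finset.sum_add_distrib, Finset.mul_sum,
        mul_add]
    rw [this, h2]
    simp
    ring
  have hpos0 : 0 < (S h).re := by rw [hSh, hSa]; linarith
  set ε := (S h).re / (k + 1) with hεdef
  have hε : 0 < ε := by positivity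
  set g := h - (ε : ℂ) • (1 : CStarMatrix (Fin k) (Fin k) A) with hgdef
  have hg : IsSelfAdjoint g :=
    hh.sub (IsSelfAdjoint.smul (by rw [isSelfAdjoint_iff]; simp) (.one _))
  have hgS : 0 < (∑ i, ∑ j, σ (g i j) i j).re := by
    have : ∑ i, ∑ j, σ (g i j) i j = S h - (ε : ℂ) * k := by
      have hone : ∀ i j : Fin k, σ ((1 : CStarMatrix (Fin k) (Fin k) A) i j) i j =
          if i = j then 1 else 0 := fun i j => by
        rw [CStarMatrix.one_apply]
        split_ifs with hij <;> simp [hσ1, hij]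
      simp only [hS, hgdef, CStarMatrix.sub_apply, CStarMatrix.smul_apply, map_sub, map_smul,
        Matrix.sub_apply, Matrix.smul_apply, smul_eq_mul, hone, Finset.sum_sub_distrib,
        ← Finset.mul_sum]
      simp
    rw [this]
    simp only [Complex.sub_re, Complex.mul_re, Complex.ofReal_re, Complex.natCast_re,
      Complex.ofReal_im, Complex.natCast_im, mul_zero, sub_zero]
    rw [sub_pos, hεdef, div_mul_eq_mul_div, div_lt_iff₀ (by positivity)]
    nlinarith
  -- normalised values with large functional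
  let T : Finset A → Set ({x // x ∈ s} × Fin k × Fin k → ℂ) := fun W =>
    closure {v | ∃ ξ : Fin k → A, Perp lam W ξ ∧ (ipv lam ξ ξ).re = 1 ∧
      ε ≤ (form lam a ξ).re ∧ v = fun p => lam (star (ξ p.2.1) * p.1.1 * ξ p.2.2)}
  have hne : ∀ W, (T W).Nonempty := fun W => by
    obtain ⟨ξ, hξ, hfg⟩ := exists_pos_form hA h1 hpos hσ hg hgS W
    have hN : (form lam g ξ).re = (form lam a ξ).re - ε * (ipv lam ξ ξ).re := by
      have : form lam g ξ = form lam h ξ - (ε : ℂ) * ipv lam ξ ξ := by
        have hone : act (1 : CStarMatrix (Fin k) (Fin k) A) ξ = ξ := by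
          funext i
          simp [act, CStarMatrix.one_apply, ite_mul]
        rw [show ipv lam ξ ξ = form lam 1 ξ by rw [form, hone]]
        simp only [hgdef, form_eq, CStarMatrix.sub_apply, CStarMatrix.smul_apply, mul_sub, sub_mul,
          mul_smul_comm, smul_mul_assoc, map_sub, map_smul, smul_eq_mul, Finset.sum_sub_distrib,
          Finset.mul_sum]
      rw [this, Complex.sub_re, hform, Complex.re_ofReal_mul]
    have hN0 : 0 < (ipv lam ξ ξ).re := by
      refine (ipv_self_re hpos ξ).lt_of_ne fun h0 => ?_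
      have hz : form lam a ξ = 0 := by
        rw [form_eq]
        refine Finset.sum_eq_zero fun i _ => Finset.sum_eq_zero fun j _ => norm_le_zero_iff.1 ?_
        have := norm_coeff_le hpos (a i j) ξ i j
        rw [← h0, mul_zero] at this
        linarith
      rw [hN, hz, ← h0] at hfg
      simp at hfg
    set t := (Real.sqrt (ipv lam ξ ξ).re)⁻¹ with ht
    have htt : t * t = ((ipv lam ξ ξ).re)⁻¹ := by
      rw [ht, ← mul_inv, Real.mul_self_sqrt hN0.le]
    refine ⟨_, subset_closure ⟨fun i => (t : ℂ) • ξ i, fun w hw i => by simp [hξ w hw i], ?_, ?_,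
      rfl⟩⟩
    · simp only [ipv, star_smul, smul_mul_assoc, mul_smul_comm, map_smul, smul_eq_mul,
        Complex.star_def, Complex.conj_ofReal, ← mul_assoc, ← Complex.ofReal_mul, ← Finset.mul_sum,
        Complex.re_ofReal_mul, htt]
      exact inv_mul_cancel₀ hN0.ne'
    · simp only [form_eq, star_smul, smul_mul_assoc, mul_smul_comm, map_smul, smul_eq_mul,
        Complex.star_def, Complex.conj_ofReal, ← mul_assoc, ← Complex.ofReal_mul, ← Finset.mul_sum,
        Complex.re_ofReal_mul, htt]
      rw [← form_eq, inv_mul_eq_div, le_div_iff₀ hN0]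
      linarith
  have hcpt : ∀ W, IsCompact (T W) := fun W => by
    refine Metric.isCompact_of_isClosed_isBounded isClosed_closure (Bornology.IsBounded.closure ?_)
    refine (Metric.isBounded_closedBall (x := 0) (r := ∑ x ∈ s, (1 + ‖x‖ ^ 2))).subset ?_
    rintro _ ⟨ξ, -, hN, -, rfl⟩
    rw [mem_closedBall_zero_iff]
    refine (pi_norm_le_iff_of_nonneg (Finset.sum_nonneg fun x _ => by positivity)).2 fun p => ?_
    have h2 := norm_coeff_le hpos p.1.1 ξ p.2.1 p.2.2
    rw [hN, mul_one] at h2
    have h3 := Finset.single_le_sum (f := fun x : A => 1 + ‖x‖ ^ 2) (fun x _ => by positivity)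
      p.1.2
    linarith [norm_nonneg (lam (star (ξ p.2.1) * p.1.1 * ξ p.2.2))]
  have hmono : ∀ W W', W ⊆ W' → T W' ⊆ T W := fun W W' hW =>
    closure_mono fun v ⟨ξ, hξ, r⟩ => ⟨ξ, hξ.mono hW, r⟩
  obtain ⟨p, hp⟩ := IsCompact.nonempty_iInter_of_directed_nonempty_isCompact_isClosed T
    (fun W W' => ⟨W ∪ W', hmono _ _ Finset.subset_union_left, hmono _ _ Finset.subset_union_right⟩)
    hne hcpt fun W => isClosed_closure
  rw [Set.mem_iInter] at hp
  have hpC : p ∈ limitSet lam s k := Set.mem_iInter.2 fun W =>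
    closure_mono (by rintro v ⟨ξ, hξ, -, -, hv⟩; exact ⟨ξ, hξ, hv⟩) (hp W)
  have hfp : ε ≤ f p := by
    refine closure_minimal ?_ (isClosed_Ici.preimage f.continuous) (hp ∅)
    rintro _ ⟨ξ, -, -, hε', rfl⟩
    show ε ≤ f _
    rwa [hfξ]
  obtain ⟨N, hN⟩ := exists_nat_gt (u / ε)
  have hNp : (N : ℝ) • p ∈ limitSet lam s k := by
    have h0 := hzero
    refine Set.mem_iInter.2 fun W => map_mem_closure (continuous_const_smul (N : ℝ))
      (Set.mem_iInter.1 hpC W) ?_
    rintro _ ⟨ξ, hξ, rfl⟩
    refine ⟨fun i => (Real.sqrt N : ℂ) • ξ i, fun w hw i => by simp [hξ w hw i], ?_⟩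
    funext q
    simp only [Pi.smul_apply, star_smul, smul_mul_assoc, mul_smul_comm, map_smul, smul_eq_mul,
      Complex.star_def, Complex.conj_ofReal, Complex.real_smul, ← mul_assoc, ← Complex.ofReal_mul,
      Real.mul_self_sqrt N.cast_nonneg]
  have := hfu _ hNp
  rw [map_smul, smul_eq_mul] at this
  rw [div_lt_iff₀ hε] at hN
  nlinarith [N.cast_nonneg (α := ℝ)]

end Values

end Vec

open Vec in
/-- Vectors of the semi-inner product of a state which realise a completely positive map to
matrices on a finite set, with mutually orthogonal copies. -/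
theorem exists_vectors {A : Type} [CStarAlgebra A] [PartialOrder A] [StarOrderedRing A]
    [IsSimpleRing A] (hA : ¬ FiniteDimensional ℂ A) (lam : A →ₗ[ℂ] ℂ)
    (h1 : lam 1 = 1) (hpos : ∀ y, 0 ≤ lam (star y * y)) {k n : ℕ}
    (σ : A →ₗ[ℂ] Matrix (Fin k) (Fin k) ℂ) (hσ : IsCPToMatrix σ) (hσ1 : σ 1 = 1) (s : Finset A)
    {δ : ℝ} (hδ : 0 < δ) :
    ∃ d : Fin n → Fin k → A, ∀ x ∈ s, ∀ l i m j,
      ‖lam (star (d l i) * x * d m j) - (if l = m then σ x i j else 0)‖ < δ := by
  classical
  suffices H : ∀ n (W : Finset A), ∃ d : Fin n → Fin k → A, (∀ l, Perp lam W (d l)) ∧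
      ∀ x ∈ s, ∀ l i m j,
        ‖lam (star (d l i) * x * d m j) - (if l = m then σ x i j else 0)‖ < δ by
    obtain ⟨d, -, hd⟩ := H n ∅
    exact ⟨d, hd⟩
  intro n
  induction n with
  | zero => exact fun W => ⟨Fin.elim0, fun l => l.elim0, fun x _ l => l.elim0⟩
  | succ n ih =>
    intro W
    obtain ⟨_, ⟨ξ, hξ, rfl⟩, hd⟩ := Metric.mem_closure_iff.1
      (Set.mem_iInter.1 (mem_limitSet hpos hA h1 hσ hσ1 s) W) δ hδ
    obtain ⟨d, hdW, hdd⟩ := ih (W ∪
      ((s ×ˢ (Finset.univ : Finset (Fin k))).image fun p => p.1 * ξ p.2) ∪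
      ((s ×ˢ (Finset.univ : Finset (Fin k))).image fun p => star p.1 * ξ p.2))
    refine ⟨Fin.cons ξ d, ?_, ?_⟩
    · intro l
      induction l using Fin.cases with
      | zero => simpa using hξ
      | succ l =>
        intro w hw i
        simpa using hdW l w (Finset.mem_union_left _ (Finset.mem_union_left _ hw)) i
    intro x hx
    have hc1 : ∀ i m j, lam (star (ξ i) * x * d m j) = 0 := fun i m j => by
      simpa using hdW m (star x * ξ i) (Finset.mem_union_right _ (Finset.mem_image.2
        ⟨(x, i), Finset.mem_product.2 ⟨hx, Finset.mem_univ _⟩, rfl⟩)) j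
    have hc2 : ∀ i l j, lam (star (d l i) * x * ξ j) = 0 := fun i l j => by
      have := hdW l (x * ξ j) (Finset.mem_union_left _ (Finset.mem_union_right _
        (Finset.mem_image.2 ⟨(x, j), Finset.mem_product.2 ⟨hx, Finset.mem_univ _⟩, rfl⟩))) i
      rw [mul_assoc, lam_swap hpos, this, map_zero]
    intro l i m j
    induction l using Fin.cases <;> induction m using Fin.cases
    · simp only [Fin.cons_zero]
      rw [dist_pi_lt_iff hδ] at hd
      have := hd (⟨x, hx⟩, i, j)
      rwa [dist_comm, dist_eq_norm] at this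
    · rename_i m
      simp [hc1, (Fin.succ_ne_zero m).symm, hδ]
    · rename_i l
      simp [hc2, Fin.succ_ne_zero l, hδ]
    · rename_i l m
      simpa using hdd x hx l i m j

end Vale.Agent.P095.Lift
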