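import Vale.Agent.P095.Lift.SIMain
import Vale.Agent.P095.Lift.Compare
import Vale.Agent.P095.Lift.Excision
import Vale.Agent.P095.Lift.Vectors

/-!
# Small elements below large ones in the central sequence algebra

For a nonfinite dimensional simple nuclear algebra with comparison of cuts by traces, a null
positive contraction lies below every positive contraction whose powers are uniformly large.
-/

set_option linter.unusedSectionVars false
set_option synthInstance.maxHeartbeats 100000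

open Filter Topology TopologicalSpace
open Vale.Agent.P101 (CentralSeq NoCharacter)
open Vale.Agent.P095.Amenable (IsTrace Cong limTraces)
open scoped ComplexOrder

namespace Vale.Agent.P095.Lift

variable {A : Type} [CStarAlgebra A] [Nontrivial A] [SeparableSpace A] {ω : Ultrafilter ℕ}

section Compare

variable [PartialOrder A] [StarOrderedRing A]

/-- Comparison of cuts by traces, from the two packing consequences. -/
theorem hasCompare_of_packing (hω : (ω : Filter ℕ) ≤ cofinite) (h : NoCharacter A ω)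
    (hsmall : ∀ K : ℕ, ∀ ξ : ℝ, 0 < ξ → ∃ ε : ℝ, 0 < ε ∧ ∀ e : A, 0 ≤ e → e ≤ 1 →
      (∀ τ : A →ₗ[ℂ] ℂ, IsTrace τ → (τ e).re ≤ ε) →
        ∃ m : ℕ, 0 < m ∧ ∀ K' ≤ K, Sub (K' * m) (cfc (fun t : ℝ => max (t - ξ) 0) e) m 1)
    (hbig : ∀ c : ℝ, 0 < c → ∃ C : ℕ, ∀ b : A, 0 ≤ b → b ≤ 1 → b ≠ 0 →
      (∀ τ : A →ₗ[ℂ] ℂ, IsTrace τ → c ≤ (τ b).re) → ∃ m : ℕ, 0 < m ∧ Sub m 1 (C * m) b) :
    HasCompare A :=
  fun _ hc _ hξ => compare_of_packing hω h hsmall hbig hc hξ

end Compare

/-- Small elements lie below large ones, given comparison of cuts. -/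
theorem exists_si_of_compare [PartialOrder A] [StarOrderedRing A]
    (hω : (ω : Filter ℕ) ≤ cofinite) (h : NoCharacter A ω) (hA : IsNuclear A) [IsSimpleRing A]
    (hcmp : HasCompare A) (hT : ∃ τ : A →ₗ[ℂ] ℂ, IsTrace τ)
    [PartialOrder (CentralSeq A ω)] [StarOrderedRing (CentralSeq A ω)]
    {e f : CentralSeq A ω} (he0 : 0 ≤ e) (he1 : e ≤ 1) (hf0 : 0 ≤ f) (hf1 : f ≤ 1)
    (he : Cong (limTraces A ω) e 0) {c : ℝ} (hc : 0 < c)
    (hf : ∀ m : ℕ, ∀ τ ∈ limTraces A ω, c ≤ (τ (f ^ m)).re) :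
    ∃ s : CentralSeq A ω, f * s = s ∧ star s * s = e := by
  have hfd := not_finiteDimensional h
  obtain ⟨a, lam, ha, haa, h1, hpos, hlam⟩ := exists_excision (A := A) hfd
  exact exists_si_of hω hcmp hA hT a lam ha haa hlam
    (fun σ hσ hσ1 s δ hδ => exists_vectors hfd lam h1 hpos σ hσ hσ1 s hδ)
    he0 he1 hf0 hf1 he hc hf

end Vale.Agent.P095.Lift
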