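import Vale.Agent.P101.Fomega
import Vale.Agent.P101.Ideal
import Vale.Agent.P095.Amenable.Central
import Vale.Agent.P095.Lift.Defs

/-!
# Preparations for the lift of small elements below large ones

Representatives between zero and one, uniform bounds for traces along the ultrafilter, and some
functional calculus.
-/

set_option linter.unusedSectionVars false
set_option synthInstance.maxHeartbeats 100000

open Filter Topology TopologicalSpace
open Vale.Agent.P101 (CentralSeq Ultrapower BddSeq qmk qmk_eq_iff constSeq tendsto_norm_qmk)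
open Vale.Agent.P095.Amenable (IsTrace Cong limTraces tn exists_limTrace)
open scoped ComplexOrder

namespace Vale.Agent.P095.Lift

noncomputable section

variable {A : Type} [CStarAlgebra A] [Nontrivial A] {ω : Ultrafilter ℕ}

variable (A ω) in
/-- Constant sequences as a homomorphism into the ultrapower. -/
def cst : A →⋆ₐ[ℂ] Ultrapower A ω where
  toFun a := qmk ω (constSeq a)
  map_one' := by rw [← map_one (qmk ω)]; congr 1
  map_mul' a b := by rw [← map_mul]; congr 1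
  map_zero' := by rw [← map_zero (qmk ω)]; congr 1
  map_add' a b := by rw [← map_add]; congr 1
  commutes' r := by
    show qmk ω (constSeq (algebraMap ℂ A r)) = qmk ω (algebraMap ℂ (BddSeq A) r)
    congr 1
  map_star' a := by
    show qmk ω (constSeq (star a)) = star (qmk ω (constSeq a))
    rw [Vale.Agent.P101.star_qmk]
    congr 1

theorem cst_apply (a : A) : cst A ω a = qmk ω (constSeq a) := rfl

theorem norm_cst (a : A) : ‖cst A ω a‖ = ‖a‖ :=
  tendsto_nhds_unique (tendsto_norm_qmk ω (constSeq a)) tendsto_const_nhds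

theorem central_comm (z : CentralSeq A ω) (a : A) :
    Commute (z : Ultrapower A ω) (cst A ω a) :=
  Vale.Agent.P101.qmk_constSeq_comm z a

theorem qmk_eq_zero_of_eventually {x : BddSeq A}
    (h : ∀ ε : ℝ, 0 < ε → ∀ᶠ n in (ω : Filter ℕ), ‖x n‖ ≤ ε) : qmk ω x = 0 := by
  rw [← map_zero (qmk ω), qmk_eq_iff]
  refine Metric.tendsto_nhds.2 fun ε hε => ?_
  filter_upwards [h (ε / 2) (half_pos hε)] with n hn
  rw [Real.dist_0_eq_abs, abs_norm, BddSeq.zero_apply, sub_zero]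
  linarith

theorem norm_sub_of_qmk_eq {x y : BddSeq A} (h : qmk ω x = qmk ω y) {ε : ℝ} (hε : 0 < ε) :
    ∀ᶠ n in (ω : Filter ℕ), ‖x n - y n‖ ≤ ε :=
  ((qmk_eq_iff ω).1 h).eventually_le_const hε

section CentralOrder

variable [PartialOrder (CentralSeq A ω)] [StarOrderedRing (CentralSeq A ω)]

theorem coe_eq_star_mul_self {z : CentralSeq A ω} (hz : 0 ≤ z) :
    ∃ q : Ultrapower A ω, (z : Ultrapower A ω) = star q * q := by
  obtain ⟨q, rfl⟩ :=
    (CStarAlgebra.nonneg_iff_eq_star_mul_self (A := CentralSeq A ω) (a := z)).1 hz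
  exact ⟨(q : Ultrapower A ω), rfl⟩

theorem coe_mem_unit {z : CentralSeq A ω} (h0 : 0 ≤ z) (h1 : z ≤ 1) :
    (∃ q : Ultrapower A ω, (z : Ultrapower A ω) = star q * q) ∧
      ∃ q : Ultrapower A ω, 1 - (z : Ultrapower A ω) = star q * q :=
  ⟨coe_eq_star_mul_self h0, coe_eq_star_mul_self (sub_nonneg.2 h1)⟩

end CentralOrder

section Order

variable [PartialOrder (Ultrapower A ω)] [StarOrderedRing (Ultrapower A ω)]

theorem unit_of_eq {z : Ultrapower A ω} (h0 : ∃ q : Ultrapower A ω, z = star q * q)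
    (h1 : ∃ q : Ultrapower A ω, 1 - z = star q * q) : 0 ≤ z ∧ z ≤ 1 := by
  obtain ⟨p, hp⟩ := h0
  obtain ⟨q, hq⟩ := h1
  exact ⟨hp ▸ star_mul_self_nonneg p, sub_nonneg.1 (hq ▸ star_mul_self_nonneg q)⟩

variable [PartialOrder A] [StarOrderedRing A]

theorem exists_rep01 {z : Ultrapower A ω} (h0 : 0 ≤ z) (h1 : z ≤ 1) :
    ∃ x : BddSeq A, qmk ω x = z ∧ ∀ n, 0 ≤ x n ∧ x n ≤ 1 := by
  obtain ⟨w, rfl⟩ := CStarAlgebra.nonneg_iff_eq_star_mul_self.1 h0
  have hw : ‖w‖ ≤ 1 := by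
    have := (CStarAlgebra.norm_le_one_iff_of_nonneg _ h0).2 h1
    rw [CStarRing.norm_star_mul_self] at this
    nlinarith [norm_nonneg w]
  obtain ⟨y, rfl⟩ := Ideal.Quotient.mk_surjective w
  have hb : ∀ n, ‖(max 1 ‖y n‖)⁻¹ • y n‖ ≤ 1 := fun n => by
    rw [norm_smul, norm_inv, Real.norm_of_nonneg (le_max_of_le_left zero_le_one),
      inv_mul_le_iff₀ (lt_max_of_lt_left one_pos), mul_one]
    exact le_max_right _ _
  set v : BddSeq A := BddSeq.mk (fun n => (max 1 ‖y n‖)⁻¹ • y n) 1 hb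
  refine ⟨star v * v, ?_, fun n => ⟨star_mul_self_nonneg (v n), ?_⟩⟩
  · have e : qmk ω v = qmk ω y := by
      refine (qmk_eq_iff ω).2 ?_
      have ht : Tendsto (fun n => max 1 ‖y n‖ - 1) ω (𝓝 0) := by
        have := ((tendsto_const_nhds (x := (1 : ℝ))).max (tendsto_norm_qmk ω y)).sub
          (tendsto_const_nhds (x := (1 : ℝ)))
        rwa [max_eq_left hw, sub_self] at this
      refine squeeze_zero (fun _ => norm_nonneg _) (fun n => ?_) ht
      show ‖(max 1 ‖y n‖)⁻¹ • y n - y n‖ ≤ _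
      set M := max 1 ‖y n‖
      have h1M : 1 ≤ M := le_max_left _ _
      rw [show M⁻¹ • y n - y n = (M⁻¹ - 1) • y n by rw [sub_smul, one_smul], norm_smul,
        Real.norm_of_nonpos (sub_nonpos.2 (inv_le_one_of_one_le₀ h1M))]
      calc -(M⁻¹ - 1) * ‖y n‖ ≤ -(M⁻¹ - 1) * M :=
            mul_le_mul_of_nonneg_left (le_max_right _ _)
              (neg_nonneg.2 (sub_nonpos.2 (inv_le_one_of_one_le₀ h1M)))
        _ = M - 1 := by rw [neg_sub, sub_mul, one_mul, inv_mul_cancel₀ (by linarith)]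
    rw [map_mul, ← Vale.Agent.P101.star_qmk, e]
  · show star (v n) * v n ≤ 1
    refine (CStarAlgebra.norm_le_one_iff_of_nonneg _ (star_mul_self_nonneg _)).1 ?_
    rw [CStarRing.norm_star_mul_self]
    exact mul_le_one₀ (hb n) (norm_nonneg _) (hb n)

end Order

section Traces

theorem eventually_re_le (hT : ∃ τ : A →ₗ[ℂ] ℂ, IsTrace τ) {z : CentralSeq A ω} {x : BddSeq A}
    (hx : qmk ω x = (z : Ultrapower A ω)) {b b' : ℝ}
    (h : ∀ τ ∈ limTraces A ω, (τ z).re ≤ b) (hb : b < b') :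
    ∀ᶠ n in (ω : Filter ℕ), ∀ σ : A →ₗ[ℂ] ℂ, IsTrace σ → (σ (x n)).re ≤ b' := by
  classical
  by_contra hne
  have hne' := Ultrafilter.eventually_not.2 hne
  obtain ⟨t, ht⟩ := hT
  let σ : ℕ → (A →ₗ[ℂ] ℂ) := fun n =>
    if h : ∃ s : A →ₗ[ℂ] ℂ, IsTrace s ∧ b' ≤ (s (x n)).re then h.choose else t
  have hσ : ∀ n, IsTrace (σ n) := fun n => by
    simp only [σ]
    split_ifs with h
    · exact h.choose_spec.1
    · exact ht
  obtain ⟨τ, hτ⟩ := exists_limTrace (ω := ω) hσ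
  have hlim := (Complex.continuous_re.tendsto _).comp (hτ z x hx)
  have : b' ≤ (τ z).re := by
    refine ge_of_tendsto hlim ?_
    filter_upwards [hne'] with n hn
    push Not at hn
    obtain ⟨s, hs, hs'⟩ := hn
    have hex : ∃ s : A →ₗ[ℂ] ℂ, IsTrace s ∧ b' ≤ (s (x n)).re := ⟨s, hs, hs'.le⟩
    simp only [Function.comp_apply, σ, dif_pos hex]
    exact hex.choose_spec.2
  linarith [h τ ⟨σ, hσ, hτ⟩]

theorem eventually_null (hT : ∃ τ : A →ₗ[ℂ] ℂ, IsTrace τ) {z : CentralSeq A ω} {x : BddSeq A}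
    (hx : qmk ω x = (z : Ultrapower A ω)) (hz : Cong (limTraces A ω) z 0) {ε : ℝ} (hε : 0 < ε) :
    ∀ᶠ n in (ω : Filter ℕ), ∀ σ : A →ₗ[ℂ] ℂ, IsTrace σ → (σ (x n)).re ≤ ε := by
  have h : ∀ τ ∈ limTraces A ω, (τ (star z * z)).re ≤ 0 := fun τ hτ => by
    have := hz τ hτ
    rw [sub_zero] at this
    exact Real.sqrt_eq_zero'.1 this
  have hxx : qmk ω (star x * x) = ((star z * z : CentralSeq A ω) : Ultrapower A ω) := by
    rw [map_mul, ← Vale.Agent.P101.star_qmk, hx]; rfl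
  filter_upwards [eventually_re_le hT hxx h (pow_pos hε 2)] with n hn σ hσ
  refine le_trans ((Complex.re_le_norm _).trans (hσ.norm_le_tn _)) ?_
  exact Real.sqrt_le_iff.2 ⟨hε.le, hn σ hσ⟩

theorem eventually_pow_le (hT : ∃ τ : A →ₗ[ℂ] ℂ, IsTrace τ) {z : CentralSeq A ω} {x : BddSeq A}
    (hx : qmk ω x = (z : Ultrapower A ω)) {c : ℝ} (hc : 0 < c)
    (hz : ∀ m : ℕ, ∀ τ ∈ limTraces A ω, c ≤ (τ (z ^ m)).re) (M : ℕ) :
    ∀ᶠ n in (ω : Filter ℕ), ∀ σ : A →ₗ[ℂ] ℂ, IsTrace σ → c / 2 ≤ (σ ((x ^ M) n)).re := by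
  have hxM : qmk ω (-(x ^ M)) = ((-(z ^ M) : CentralSeq A ω) : Ultrapower A ω) := by
    rw [map_neg, map_pow, hx]
    rfl
  have h : ∀ τ ∈ limTraces A ω, (τ (-(z ^ M))).re ≤ -c := fun τ hτ => by
    rw [map_neg, Complex.neg_re]
    linarith [hz M τ hτ]
  filter_upwards [eventually_re_le hT hxM h (show -c < -(c / 2) by linarith)] with n hn σ hσ
  have := hn σ hσ
  rw [show (-(x ^ M)) n = -((x ^ M) n) from rfl, map_neg, Complex.neg_re] at this
  linarith

end Traces

theorem seq_pow_apply (x : BddSeq A) (M : ℕ) (n : ℕ) : (x ^ M) n = x n ^ M := by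
  induction M with
  | zero => rw [pow_zero, pow_zero]; rfl
  | succ M ih =>
    rw [pow_succ, pow_succ, ← ih]
    rfl

/-- A simple unital algebra writes the unit as a sum of conjugates of a nonzero square. -/
theorem exists_sum_conj_eq_one [IsSimpleRing A] [PartialOrder A] [StarOrderedRing A] {v : A}
    (hv : v ≠ 0) : ∃ (n : ℕ) (b : Fin n → A), ∑ i, star (b i) * (star v * v) * b i = 1 := by
  have h1 : (1 : A) ∈ TwoSidedIdeal.span ({v} : Set A) := by
    rcases IsSimpleOrder.eq_bot_or_eq_top (TwoSidedIdeal.span ({v} : Set A)) with h | h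
    · have hm : v ∈ TwoSidedIdeal.span ({v} : Set A) :=
        TwoSidedIdeal.subset_span (Set.mem_singleton v)
      rw [h] at hm
      exact absurd ((TwoSidedIdeal.mem_bot _).1 hm) hv
    · rw [h]; trivial
  obtain ⟨n, a, g, b, hg, hs⟩ := Vale.Agent.P101.exists_sum_of_mem_closure h1
  refine ⟨n, Vale.Agent.P101.exists_sum_eq_one a b v ?_⟩
  rw [← hs]
  exact Finset.sum_congr rfl fun i _ => by rw [Set.mem_singleton_iff.1 (hg i)]

section Calculus

theorem pow_le_cut {t : ℝ} (h0 : 0 ≤ t) (h1 : t ≤ 1) (p : ℕ) :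
    t ^ p ≤ (1 / 4 : ℝ) ^ p + p * max (t - 1 / 4) 0 := by
  induction p with
  | zero => simp
  | succ p ih =>
    rcases le_total t (1 / 4) with h | h
    · have := pow_le_pow_left₀ h0 h (p + 1)
      have : (0 : ℝ) ≤ ((p + 1 : ℕ) : ℝ) * max (t - 1 / 4) 0 := by positivity
      linarith
    · rw [max_eq_left (sub_nonneg.2 h)] at ih ⊢
      have h2 : (1 / 4 : ℝ) ^ p ≤ 1 := pow_le_one₀ (by norm_num) (by norm_num)
      have h3 : t ^ (p + 1) ≤ (1 / 4 : ℝ) ^ p * t + p * (t - 1 / 4) * t := by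
        rw [pow_succ]
        nlinarith [mul_le_mul_of_nonneg_right ih h0]
      have h4 : (p : ℝ) * (t - 1 / 4) * t ≤ p * (t - 1 / 4) :=
        mul_le_of_le_one_right (mul_nonneg (Nat.cast_nonneg _) (sub_nonneg.2 h)) h1
      rw [pow_succ, pow_succ] at *
      push_cast
      nlinarith [mul_le_mul_of_nonneg_right h2 (sub_nonneg.2 h)]

variable [PartialOrder A] [StarOrderedRing A]

theorem trace_pow_le_cut {σ : A →ₗ[ℂ] ℂ} (hσ : IsTrace σ) {x : A} (h0 : 0 ≤ x) (h1 : x ≤ 1)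
    (p : ℕ) : (σ (x ^ p)).re
      ≤ (1 / 4 : ℝ) ^ p + p * (σ (cfc (fun t : ℝ => max (t - 1 / 4) 0) x)).re := by
  have hx : IsSelfAdjoint x := .of_nonneg h0
  have hle : x ^ p ≤ algebraMap ℝ A ((1 / 4 : ℝ) ^ p)
      + (p : ℝ) • cfc (fun t : ℝ => max (t - 1 / 4) 0) x := by
    rw [← cfc_pow_id (R := ℝ) x p, ← cfc_const_mul (p : ℝ) _ x (by fun_prop),
      ← cfc_const_add ((1 / 4 : ℝ) ^ p) _ x (by fun_prop)]
    refine cfc_mono fun t ht => pow_le_cut (spectrum_nonneg_of_nonneg h0 ht) ?_ p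
    exact (CFC.le_one_iff (R := ℝ) x).1 h1 t ht
  have := hσ.mono hle
  rwa [map_add, Complex.add_re, hσ.map_algebraMap, Complex.ofReal_re, ← Complex.coe_smul,
    map_smul, smul_eq_mul, Complex.re_ofReal_mul] at this

/-- A conjugation of the cut is a bounded conjugation of the element. -/
theorem exists_conj_bounded {x e R : A} (h0 : 0 ≤ x) (he : ‖e‖ ≤ 1)
    (hR : ‖star R * cfc (fun t : ℝ => max (t - 1 / 4) 0) x * R - e‖ ≤ 1) :
    ∃ t : A, ‖t‖ ≤ 3 ∧
      star t * x * t = star R * cfc (fun t : ℝ => max (t - 1 / 4) 0) x * R := by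
  set h : ℝ → ℝ := fun t => max (t - 1 / 4) 0 with hh
  set φ : ℝ → ℝ := fun t => Real.sqrt (h t) / Real.sqrt (max t (1 / 4)) with hφ
  have hφc : Continuous φ := by
    refine Continuous.div (by fun_prop) (by fun_prop) fun t => ?_
    exact (Real.sqrt_pos.2 (lt_max_of_lt_right (by norm_num))).ne'
  have hhc : Continuous h := by fun_prop
  have hsq : ∀ t, φ t * φ t = h t / max t (1 / 4) := fun t => by
    rw [hφ]
    simp only
    rw [div_mul_div_comm, Real.mul_self_sqrt (le_max_right _ _),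
      Real.mul_self_sqrt (le_max_of_le_right (by norm_num))]
  have hmid : ∀ t, φ t * t * φ t = h t := fun t => by
    rw [mul_right_comm, hsq]
    rcases le_total t (1 / 4) with ht | ht
    · rw [hh]; simp only [max_eq_right (sub_nonpos.2 ht), zero_div, zero_mul]
    · rw [max_eq_left ht, div_mul_cancel₀]
      linarith
  have hsa : IsSelfAdjoint (cfc φ x) := IsSelfAdjoint.cfc
  have hxsa : IsSelfAdjoint x := .of_nonneg h0
  have e1 : cfc φ x * x * cfc φ x = cfc h x := by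
    conv_lhs => enter [1, 2]; rw [← cfc_id' ℝ x]
    rw [← cfc_mul _ _ x hφc.continuousOn (by fun_prop),
      ← cfc_mul _ _ x (by fun_prop) hφc.continuousOn]
    exact cfc_congr fun t _ => hmid t
  refine ⟨cfc φ x * R, ?_, ?_⟩
  · have hle : cfc φ x * cfc φ x ≤ (4 : ℝ) • cfc h x := by
      rw [← cfc_mul _ _ x hφc.continuousOn hφc.continuousOn, ← cfc_const_mul _ _ x hhc.continuousOn]
      refine cfc_mono (fun t _ => ?_)
      rw [hsq, div_le_iff₀ (lt_max_of_lt_right (by norm_num))]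
      have : (0 : ℝ) ≤ h t := le_max_right _ _
      have : (1 / 4 : ℝ) ≤ max t (1 / 4) := le_max_right _ _
      nlinarith
    have hle' := star_left_conjugate_le_conjugate hle R
    have e2 : star (cfc φ x * R) * (cfc φ x * R) = star R * (cfc φ x * cfc φ x) * R := by
      rw [star_mul, hsa.star_eq]; simp only [mul_assoc]
    have h2 := CStarAlgebra.norm_le_norm_of_nonneg_of_le
      (star_mul_self_nonneg (cfc φ x * R)) (e2 ▸ hle')
    rw [CStarRing.norm_star_mul_self, mul_smul_comm, smul_mul_assoc, norm_smul,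
      Real.norm_of_nonneg (by norm_num)] at h2
    have h3 : ‖star R * cfc h x * R‖ ≤ 2 := by
      have := norm_le_norm_add_norm_sub' (star R * cfc h x * R) e
      linarith
    nlinarith [norm_nonneg (cfc φ x * R)]
  · rw [star_mul, hsa.star_eq, ← e1]
    simp only [mul_assoc]

theorem norm_pow_succ_sub_le {x : A} (h0 : 0 ≤ x) (h1 : x ≤ 1) (m : ℕ) :
    ‖x ^ (m + 1) - x ^ m‖ ≤ 1 / ((m : ℝ) + 1) := by
  have hx : IsSelfAdjoint x := .of_nonneg h0
  rw [← cfc_pow_id (R := ℝ) x (m + 1), ← cfc_pow_id (R := ℝ) x m,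
    ← cfc_sub _ _ x (by fun_prop) (by fun_prop)]
  refine norm_cfc_le (by positivity) fun t ht => ?_
  have t0 : 0 ≤ t := spectrum_nonneg_of_nonneg h0 ht
  have t1 : t ≤ 1 := (CFC.le_one_iff (R := ℝ) x).1 h1 t ht
  rw [Real.norm_eq_abs, abs_of_nonpos (sub_nonpos.2 (pow_le_pow_of_le_one t0 t1 (by omega))),
    le_div_iff₀ (by positivity)]
  have hsum : (∑ i ∈ Finset.range (m + 1), t ^ i) * (1 - t) ≤ 1 := by
    have := geom_sum_mul_neg t (m + 1)
    rw [this]
    linarith [pow_nonneg t0 (m + 1)]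
  have hlow : ((m : ℝ) + 1) * t ^ m ≤ ∑ i ∈ Finset.range (m + 1), t ^ i := by
    calc ((m : ℝ) + 1) * t ^ m = ∑ _i ∈ Finset.range (m + 1), t ^ m := by simp
      _ ≤ _ := Finset.sum_le_sum fun i hi =>
          pow_le_pow_of_le_one t0 t1 (Nat.lt_succ_iff.1 (Finset.mem_range.1 hi))
  calc -(t ^ (m + 1) - t ^ m) * ((m : ℝ) + 1) = (((m : ℝ) + 1) * t ^ m) * (1 - t) := by ring
    _ ≤ (∑ i ∈ Finset.range (m + 1), t ^ i) * (1 - t) :=
        mul_le_mul_of_nonneg_right hlow (sub_nonneg.2 t1)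
    _ ≤ 1 := hsum

end Calculus

end

end Vale.Agent.P095.Lift
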