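import Vale.Agent.P095.Lift.SIBasic

/-!
# Small elements below large ones, from comparison and excision

The comparison property, the excision sequence and the vectors are taken as arguments.
-/

set_option linter.unusedSectionVars false
set_option synthInstance.maxHeartbeats 100000

open Filter Topology TopologicalSpace
open Vale.Agent.P101 (CentralSeq Ultrapower BddSeq qmk qmk_eq_iff constSeq tendsto_norm_qmk)
open Vale.Agent.P095.Amenable (IsTrace Cong limTraces tn)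
open scoped ComplexOrder Matrix.Norms.L2Operator

namespace Vale.Agent.P095.Lift

noncomputable section

variable {A : Type} [CStarAlgebra A] [Nontrivial A] [PartialOrder A] [StarOrderedRing A]
  {ω : Ultrafilter ℕ}

/-- Small traces and large traces give comparison of cuts. -/
def HasCompare (A : Type) [CStarAlgebra A] [PartialOrder A] [StarOrderedRing A] : Prop :=
  ∀ c : ℝ, 0 < c → ∀ ξ : ℝ, 0 < ξ → ∃ ε : ℝ, 0 < ε ∧ ∀ e b : A, 0 ≤ e → e ≤ 1 → 0 ≤ b →
    b ≤ 1 → b ≠ 0 → (∀ τ : A →ₗ[ℂ] ℂ, IsTrace τ → (τ e).re ≤ ε ∧ c ≤ (τ b).re) →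
      Sub 1 (cfc (fun t : ℝ => max (t - ξ) 0) e) 1 b

/-- A cut is near the element. -/
theorem norm_cut_sub_le {x : A} (hx : 0 ≤ x) {ξ : ℝ} (hξ : 0 ≤ ξ) :
    ‖cfc (fun t : ℝ => max (t - ξ) 0) x - x‖ ≤ ξ := by
  conv_lhs => enter [1, 2]; rw [← cfc_id' ℝ x (IsSelfAdjoint.of_nonneg hx)]
  rw [← cfc_sub _ _ x (by fun_prop) (by fun_prop)]
  refine norm_cfc_le hξ fun t ht => ?_
  have t0 : 0 ≤ t := spectrum_nonneg_of_nonneg hx ht
  rw [Real.norm_eq_abs, abs_le]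
  rcases le_total t ξ with h | h
  · rw [max_eq_right (by linarith)]; constructor <;> linarith
  · rw [max_eq_left (by linarith)]; constructor <;> linarith

theorem mul_pow_of_semi {R : Type*} [Monoid R] {u X G : R} (hX : u * X = G * u)
    (hG : Commute G u) (q : ℕ) : u * X ^ q = u * G ^ q := by
  induction q with
  | zero => rw [pow_zero, pow_zero]
  | succ q ih =>
    rw [pow_succ, pow_succ, ← mul_assoc, ih, ← (hG.pow_left q).eq, mul_assoc, hX, hG.eq,
      ← mul_assoc, (hG.pow_left q).eq, mul_assoc]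

/-- The trace of a power of the middle element is bounded below. -/
theorem eventually_trace_middle [IsSimpleRing A] {a a0 : A} (ha0 : a0 ≠ 0)
    (ha01 : ‖a0‖ ≤ 1) (haa : a0 * a = a0) {f : CentralSeq A ω} {xf : BddSeq A}
    (hxf : qmk ω xf = (f : Ultrapower A ω)) (hfs : ∀ n, IsSelfAdjoint (xf n)) {c : ℝ} (hc : 0 < c)
    (hf : ∀ M : ℕ, ∀ᶠ n in (ω : Filter ℕ), ∀ σ : A →ₗ[ℂ] ℂ, IsTrace σ →
      c ≤ (σ ((xf ^ M) n)).re) :
    ∃ κ : ℝ, 0 < κ ∧ ∀ m q : ℕ, ∀ᶠ n in (ω : Filter ℕ), ∀ σ : A →ₗ[ℂ] ℂ, IsTrace σ →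
      κ ≤ tn σ ((a * (xf ^ (2 * m)) n * a) ^ q) := by
  obtain ⟨N, b, hb⟩ := exists_sum_conj_eq_one ha0
  set K : ℝ := 1 + ∑ j, ‖b j‖ with hK
  have hsum0 : 0 ≤ ∑ j, ‖b j‖ := Finset.sum_nonneg fun _ _ => norm_nonneg _
  have hK0 : 0 < K := by linarith
  have hbK : ∀ j, ‖b j‖ ≤ K := fun j => by
    have := Finset.single_le_sum (fun l _ => norm_nonneg (b l)) (Finset.mem_univ j)
    linarith
  set κ : ℝ := Real.sqrt (c / ((N : ℝ) + 1)) / (4 * K) with hκ
  have hκ0 : 0 < κ := div_pos (Real.sqrt_pos.2 (by positivity)) (by positivity)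
  refine ⟨κ, hκ0, fun m q => ?_⟩
  set g : BddSeq A := xf ^ (2 * m * q) with hg
  have hgq : qmk ω g = (f : Ultrapower A ω) ^ (2 * m * q) := by rw [hg, map_pow, hxf]
  have hcomm : ∀ j, ∀ᶠ n in (ω : Filter ℕ), ‖b j * g n - g n * b j‖ ≤ K * κ := fun j => by
    have e : qmk ω (constSeq (b j) * g) = qmk ω (g * constSeq (b j)) := by
      rw [map_mul, map_mul, hgq]
      exact ((central_comm f (b j)).pow_left _).eq.symm
    exact norm_sub_of_qmk_eq e (mul_pos hK0 hκ0)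
  have hX : ∀ᶠ n in (ω : Filter ℕ),
      ‖a0 * (a * (xf ^ (2 * m)) n * a) ^ q - a0 * g n‖ ≤ κ := by
    set X : BddSeq A := constSeq a * xf ^ (2 * m) * constSeq a
    have e : qmk ω (constSeq a0 * X ^ q) = qmk ω (constSeq a0 * g) := by
      rw [map_mul, map_mul, map_pow, hgq, ← cst_apply, map_mul, map_mul, map_pow, hxf, ← cst_apply]
      set F := (f : Ultrapower A ω)
      have hF : ∀ (k : ℕ) (y : A), Commute (F ^ k) (cst A ω y) := fun k y =>
        (central_comm f y).pow_left k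
      have h0 : cst A ω a0 * cst A ω a = cst A ω a0 := by rw [← map_mul, haa]
      have hone : cst A ω a0 * (cst A ω a * F ^ (2 * m) * cst A ω a)
          = F ^ (2 * m) * cst A ω a0 := by
        rw [← mul_assoc, ← mul_assoc, h0, ← (hF _ a0).eq, mul_assoc, h0]
      rw [pow_mul F (2 * m) q]
      exact mul_pow_of_semi hone (hF _ a0) q
    filter_upwards [norm_sub_of_qmk_eq e hκ0] with n hn
    rw [show (constSeq a0 * X ^ q) n = a0 * (X ^ q) n from rfl, seq_pow_apply,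
      show (constSeq a0 * g) n = a0 * g n from rfl] at hn
    exact hn
  filter_upwards [eventually_all.2 hcomm, hX, hf (2 * (2 * m * q))] with n hn hXn hfn σ hσ
  set G := g n with hGdef
  have hGs : IsSelfAdjoint G := by
    rw [hGdef, hg, seq_pow_apply]
    exact (hfs n).pow _
  have hGG : (xf ^ (2 * (2 * m * q))) n = star G * G := by
    rw [hGs.star_eq, hGdef, hg, two_mul, pow_add]
    rfl
  have hc2 : c ≤ (σ (star G * G)).re := hGG ▸ hfn σ hσ
  have hdec : (σ (star G * G)).re = ∑ j, tn σ (a0 * b j * G) ^ 2 := by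
    simp only [hσ.tn_sq]
    rw [← Complex.re_sum, ← map_sum]
    conv_lhs => rw [show star G * G = star G * (∑ j, star (b j) * (star a0 * a0) * b j) * G by
      rw [hb, mul_one]]
    rw [Finset.mul_sum, Finset.sum_mul]
    simp only [star_mul, mul_assoc]
  have ht := hσ.tn_nonneg (a0 * G)
  have hj : ∀ j, tn σ (a0 * b j * G) ≤ K * (tn σ (a0 * G) + κ) := fun j => by
    have e : a0 * b j * G = a0 * G * b j + a0 * (b j * G - G * b j) := by
      rw [mul_sub, mul_assoc, mul_assoc]; abel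
    rw [e]
    refine (hσ.tn_add_le _ _).trans ?_
    have h1 := hσ.tn_mul_le_right (a0 * G) (b j)
    have h2 : tn σ (a0 * (b j * G - G * b j)) ≤ K * κ :=
      (hσ.tn_le_norm _).trans ((norm_mul_le _ _).trans
        ((mul_le_of_le_one_left (norm_nonneg _) ha01).trans (hn j)))
    nlinarith [mul_le_mul_of_nonneg_left (hbK j) ht]
  have hle : c ≤ ((N : ℝ) + 1) * (K * (tn σ (a0 * G) + κ)) ^ 2 := by
    refine (hc2.trans_eq hdec).trans ((Finset.sum_le_sum fun j _ =>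
      pow_le_pow_left₀ (hσ.tn_nonneg _) (hj j) 2).trans ?_)
    rw [Finset.sum_const, Finset.card_univ, Fintype.card_fin, nsmul_eq_mul]
    exact mul_le_mul_of_nonneg_right (le_add_of_nonneg_right zero_le_one) (sq_nonneg _)
  have hbig : Real.sqrt (c / ((N : ℝ) + 1)) ≤ K * (tn σ (a0 * G) + κ) := by
    refine Real.sqrt_le_iff.2 ⟨mul_nonneg hK0.le (by linarith), ?_⟩
    rw [div_le_iff₀ (by positivity)]
    linarith
  have hs : Real.sqrt (c / ((N : ℝ) + 1)) = κ * (4 * K) := by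
    rw [hκ, div_mul_cancel₀]; positivity
  have h3 : 3 * κ ≤ tn σ (a0 * G) := by
    refine le_of_mul_le_mul_left ?_ hK0
    nlinarith
  set Xn := (a * (xf ^ (2 * m)) n * a) ^ q
  have h4 : tn σ (a0 * G) ≤ tn σ (a0 * Xn) + κ := by
    calc tn σ (a0 * G) = tn σ (a0 * Xn - (a0 * Xn - a0 * G)) := by rw [sub_sub_cancel]
      _ ≤ tn σ (a0 * Xn) + tn σ (a0 * Xn - a0 * G) := hσ.tn_sub_le _ _
      _ ≤ _ := add_le_add le_rfl ((hσ.tn_le_norm _).trans hXn)
  have h5 : tn σ (a0 * Xn) ≤ tn σ Xn :=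
    (hσ.tn_mul_le_left a0 Xn).trans (mul_le_of_le_one_left (hσ.tn_nonneg _) ha01)
  linarith

/-- The small element lies below the middle element, by a bounded element. -/
theorem exists_below (hω : (ω : Filter ℕ) ≤ cofinite) (hcmp : HasCompare A) [IsSimpleRing A]
    (hT : ∃ τ : A →ₗ[ℂ] ℂ, IsTrace τ) {a a0 : A} (ha : IsSelfAdjoint a) (ha1 : ‖a‖ ≤ 1)
    (ha0 : a0 ≠ 0) (ha01 : ‖a0‖ ≤ 1) (haa : a0 * a = a0)
    {e f : CentralSeq A ω} {xe xf : BddSeq A} (hxe : qmk ω xe = (e : Ultrapower A ω))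
    (hxe1 : ∀ n, 0 ≤ xe n ∧ xe n ≤ 1) (hxf : qmk ω xf = (f : Ultrapower A ω))
    (hxf1 : ∀ n, 0 ≤ xf n ∧ xf n ≤ 1)
    (he : ∀ ε : ℝ, 0 < ε → ∀ᶠ n in (ω : Filter ℕ), ∀ σ : A →ₗ[ℂ] ℂ, IsTrace σ →
      (σ (xe n)).re ≤ ε)
    {c : ℝ} (hc : 0 < c)
    (hf : ∀ M : ℕ, ∀ᶠ n in (ω : Filter ℕ), ∀ σ : A →ₗ[ℂ] ℂ, IsTrace σ →
      c ≤ (σ ((xf ^ M) n)).re) (m : ℕ) :
    ∃ T : Ultrapower A ω, ‖T‖ ≤ 3 ∧
      star T * (cst A ω a * (f : Ultrapower A ω) ^ (2 * m) * cst A ω a) * T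
        = (e : Ultrapower A ω) := by
  classical
  obtain ⟨κ, hκ, hmid⟩ :=
    eventually_trace_middle ha0 ha01 haa hxf (fun n => .of_nonneg (hxf1 n).1) hc hf
  obtain ⟨q, hq⟩ := exists_pow_lt_of_lt_one (show 0 < κ ^ 2 / 2 by positivity)
    (show (1 / 4 : ℝ) < 1 by norm_num)
  set p : ℕ := 2 * (q + 1) with hp
  have hp4 : (1 / 4 : ℝ) ^ p < κ ^ 2 / 2 :=
    (pow_le_pow_of_le_one (by norm_num) (by norm_num) (show q ≤ p by omega)).trans_lt hq
  have hp0 : (0 : ℝ) < p := by exact_mod_cast (show 0 < p by omega)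
  set c' : ℝ := κ ^ 2 / 2 / p with hc'
  have hc'0 : 0 < c' := by positivity
  set Y : ℕ → A := fun n => a * (xf ^ (2 * m)) n * a with hY
  have hY1 : ∀ n, 0 ≤ Y n ∧ Y n ≤ 1 := fun n => by
    have h0 : 0 ≤ (xf ^ (2 * m)) n := by
      rw [seq_pow_apply, two_mul, pow_add]
      exact ((IsSelfAdjoint.of_nonneg (hxf1 n).1).pow m).mul_self_nonneg
    have h1 : ‖(xf ^ (2 * m)) n‖ ≤ 1 := by
      rw [seq_pow_apply]
      exact (norm_pow_le _ _).trans (pow_le_one₀ (norm_nonneg _)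
        ((CStarAlgebra.norm_le_one_iff_of_nonneg _ (hxf1 n).1).2 (hxf1 n).2))
    have h2 : 0 ≤ Y n := ha.conjugate_nonneg h0
    exact ⟨h2, (CStarAlgebra.norm_le_one_iff_of_nonneg _ h2).1 ((norm_mul_le _ _).trans
      (mul_le_one₀ ((norm_mul_le _ _).trans (mul_le_one₀ ha1 (norm_nonneg _) h1))
        (norm_nonneg _) ha1))⟩
  set h : ℕ → A := fun n => cfc (fun t : ℝ => max (t - 1 / 4) 0) (Y n) with hh
  have hh1 : ∀ n, 0 ≤ h n ∧ h n ≤ 1 := fun n => by
    refine ⟨cfc_nonneg fun t _ => le_max_right _ _, cfc_le_one _ _ fun t ht => max_le ?_ zero_le_one⟩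
    have := (CFC.le_one_iff (R := ℝ) (Y n) (IsSelfAdjoint.of_nonneg (hY1 n).1)).1 (hY1 n).2 t ht
    linarith
  obtain ⟨τ₀, hτ₀⟩ := hT
  have hle : (ω : Filter ℕ) ≤ atTop := Nat.cofinite_eq_atTop ▸ hω
  set good : ℕ → ℕ → Prop := fun j n => j ≤ n ∧ ∃ t : A, ‖t‖ ≤ 3 ∧
    ‖star t * Y n * t - xe n‖ ≤ 1 / ((j : ℝ) + 1)
  have hgood : ∀ j, ∀ᶠ n in (ω : Filter ℕ), good j n := fun j => by
    have hξ : (0 : ℝ) < 1 / ((j : ℝ) + 1) / 2 := by positivity
    obtain ⟨ε₀, hε₀, hsub⟩ := hcmp c' hc'0 _ hξ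
    have hjn : ∀ᶠ n in (ω : Filter ℕ), j ≤ n := hle (eventually_ge_atTop j)
    filter_upwards [hjn, hmid m (q + 1), he ε₀ hε₀] with n hj hn hen
    have hb : ∀ σ : A →ₗ[ℂ] ℂ, IsTrace σ → c' ≤ (σ (h n)).re := fun σ hσ => by
      have h2 : κ ^ 2 ≤ (σ (Y n ^ p)).re := by
        have h3 := pow_le_pow_left₀ hκ.le (hn σ hσ) 2
        rw [hσ.tn_sq, ((IsSelfAdjoint.of_nonneg (hY1 n).1).pow _).star_eq, ← pow_add] at h3
        rw [hp, two_mul]
        exact h3
      have h4 := trace_pow_le_cut hσ (hY1 n).1 (hY1 n).2 p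
      rw [hc', div_le_iff₀ hp0]
      show κ ^ 2 / 2 ≤ (σ (h n)).re * p
      rw [hh]
      linarith
    have hne : h n ≠ 0 := fun h0 => by
      have := hb τ₀ hτ₀
      rw [h0, map_zero, Complex.zero_re] at this
      linarith
    obtain ⟨R, hR⟩ := hsub (xe n) (h n) (hxe1 n).1 (hxe1 n).2 (hh1 n).1 (hh1 n).2 hne
      (fun σ hσ => ⟨hen σ hσ, hb σ hσ⟩) _ hξ
    set cut : A := cfc (fun t : ℝ => max (t - 1 / ((j : ℝ) + 1) / 2) 0) (xe n)
    have hR0 : ‖star (R 0 0) * h n * R 0 0 - cut‖ < 1 / ((j : ℝ) + 1) / 2 := by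
      have := hR 0 0
      simpa using this
    have hcut : ‖cut - xe n‖ ≤ 1 / ((j : ℝ) + 1) / 2 := norm_cut_sub_le (hxe1 n).1 hξ.le
    have hR1 : ‖star (R 0 0) * h n * R 0 0 - xe n‖ ≤ 1 / ((j : ℝ) + 1) := by
      refine (norm_sub_le_norm_sub_add_norm_sub _ cut _).trans ?_
      linarith
    obtain ⟨t, ht, hte⟩ := exists_conj_bounded (hY1 n).1
      ((CStarAlgebra.norm_le_one_iff_of_nonneg _ (hxe1 n).1).2 (hxe1 n).2)
      (R := R 0 0) (hR1.trans (by
        rw [div_le_one (by positivity)]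
        exact le_add_of_nonneg_left (Nat.cast_nonneg j)))
    exact ⟨hj, t, ht, hte.symm ▸ hR1⟩
  set J : ℕ → ℕ := fun n => Nat.findGreatest (fun j => good j n) n
  have hJ : ∀ j n, good j n → good (J n) n ∧ j ≤ J n := fun j n hj =>
    ⟨Nat.findGreatest_spec (P := fun i => good i n) hj.1 hj,
      Nat.le_findGreatest (P := fun i => good i n) hj.1 hj⟩
  set t : ℕ → A := fun n => if h : good (J n) n then h.2.choose else 0 with ht
  have htb : ∀ n, ‖t n‖ ≤ 3 := fun n => by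
    simp only [ht]
    split_ifs with h
    · exact h.2.choose_spec.1
    · simp
  set T : BddSeq A := BddSeq.mk t 3 htb
  refine ⟨qmk ω T, ?_, ?_⟩
  · exact (Submodule.Quotient.norm_mk_le _ T).trans (BddSeq.norm_le (by norm_num) htb)
  · rw [← hxf, ← map_pow, cst_apply, Vale.Agent.P101.star_qmk]
    simp only [← map_mul]
    rw [← hxe]
    refine sub_eq_zero.1 ?_
    rw [← map_sub]
    refine qmk_eq_zero_of_eventually fun ε hε => ?_
    obtain ⟨K, hK⟩ := exists_nat_one_div_lt hε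
    filter_upwards [hgood K] with n hn
    obtain ⟨hg, hk⟩ := hJ K n hn
    have hnε : 1 / ((J n : ℝ) + 1) ≤ ε :=
      le_trans (one_div_le_one_div_of_le (by positivity)
        (add_le_add (Nat.cast_le.2 hk) le_rfl)) hK.le
    refine le_trans ?_ hnε
    show ‖star (t n) * (a * (xf ^ (2 * m)) n * a) * t n - xe n‖ ≤ _
    simp only [ht, dif_pos hg]
    exact hg.2.choose_spec.2

end

end Vale.Agent.P095.Lift
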