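import Vale.Agent.P095.Lift.SICore

/-!
# The lift of small elements below large ones: approximation and diagonal sequence
-/

set_option linter.unusedSectionVars false
set_option synthInstance.maxHeartbeats 100000

open Filter Topology TopologicalSpace
open Vale.Agent.P101 (CentralSeq Ultrapower BddSeq qmk qmk_eq_iff constSeq tendsto_norm_qmk)
open Vale.Agent.P095.Amenable (IsTrace Cong limTraces)
open scoped ComplexOrder Matrix.Norms.L2Operator

namespace Vale.Agent.P095.Lift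

noncomputable section

section Estimates

variable {U : Type} [CStarAlgebra U]

/-- A bound for commutators from four bounds for compressions. -/
theorem norm_commutator_sq_le {S Y E : U} (hE' : Commute E (star Y)) {δ : ℝ}
    (h1 : ‖star S * (star Y * Y) * S - E * (star Y * Y)‖ ≤ δ)
    (h2 : ‖star S * star Y * S - E * star Y‖ ≤ δ) (h3 : ‖star S * Y * S - E * Y‖ ≤ δ)
    (h4 : ‖star S * S - E‖ ≤ δ) : ‖Y * S - S * Y‖ ^ 2 ≤ δ * (1 + ‖Y‖) ^ 2 := by
  have e : star (Y * S - S * Y) * (Y * S - S * Y)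
      = (star S * (star Y * Y) * S - E * (star Y * Y))
        - (star S * star Y * S - E * star Y) * Y
        - star Y * (star S * Y * S - E * Y)
        + star Y * (star S * S - E) * Y := by
    have c1 : star Y * (E * Y) = E * (star Y * Y) := by rw [← mul_assoc, ← hE'.eq, mul_assoc]
    have c2 : star Y * E * Y = E * (star Y * Y) := by rw [mul_assoc, c1]
    simp only [star_sub, star_mul, sub_mul, mul_sub]
    rw [c1, c2]
    simp only [mul_assoc]
    abel
  have hδ : 0 ≤ δ := (norm_nonneg _).trans h4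
  have b2 : ‖(star S * star Y * S - E * star Y) * Y‖ ≤ δ * ‖Y‖ :=
    (norm_mul_le _ _).trans (mul_le_mul_of_nonneg_right h2 (norm_nonneg _))
  have b3 : ‖star Y * (star S * Y * S - E * Y)‖ ≤ ‖Y‖ * δ :=
    (norm_mul_le _ _).trans (by rw [norm_star]; exact mul_le_mul_of_nonneg_left h3 (norm_nonneg _))
  have b4 : ‖star Y * (star S * S - E) * Y‖ ≤ ‖Y‖ * δ * ‖Y‖ :=
    (norm_mul_le _ _).trans (mul_le_mul_of_nonneg_right ((norm_mul_le _ _).trans
      (by rw [norm_star]; exact mul_le_mul_of_nonneg_left h4 (norm_nonneg _))) (norm_nonneg _))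
  have hn : ‖star (Y * S - S * Y) * (Y * S - S * Y)‖ ≤ δ + δ * ‖Y‖ + ‖Y‖ * δ + ‖Y‖ * δ * ‖Y‖ := by
    rw [e]
    exact (norm_add_le _ _).trans (add_le_add ((norm_sub_le _ _).trans
      (add_le_add ((norm_sub_le _ _).trans (add_le_add h1 b2)) b3)) b4)
  rw [CStarRing.norm_star_mul_self] at hn
  nlinarith

variable {A : Type} [CStarAlgebra A] (C : A →⋆ₐ[ℂ] U) (hC : ∀ x, ‖C x‖ = ‖x‖)
include hC

/-- The compression of `y` by the sum of the pieces. -/
theorem norm_compress_le {P : Type} [Fintype P] (a : A) (ha : IsSelfAdjoint a) (d c : P → A)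
    (lamv s : P → P → ℂ) (z : A) (y : A) {T F E : U} (hT3 : ‖T‖ ≤ 3)
    (hF : IsSelfAdjoint F) (hF1 : ‖F‖ ≤ 1) (hE1 : ‖E‖ ≤ 1)
    (hFc : ∀ x : A, Commute F (C x)) (hEc : ∀ x : A, Commute E (C x))
    (hTE : star T * (C a * (F * F) * C a) * T = E) {η δ ε : ℝ}
    (hη : ∀ p q, ‖a * (star (d p) * y * d q) * a - lamv p q • (a * a)‖ ≤ η)
    (hδ : ∀ p q, ‖lamv p q - s p q‖ ≤ δ)
    (hz : ∑ p, ∑ q, s p q • (star (c p) * c q) = z) (hzy : ‖z - y‖ ≤ ε) :
    ‖star (∑ p, F * C (d p * a) * T * C (c p)) * C y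
        * (∑ p, F * C (d p * a) * T * C (c p)) - E * C y‖
      ≤ (∑ p, ‖c p‖) ^ 2 * (9 * η + δ) + ε := by
  set S := fun p => F * C (d p * a) * T * C (c p) with hS
  have hterm : ∀ p q, star (S p) * C y * S q
      = star (C (c p)) * (star T * (C (a * (star (d p) * y * d q) * a) * (F * F)) * T)
        * C (c q) := by
    intro p q
    have e : F * C y * F * C (d q * a) = C (y * (d q * a)) * (F * F) := by
      rw [(hFc y).eq, mul_assoc (C y * F) F, (hFc (d q * a)).eq, ← mul_assoc, mul_assoc (C y) F,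
        (hFc (d q * a)).eq, map_mul C y]
      simp only [mul_assoc]
    calc star (S p) * C y * S q
        = star (C (c p)) * (star T * (star (C (d p * a)) * (F * C y * F * C (d q * a))) * T)
          * C (c q) := by
          simp only [hS, star_mul, hF.star_eq, mul_assoc]
      _ = _ := by
          rw [e]
          congr 4
          rw [← mul_assoc, ← map_star, ← map_mul C]
          simp only [star_mul, ha.star_eq, mul_assoc]
  have hmain : ∀ p q, star (C (c p)) * (star T * (C (a * a) * (F * F)) * T) * C (c q)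
      = E * C (star (c p) * c q) := by
    intro p q
    have : C (a * a) * (F * F) = C a * (F * F) * C a := by
      rw [mul_assoc, ((hFc a).mul_left (hFc a)).eq, map_mul, mul_assoc]
    rw [this, hTE, map_mul, map_star C (c p), ← map_star C, ← (hEc _).eq, mul_assoc]
  have hpq : ∀ p q, ‖star (S p) * C y * S q - s p q • (E * C (star (c p) * c q))‖
      ≤ ‖c p‖ * ‖c q‖ * (9 * η + δ) := by
    intro p q
    rw [hterm]
    have e : star (C (c p)) * (star T * (C (a * (star (d p) * y * d q) * a) * (F * F)) * T)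
          * C (c q) - s p q • (E * C (star (c p) * c q))
        = star (C (c p)) * (star T * (C (a * (star (d p) * y * d q) * a - lamv p q • (a * a))
            * (F * F)) * T) * C (c q) + (lamv p q - s p q) • (E * C (star (c p) * c q)) := by
      rw [map_sub, map_smul, sub_mul, mul_sub, sub_mul, mul_sub, sub_mul, smul_mul_assoc,
        mul_smul_comm, smul_mul_assoc, mul_smul_comm, smul_mul_assoc, hmain, sub_smul]
      abel
    rw [e]
    have hη0 : 0 ≤ η := (norm_nonneg _).trans (hη p q)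
    have hFF : ‖F * F‖ ≤ 1 := (norm_mul_le _ _).trans (mul_le_one₀ hF1 (norm_nonneg _) hF1)
    have h1 : ‖star T * (C (a * (star (d p) * y * d q) * a - lamv p q • (a * a)) * (F * F)) * T‖
        ≤ 3 * (η * 1) * 3 := by
      refine (norm_mul_le _ _).trans (mul_le_mul ((norm_mul_le _ _).trans (mul_le_mul
        (by rw [norm_star]; exact hT3) ((norm_mul_le _ _).trans (mul_le_mul
          (by rw [hC]; exact hη p q) hFF (norm_nonneg _) hη0)) (norm_nonneg _)
        (by norm_num))) hT3 (norm_nonneg _) (by positivity))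
    have h2 : ‖star (C (c p)) * (star T * (C (a * (star (d p) * y * d q) * a
          - lamv p q • (a * a)) * (F * F)) * T) * C (c q)‖ ≤ ‖c p‖ * (3 * (η * 1) * 3) * ‖c q‖ := by
      refine (norm_mul_le _ _).trans (mul_le_mul ((norm_mul_le _ _).trans (mul_le_mul
        (by rw [norm_star, hC]) h1 (norm_nonneg _) (norm_nonneg _))) (le_of_eq (hC _))
        (norm_nonneg _) (by positivity))
    have h3 : ‖(lamv p q - s p q) • (E * C (star (c p) * c q))‖ ≤ δ * (‖c p‖ * ‖c q‖) := by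
      rw [norm_smul]
      refine mul_le_mul (hδ p q) ((norm_mul_le _ _).trans ?_) (norm_nonneg _)
        ((norm_nonneg _).trans (hδ p q))
      rw [hC]
      refine (mul_le_of_le_one_left (norm_nonneg _) hE1).trans ((norm_mul_le _ _).trans ?_)
      rw [norm_star]
    exact (norm_add_le _ _).trans ((add_le_add h2 h3).trans (le_of_eq (by ring)))
  have hsum : ∑ p, ∑ q, s p q • (E * C (star (c p) * c q)) = E * C z := by
    simp only [← hz, map_sum, map_smul, Finset.mul_sum, mul_smul_comm]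
  have e : star (∑ p, S p) * C y * (∑ p, S p) - E * C y
      = (∑ p, ∑ q, (star (S p) * C y * S q - s p q • (E * C (star (c p) * c q))))
        + E * C (z - y) := by
    rw [star_sum, Finset.sum_mul, Finset.sum_mul]
    simp only [Finset.mul_sum, Finset.sum_sub_distrib, hsum, map_sub, mul_sub]
    abel
  rw [e]
  refine (norm_add_le _ _).trans (add_le_add ?_ ?_)
  · refine (norm_sum_le _ _).trans ((Finset.sum_le_sum fun p _ => (norm_sum_le _ _).trans
      (Finset.sum_le_sum fun q _ => hpq p q)).trans (le_of_eq ?_))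
    rw [sq, Finset.sum_mul_sum, Finset.sum_mul]
    exact Finset.sum_congr rfl fun p _ => (Finset.sum_mul ..).symm
  · refine (norm_mul_le _ _).trans ?_
    rw [hC]
    exact (mul_le_of_le_one_left (norm_nonneg _) hE1).trans hzy

/-- The local approximation. -/
theorem exists_approx [PartialOrder U] [StarOrderedRing U] [PartialOrder A] [StarOrderedRing A]
    (hA : IsNuclear A) (av : ℕ → A) (lam : A →ₗ[ℂ] ℂ) (hav : ∀ i, IsSelfAdjoint (av i))
    (hlam : ∀ y, Tendsto (fun i => ‖av i * y * av i - lam y • (av i * av i)‖) atTop (𝓝 0))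
    (hvec : ∀ {k n : ℕ} (σ : A →ₗ[ℂ] Matrix (Fin k) (Fin k) ℂ), IsCPToMatrix σ → σ 1 = 1 →
      ∀ (s : Finset A) (δ : ℝ), 0 < δ → ∃ d : Fin n → Fin k → A, ∀ x ∈ s, ∀ l i m j,
        ‖lam (star (d l i) * x * d m j) - (if l = m then σ x i j else 0)‖ < δ)
    {E F : U} (hE01 : 0 ≤ E ∧ E ≤ 1) (hF01 : 0 ≤ F ∧ F ≤ 1)
    (hEc : ∀ x : A, Commute E (C x)) (hFc1 : ∀ x : A, Commute F (C x))
    (hbelow : ∀ i m : ℕ, ∃ T : U, ‖T‖ ≤ 3 ∧
      star T * (C (av i) * F ^ (2 * m) * C (av i)) * T = E)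
    (Fin₀ : Finset A) {ε : ℝ} (hε : 0 < ε) :
    ∃ S : U, ‖S‖ ≤ 2 ∧ ‖star S * S - E‖ ≤ ε ∧ ‖F * S - S‖ ≤ ε ∧
      ∀ y ∈ Fin₀, ‖C y * S - S * C y‖ ≤ ε := by
  classical
  rcases subsingleton_or_nontrivial U with hU | hU
  · exact ⟨0, by simp, by simp [Subsingleton.elim E 0, hε.le], by simp [hε.le],
      fun y _ => by simp [hε.le]⟩
  have hEn : ‖E‖ ≤ 1 := (CStarAlgebra.norm_le_one_iff_of_nonneg _ hE01.1).2 hE01.2
  set K : ℝ := 1 + ∑ y ∈ Fin₀, ‖y‖ with hK
  have hK1 : 1 ≤ K := le_add_of_nonneg_right (Finset.sum_nonneg fun _ _ => norm_nonneg _)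
  set δ₀ : ℝ := min 1 (min ε ((ε / (1 + K)) ^ 2))
  have hδ₀ : 0 < δ₀ := lt_min one_pos (lt_min hε (by positivity))
  set Ys : Finset A := insert 1 (Fin₀ ∪ Fin₀.image star ∪ Fin₀.image fun y => star y * y)
  obtain ⟨k, σ, ρ, hσ1, -, hσ, ⟨n, cc, hρ⟩, happ⟩ := hA Ys (δ₀ / 2) (half_pos hδ₀)
  set cp : Fin n × Fin k → A := fun p => cc p.1 p.2
  set Pc : ℝ := ∑ p, ‖cp p‖ with hPc
  have hPc0 : 0 ≤ Pc := Finset.sum_nonneg fun _ _ => norm_nonneg _
  set η : ℝ := δ₀ / (20 * (Pc ^ 2 + 1)) with hηdef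
  have hη0 : 0 < η := by positivity
  obtain ⟨d, hd⟩ := hvec (n := n) σ hσ hσ1 Ys η hη0
  set dp : Fin n × Fin k → A := fun p => d p.1 p.2
  have hexc : ∀ᶠ i in atTop, ∀ w : ↥Ys × (Fin n × Fin k) × (Fin n × Fin k),
      ‖av i * (star (dp w.2.1) * (w.1 : A) * dp w.2.2) * av i
        - lam (star (dp w.2.1) * (w.1 : A) * dp w.2.2) • (av i * av i)‖ ≤ η :=
    eventually_all.2 fun w => (hlam _).eventually_le_const hη0
  obtain ⟨i, hi⟩ := hexc.exists
  set a : A := av i
  have ha : IsSelfAdjoint a := hav i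
  set Pd : ℝ := ∑ p, ‖dp p * a‖ * 3 * ‖cp p‖ with hPd
  obtain ⟨m, hm⟩ := exists_nat_gt (Pd / ε)
  obtain ⟨T, hT3, hTE⟩ := hbelow i m
  have hFn : ∀ j : ℕ, ‖F ^ j‖ ≤ 1 := fun j => (norm_pow_le F j).trans (pow_le_one₀ (norm_nonneg _)
    ((CStarAlgebra.norm_le_one_iff_of_nonneg _ hF01.1).2 hF01.2))
  have hFsa : IsSelfAdjoint (F ^ m) := (IsSelfAdjoint.of_nonneg hF01.1).pow m
  have hFc : ∀ (j : ℕ) (x : A), Commute (F ^ j) (C x) := fun j x => (hFc1 x).pow_left j
  set S : U := ∑ p, F ^ m * C (dp p * a) * T * C (cp p) with hS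
  have hz : ∀ y : A, ∑ p : Fin n × Fin k, ∑ q : Fin n × Fin k,
      (if p.1 = q.1 then σ y p.2 q.2 else 0) • (star (cp p) * cp q) = ρ (σ y) := fun y => by
    simp [hρ, cp, Fintype.sum_prod_type, ite_smul]
  have hmain : ∀ y ∈ Ys, ‖star S * C y * S - E * C y‖ ≤ δ₀ := fun y hy => by
    refine (norm_compress_le C hC a ha dp cp (fun p q => lam (star (dp p) * y * dp q))
      (fun p q => if p.1 = q.1 then σ y p.2 q.2 else 0) _ y hT3 hFsa (hFn m) hEn (hFc m)
      hEc (by rw [← pow_add, ← two_mul]; exact hTE)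
      (fun p q => hi ⟨⟨y, hy⟩, p, q⟩) (fun p q => (hd y hy p.1 p.2 q.1 q.2).le) (hz y)
      (happ y hy).le).trans ?_
    have : Pc ^ 2 * (9 * η + η) ≤ δ₀ / 2 := by
      rw [hηdef]
      have h1 : Pc ^ 2 * (9 * (δ₀ / (20 * (Pc ^ 2 + 1))) + δ₀ / (20 * (Pc ^ 2 + 1)))
          = δ₀ / 2 * (Pc ^ 2 / (Pc ^ 2 + 1)) := by field_simp; ring
      rw [h1]
      exact mul_le_of_le_one_right (half_pos hδ₀).le ((div_le_one (by positivity)).2 (by linarith))
    linarith
  have h1 : ‖star S * S - E‖ ≤ δ₀ := by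
    simpa using hmain 1 (Finset.mem_insert_self _ _)
  refine ⟨S, ?_, h1.trans ((min_le_right _ _).trans (min_le_left _ _)), ?_, fun y hy => ?_⟩
  · have h2 : ‖star S * S‖ ≤ 2 := by
      have := norm_le_norm_add_norm_sub' (star S * S) E
      have := h1.trans (min_le_left _ _)
      linarith
    rw [CStarRing.norm_star_mul_self] at h2
    nlinarith [norm_nonneg S]
  · have e : F * S - S = ∑ p, (F ^ (m + 1) - F ^ m) * (C (dp p * a) * T * C (cp p)) := by
      rw [hS, Finset.mul_sum, ← Finset.sum_sub_distrib]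
      refine Finset.sum_congr rfl fun p _ => ?_
      rw [sub_mul, pow_succ']
      simp only [mul_assoc]
    rw [e]
    have hd' : Pd * (1 / ((m : ℝ) + 1)) ≤ ε := by
      rw [mul_one_div, div_le_iff₀ (by positivity)]
      rw [div_lt_iff₀ hε] at hm
      nlinarith
    refine ((norm_sum_le _ _).trans (Finset.sum_le_sum fun p _ => ?_)).trans
      ((le_of_eq (Finset.sum_mul ..).symm).trans hd')
    refine (norm_mul_le _ _).trans ?_
    rw [mul_comm _ (1 / ((m : ℝ) + 1))]
    refine mul_le_mul (norm_pow_succ_sub_le hF01.1 hF01.2 m) ?_ (norm_nonneg _) (by positivity)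
    exact (norm_mul_le _ _).trans (mul_le_mul ((norm_mul_le _ _).trans (mul_le_mul
      (le_of_eq (hC _)) hT3 (norm_nonneg _) (norm_nonneg _))) (le_of_eq (hC _))
      (norm_nonneg _) (by positivity))
  · have hy1 : y ∈ Ys := by simp [Ys, hy]
    have hy2 : star y ∈ Ys := by simp [Ys, hy]
    have hy3 : star y * y ∈ Ys :=
      Finset.mem_insert_of_mem (Finset.mem_union_right _ (Finset.mem_image_of_mem _ hy))
    have hsq := norm_commutator_sq_le (S := S) (Y := C y) (E := E)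
      (by rw [← map_star]; exact hEc _) (δ := δ₀)
      (by rw [← map_star, ← map_mul]; exact hmain _ hy3)
      (by rw [← map_star (C) y]; exact hmain _ hy2) (hmain y hy1) h1
    rw [hC] at hsq
    have hyK : ‖y‖ ≤ K := by
      have := Finset.single_le_sum (fun l _ => norm_nonneg l) hy
      linarith
    have : δ₀ * (1 + ‖y‖) ^ 2 ≤ ε ^ 2 := by
      calc δ₀ * (1 + ‖y‖) ^ 2 ≤ (ε / (1 + K)) ^ 2 * (1 + K) ^ 2 := by
            refine mul_le_mul ((min_le_right _ _).trans (min_le_right _ _))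
              (pow_le_pow_left₀ (by positivity) (by linarith) 2) (by positivity) (by positivity)
        _ = ε ^ 2 := by rw [← mul_pow, div_mul_cancel₀]; linarith
    exact (abs_le_of_sq_le_sq' (hsq.trans this) hε.le).2

end Estimates

variable {A : Type} [CStarAlgebra A] [Nontrivial A] [PartialOrder A] [StarOrderedRing A]
  {ω : Ultrafilter ℕ}

/-- Elements of the ultrapower commuting with constants are central sequences. -/
theorem exists_central_pair (e f : CentralSeq A ω) (z : Ultrapower A ω)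
    (hz : ∀ a : A, cst A ω a * z = z * cst A ω a) (hfz : (f : Ultrapower A ω) * z = z)
    (hze : star z * z = (e : Ultrapower A ω)) :
    ∃ s : CentralSeq A ω, f * s = s ∧ star s * s = e := by
  have hmem : z ∈ StarSubalgebra.centralizer ℂ (Set.range fun a : A => qmk ω (constSeq a)) := by
    rw [StarSubalgebra.mem_centralizer_iff]
    rintro _ ⟨a, rfl⟩
    refine ⟨hz a, ?_⟩
    show star (cst A ω a) * z = z * star (cst A ω a)
    rw [← map_star]
    exact hz _
  exact ⟨⟨z, hmem⟩, Subtype.ext hfz, Subtype.ext hze⟩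

/-- The diagonal sequence. -/
theorem exists_diagonal [SeparableSpace A] (hω : (ω : Filter ℕ) ≤ cofinite)
    {e f : CentralSeq A ω}
    (h : ∀ (Fin₀ : Finset A) (ε : ℝ), 0 < ε → ∃ S : Ultrapower A ω, ‖S‖ ≤ 2 ∧
      ‖star S * S - (e : Ultrapower A ω)‖ ≤ ε ∧ ‖(f : Ultrapower A ω) * S - S‖ ≤ ε ∧
      ∀ y ∈ Fin₀, ‖cst A ω y * S - S * cst A ω y‖ ≤ ε) :
    ∃ s : CentralSeq A ω, f * s = s ∧ star s * s = e := by
  classical
  obtain ⟨xe, hxe⟩ := Ideal.Quotient.mk_surjective (e : Ultrapower A ω)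
  obtain ⟨xf, hxf⟩ := Ideal.Quotient.mk_surjective (f : Ultrapower A ω)
  set δ : ℕ → ℝ := fun k => 1 / ((k : ℝ) + 1)
  have hδ : ∀ k, 0 < δ k := fun k => by positivity
  set dn : ℕ → A := denseSeq A
  choose S hS2 hSe hSf hSc using fun k => h ((Finset.range k).image dn) (δ k) (hδ k)
  choose r hr using fun k => Ideal.Quotient.mk_surjective (S k)
  have hr' : ∀ k, qmk ω (r k) = S k := hr
  set G : ℕ → ℕ → Prop := fun k n => k ≤ n ∧ ‖r k n‖ ≤ 3 ∧
    ‖(star (r k) * r k - xe) n‖ ≤ 2 * δ k ∧ ‖(xf * r k - r k) n‖ ≤ 2 * δ k ∧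
    ∀ j ∈ Finset.range k, ‖(constSeq (dn j) * r k - r k * constSeq (dn j)) n‖ ≤ 2 * δ k
  have hle : (ω : Filter ℕ) ≤ atTop := Nat.cofinite_eq_atTop ▸ hω
  have hev : ∀ (x : BddSeq A) {b b' : ℝ}, ‖qmk ω x‖ ≤ b → b < b' →
      ∀ᶠ n in (ω : Filter ℕ), ‖x n‖ ≤ b' := fun x b b' hb hb' =>
    (tendsto_norm_qmk ω x).eventually_le_const (hb.trans_lt hb')
  have hG : ∀ k, ∀ᶠ n in (ω : Filter ℕ), G k n := fun k => by
    have h1 : ∀ᶠ n in (ω : Filter ℕ), k ≤ n := hle (eventually_ge_atTop k)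
    refine h1.and ((hev _ (b := 2) (by rw [hr']; exact hS2 k) (by norm_num)).and
      ((hev _ (b := δ k) ?_ (by linarith [hδ k])).and ((hev _ (b := δ k) ?_
        (by linarith [hδ k])).and ((Filter.eventually_all_finset _).2 fun j hj =>
          hev _ (b := δ k) ?_ (by linarith [hδ k])))))
    · rw [map_sub, map_mul, ← Vale.Agent.P101.star_qmk, hr', hxe]; exact hSe k
    · rw [map_sub, map_mul, hr', hxf]; exact hSf k
    · rw [map_sub, map_mul, map_mul, hr']
      exact hSc k _ (Finset.mem_image_of_mem _ hj)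
  set κ : ℕ → ℕ := fun n => Nat.findGreatest (fun k => G k n) n
  have hκ : ∀ K n, G K n → G (κ n) n ∧ K ≤ κ n := fun K n hK =>
    ⟨Nat.findGreatest_spec (P := fun k => G k n) hK.1 hK,
      Nat.le_findGreatest (P := fun k => G k n) hK.1 hK⟩
  set sn : ℕ → A := fun n => if G (κ n) n then r (κ n) n else 0 with hsn
  have hsb : ∀ n, ‖sn n‖ ≤ 3 := fun n => by
    simp only [hsn]
    split_ifs with hg
    · exact hg.2.1
    · simp
  set s : BddSeq A := BddSeq.mk sn 3 hsb
  have hzero : ∀ (x : BddSeq A) (K₀ : ℕ), (∀ n, G (κ n) n → K₀ ≤ κ n → ‖x n‖ ≤ 2 * δ (κ n)) →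
      qmk ω x = 0 := fun x K₀ hx => by
    refine qmk_eq_zero_of_eventually fun ε hε => ?_
    obtain ⟨K₁, hK₁⟩ := exists_nat_gt (2 / ε)
    filter_upwards [hG (max K₀ K₁)] with n hn
    obtain ⟨hg, hk⟩ := hκ _ n hn
    refine (hx n hg ((le_max_left _ _).trans hk)).trans ?_
    have h1 : (K₁ : ℝ) ≤ κ n := by exact_mod_cast (le_max_right _ _).trans hk
    rw [div_lt_iff₀ hε] at hK₁
    show 2 * (1 / ((κ n : ℝ) + 1)) ≤ ε
    rw [mul_one_div, div_le_iff₀ (by positivity)]
    nlinarith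
  have hcomm : ∀ a : A, cst A ω a * qmk ω s = qmk ω s * cst A ω a := fun a => by
    refine (denseRange_denseSeq A).induction_on a (isClosed_eq ?_ ?_) fun j => ?_
    · exact (AddMonoidHomClass.isometry_of_norm (cst A ω) norm_cst).continuous.mul continuous_const
    · exact continuous_const.mul (AddMonoidHomClass.isometry_of_norm (cst A ω) norm_cst).continuous
    · rw [cst_apply, ← map_mul, ← map_mul, ← sub_eq_zero, ← map_sub]
      refine hzero _ (j + 1) fun n hg hk => ?_
      show ‖dn j * sn n - sn n * dn j‖ ≤ _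
      simp only [hsn, if_pos hg]
      exact hg.2.2.2.2 j (Finset.mem_range.2 hk)
  have hfs : qmk ω (xf * s - s) = 0 := hzero _ 0 fun n hg _ => by
    show ‖xf n * sn n - sn n‖ ≤ _
    simp only [hsn, if_pos hg]
    exact hg.2.2.2.1
  have hse : qmk ω (star s * s - xe) = 0 := hzero _ 0 fun n hg _ => by
    show ‖star (sn n) * sn n - xe n‖ ≤ _
    simp only [hsn, if_pos hg]
    exact hg.2.2.1
  refine exists_central_pair e f (qmk ω s) hcomm ?_ ?_
  · rw [map_sub, map_mul, sub_eq_zero] at hfs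
    exact hxf ▸ hfs
  · rw [map_sub, map_mul, ← Vale.Agent.P101.star_qmk, sub_eq_zero] at hse
    exact hse.trans hxe

/-- Small elements lie below large ones, given comparison, excision and vectors. -/
theorem exists_si_of {A : Type} [CStarAlgebra A] [Nontrivial A] [SeparableSpace A]
    [PartialOrder A] [StarOrderedRing A] [IsSimpleRing A] {ω : Ultrafilter ℕ}
    (hω : (ω : Filter ℕ) ≤ cofinite) (hcmp : HasCompare A) (hA : IsNuclear A)
    (hT : ∃ τ : A →ₗ[ℂ] ℂ, IsTrace τ) (av : ℕ → A) (lam : A →ₗ[ℂ] ℂ)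
    (hav : ∀ i, 0 ≤ av i ∧ ‖av i‖ = 1) (hava : ∀ i, av i * av (i + 1) = av (i + 1))
    (hlam : ∀ y, Tendsto (fun i => ‖av i * y * av i - lam y • (av i * av i)‖) atTop (𝓝 0))
    (hvec : ∀ {k n : ℕ} (σ : A →ₗ[ℂ] Matrix (Fin k) (Fin k) ℂ), IsCPToMatrix σ → σ 1 = 1 →
      ∀ (s : Finset A) (δ : ℝ), 0 < δ → ∃ d : Fin n → Fin k → A, ∀ x ∈ s, ∀ l i m j,
        ‖lam (star (d l i) * x * d m j) - (if l = m then σ x i j else 0)‖ < δ)
    [PartialOrder (CentralSeq A ω)] [StarOrderedRing (CentralSeq A ω)]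
    {e f : CentralSeq A ω} (he0 : 0 ≤ e) (he1 : e ≤ 1) (hf0 : 0 ≤ f) (hf1 : f ≤ 1)
    (he : Cong (limTraces A ω) e 0) {c : ℝ} (hc : 0 < c)
    (hf : ∀ m : ℕ, ∀ τ ∈ limTraces A ω, c ≤ (τ (f ^ m)).re) :
    ∃ s : CentralSeq A ω, f * s = s ∧ star s * s = e := by
  obtain ⟨he', he''⟩ := coe_mem_unit he0 he1
  obtain ⟨hf', hf''⟩ := coe_mem_unit hf0 hf1
  let : PartialOrder (Ultrapower A ω) := CStarAlgebra.spectralOrder _
  have : StarOrderedRing (Ultrapower A ω) := CStarAlgebra.spectralOrderedRing _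
  have hE01 := unit_of_eq he' he''
  have hF01 := unit_of_eq hf' hf''
  obtain ⟨xe, hxe, hxe1⟩ := exists_rep01 hE01.1 hE01.2
  obtain ⟨xf, hxf, hxf1⟩ := exists_rep01 hF01.1 hF01.2
  have hbelow : ∀ i m : ℕ, ∃ T : Ultrapower A ω, ‖T‖ ≤ 3 ∧ star T *
      (cst A ω (av i) * (f : Ultrapower A ω) ^ (2 * m) * cst A ω (av i)) * T
        = (e : Ultrapower A ω) := fun i m => by
    have ha0 : av (i + 1) ≠ 0 := fun h => by
      have := (hav (i + 1)).2
      rw [h, norm_zero] at this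
      exact zero_ne_one this
    have haa : av (i + 1) * av i = av (i + 1) := by
      have := congrArg star (hava i)
      rwa [star_mul, (IsSelfAdjoint.of_nonneg (hav (i + 1)).1).star_eq,
        (IsSelfAdjoint.of_nonneg (hav i).1).star_eq] at this
    exact exists_below hω hcmp hT (IsSelfAdjoint.of_nonneg (hav i).1) (hav i).2.le ha0
      (hav (i + 1)).2.le haa hxe hxe1 hxf hxf1 (fun ε hε => eventually_null hT hxe he hε)
      (half_pos hc) (fun M => eventually_pow_le hT hxf hc hf M) m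
  exact exists_diagonal hω fun Fin₀ ε hε => exists_approx (cst A ω) norm_cst hA av lam
    (fun i => IsSelfAdjoint.of_nonneg (hav i).1) hlam hvec hE01 hF01 (central_comm e)
    (central_comm f) hbelow Fin₀ hε

end

end Vale.Agent.P095.Lift
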