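import Mathlib

/-!
# Orthogonal monomials over mutually commuting slots

In the inductive step of the lift (PROOF.md, IV) a symmetrised vector is built from the elements
`s a i` of many slots `i`. The pads `r i` make different sets of slots orthogonal, and the average
over the sets of size `m` is close to the `m`th power of the average over the slots.
-/

open Finset

namespace Vale.Agent.P095.Lift

variable {F : Type*} [CStarAlgebra F] {M : ℕ}

/-- Slot data: mutually commuting slots and pads `r` killed by the stars of the slot elements. -/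
structure SlotData {Q : Type*} (s : Q → Fin M → F) (r : Fin M → F) : Prop where
  comm_s : ∀ a b i j, i ≠ j → Commute (s a i) (s b j)
  comm_star : ∀ a b i j, i ≠ j → Commute (star (s a i)) (s b j)
  comm_sr : ∀ a i j, i ≠ j → Commute (s a i) (r j)
  comm_r : ∀ i j, Commute (r i) (r j)
  sa_r : ∀ i, IsSelfAdjoint (r i)
  kill : ∀ a i, star (s a i) * r i = 0
  norm_le : ∀ a i, ‖s a i‖ ≤ 1
  r_le : ∀ i, ‖r i‖ ≤ 1

section Products

variable {ι : Type*}

lemma pwc {g : ι → F} (h : ∀ i j, i ≠ j → Commute (g i) (g j)) (S : Set ι) :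
    S.Pairwise (Function.onFun Commute g) := fun i _ j _ hij => h i j hij

/-- A product of elements of norm at most one has norm at most one. -/
lemma norm_noncommProd_le_one (S : Finset ι) (g : ι → F)
    (hc : (S : Set ι).Pairwise (Function.onFun Commute g)) (hg : ∀ i ∈ S, ‖g i‖ ≤ 1) :
    ‖S.noncommProd g hc‖ ≤ 1 := by
  classical
  induction S using Finset.induction_on with
  | empty =>
    rw [noncommProd_empty]
    rcases subsingleton_or_nontrivial F with hF | hF
    · simp [Subsingleton.elim (1 : F) 0]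
    · exact (CStarRing.norm_one (E := F)).le
  | insert i S hi ih =>
    rw [noncommProd_insert_of_notMem _ _ _ _ hi]
    exact (norm_mul_le _ _).trans (mul_le_one₀ (hg i (mem_insert_self _ _)) (norm_nonneg _)
      (ih _ fun j hj => hg j (mem_insert_of_mem hj)))

end Products

section Average

variable {K : Fin M → F} (hK : ∀ i j, Commute (K i) (K j))

/-- The sum of the products over the sets of size `m`. -/
noncomputable def symSum (m : ℕ) : F :=
  ∑ S ∈ (univ : Finset (Fin M)).powersetCard m, S.noncommProd K (pwc (fun i j _ => hK i j) _)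

lemma symSum_zero : symSum hK 0 = 1 := by simp [symSum]

lemma norm_symSum_le (hn : ∀ i, ‖K i‖ ≤ 1) (m : ℕ) : ‖symSum hK m‖ ≤ M.choose m := by
  refine (norm_sum_le _ _).trans ((sum_le_sum fun S _ =>
    norm_noncommProd_le_one S K _ fun i _ => hn i).trans ?_)
  simp [card_powersetCard]

/-- Multiplying the sum over the sets of size `m` by the sum over the slots. -/
lemma sum_mul_symSum (m : ℕ) :
    (∑ i, K i) * symSum hK m = (m + 1) • symSum hK (m + 1) +
      ∑ S ∈ (univ : Finset (Fin M)).powersetCard m, ∑ i ∈ S,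
        K i * S.noncommProd K (pwc (fun i j _ => hK i j) _) := by
  classical
  have h1 : (m + 1) • symSum hK (m + 1) =
      ∑ S ∈ (univ : Finset (Fin M)).powersetCard m, ∑ i ∈ Sᶜ,
        K i * S.noncommProd K (pwc (fun i j _ => hK i j) _) := by
    calc (m + 1) • symSum hK (m + 1)
        = ∑ T ∈ (univ : Finset (Fin M)).powersetCard (m + 1), ∑ _i ∈ T,
            T.noncommProd K (pwc (fun i j _ => hK i j) _) := by
          rw [symSum, smul_sum]
          refine sum_congr rfl fun T hT => ?_
          rw [sum_const, (mem_powersetCard.1 hT).2]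
      _ = _ := by
          rw [sum_sigma', sum_sigma']
          refine sum_bij' (fun p _ => ⟨p.1.erase p.2, p.2⟩) (fun p _ => ⟨insert p.2 p.1, p.2⟩)
            (fun p hp => ?_) (fun p hp => ?_) (fun p hp => ?_) (fun p hp => ?_) (fun p hp => ?_)
          · simp only [mem_sigma, mem_powersetCard, subset_univ, true_and, mem_compl] at hp ⊢
            simp [card_erase_of_mem hp.2, hp.1]
          · simp only [mem_sigma, mem_powersetCard, subset_univ, true_and, mem_compl] at hp ⊢
            simp [card_insert_of_notMem hp.2, hp.1]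
          · simp only [mem_sigma] at hp
            simp [insert_erase hp.2]
          · simp only [mem_sigma, mem_compl] at hp
            simp [erase_insert hp.2]
          · simp only [mem_sigma] at hp
            exact (mul_noncommProd_erase _ hp.2 K _).symm
  rw [h1, symSum, mul_sum, ← sum_add_distrib]
  refine sum_congr rfl fun S _ => ?_
  rw [sum_mul, add_comm, sum_add_sum_compl]

/-- The average over the sets of size `m`. -/
noncomputable def symAvg (m : ℕ) : F := ((M.choose m : ℝ)⁻¹) • symSum hK m

lemma norm_symAvg_le (hn : ∀ i, ‖K i‖ ≤ 1) (m : ℕ) : ‖symAvg hK m‖ ≤ 1 := by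
  rw [symAvg, norm_smul, norm_inv, Real.norm_natCast]
  exact (mul_le_mul_of_nonneg_left (norm_symSum_le hK hn m) (by positivity)).trans
    inv_mul_le_one

lemma norm_avg_le (hn : ∀ i, ‖K i‖ ≤ 1) : ‖(M : ℝ)⁻¹ • ∑ i, K i‖ ≤ 1 := by
  rw [norm_smul, norm_inv, Real.norm_natCast]
  refine (mul_le_mul_of_nonneg_left ((norm_sum_le _ _).trans
    ((sum_le_sum fun i _ => hn i).trans (le_of_eq ?_))) (by positivity)).trans inv_mul_le_one
  simp

lemma norm_symAvg_succ_le (hn : ∀ i, ‖K i‖ ≤ 1) {m : ℕ} (hm : m + 1 ≤ M) :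
    ‖symAvg hK (m + 1) - ((M : ℝ)⁻¹ • ∑ i, K i) * symAvg hK m‖ ≤ 2 * m / M := by
  have hM : (0 : ℝ) < M := by exact_mod_cast (Nat.lt_of_lt_of_le (Nat.succ_pos m) hm)
  have hc : (0 : ℝ) < M.choose m := by exact_mod_cast Nat.choose_pos (by omega)
  have hc1 : (0 : ℝ) < M.choose (m + 1) := by exact_mod_cast Nat.choose_pos hm
  have hid : ((m : ℝ) + 1) * M.choose (m + 1) = ((M : ℝ) - m) * M.choose m := by
    have h := congrArg (fun n : ℕ => (n : ℝ)) (Nat.choose_succ_right_eq M m)
    push_cast [Nat.cast_sub (by omega : m ≤ M)] at h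
    linarith
  set rem : F := ∑ S ∈ (univ : Finset (Fin M)).powersetCard m, ∑ i ∈ S,
    K i * S.noncommProd K (pwc (fun i j _ => hK i j) _)
  have hrem : ‖rem‖ ≤ m * M.choose m := by
    refine (norm_sum_le _ _).trans ((sum_le_sum (g := fun _ => (m : ℝ)) fun S hS => ?_).trans ?_)
    · refine (norm_sum_le _ _).trans ((sum_le_sum fun i _ => (norm_mul_le _ _).trans
        (mul_le_one₀ (hn i) (norm_nonneg _) (norm_noncommProd_le_one S K _ fun j _ => hn j))).trans
        (le_of_eq ?_))
      simp [(mem_powersetCard.1 hS).2]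
    · simp [card_powersetCard, mul_comm]
  have e : ((M : ℝ)⁻¹ • ∑ i, K i) * symAvg hK m =
      (1 - (m : ℝ) / M) • symAvg hK (m + 1) + ((M : ℝ)⁻¹ * (M.choose m : ℝ)⁻¹) • rem := by
    rw [symAvg, symAvg, smul_mul_smul_comm, sum_mul_symSum hK m, smul_add, smul_smul]
    refine congrArg₂ (· + ·) ?_ rfl
    rw [← Nat.cast_smul_eq_nsmul ℝ (m + 1), smul_smul]
    congr 1
    push_cast
    field_simp
    linarith
  have e2 : symAvg hK (m + 1) - ((M : ℝ)⁻¹ • ∑ i, K i) * symAvg hK m =
      ((m : ℝ) / M) • symAvg hK (m + 1) - ((M : ℝ)⁻¹ * (M.choose m : ℝ)⁻¹) • rem := by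
    rw [e, sub_smul, one_smul]
    abel
  rw [e2]
  refine (norm_sub_le _ _).trans ?_
  rw [norm_smul, norm_smul, Real.norm_of_nonneg (by positivity), Real.norm_of_nonneg (by positivity)]
  have k1 := mul_le_mul_of_nonneg_left (norm_symAvg_le hK hn (m + 1))
    (by positivity : 0 ≤ (m : ℝ) / M)
  have k2 := mul_le_mul_of_nonneg_left hrem (by positivity : 0 ≤ (M : ℝ)⁻¹ * (M.choose m : ℝ)⁻¹)
  have k3 : (M : ℝ)⁻¹ * (M.choose m : ℝ)⁻¹ * (m * M.choose m) = (m : ℝ) / M := by field_simp
  have k4 : 2 * (m : ℝ) / M = m / M + m / M := by ring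
  linarith

/-- The average over the sets of size `m` is close to a power of the average over the slots. -/
lemma norm_symAvg_sub_pow_le (hn : ∀ i, ‖K i‖ ≤ 1) :
    ∀ m, m ≤ M → ‖symAvg hK m - ((M : ℝ)⁻¹ • ∑ i, K i) ^ m‖ ≤ 2 * (m : ℝ) ^ 2 / M := by
  intro m
  induction m with
  | zero => intro _; simp [symAvg, symSum_zero]
  | succ m ih =>
    intro hm
    set X := (M : ℝ)⁻¹ • ∑ i, K i
    have e : symAvg hK (m + 1) - X ^ (m + 1) =
        (symAvg hK (m + 1) - X * symAvg hK m) + X * (symAvg hK m - X ^ m) := by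
      rw [pow_succ', mul_sub]; abel
    rw [e]
    refine (norm_add_le _ _).trans ?_
    have h2 : ‖X * (symAvg hK m - X ^ m)‖ ≤ ‖symAvg hK m - X ^ m‖ :=
      (norm_mul_le _ _).trans (mul_le_of_le_one_left (norm_nonneg _) (norm_avg_le hn))
    have h3 := norm_symAvg_succ_le hK hn hm
    have h4 := ih (by omega)
    have hM : (0 : ℝ) < M := by exact_mod_cast (Nat.lt_of_lt_of_le (Nat.succ_pos m) hm)
    have h5 : 2 * (m : ℝ) / M + 2 * (m : ℝ) ^ 2 / M ≤ 2 * ((m + 1 : ℕ) : ℝ) ^ 2 / M := by
      rw [← add_div, div_le_div_iff_of_pos_right hM]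
      push_cast
      nlinarith
    linarith

end Average

namespace SlotData

variable {Q : Type*} {s : Q → Fin M → F} {r : Fin M → F} (h : SlotData s r)

/-- The product of the pads. -/
noncomputable def pad : F := univ.noncommProd r (pwc (fun i j _ => h.comm_r i j) _)

/-- The product of the elements of the slots in `S`. -/
noncomputable def mono (a : Q) (S : Finset (Fin M)) : F :=
  S.noncommProd (s a) (pwc (fun i j hij => h.comm_s a a i j hij) _)

lemma star_pad : star h.pad = h.pad := by
  suffices H : ∀ S : Finset (Fin M),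
      star (S.noncommProd r (pwc (fun i j _ => h.comm_r i j) _)) =
        S.noncommProd r (pwc (fun i j _ => h.comm_r i j) _) from H univ
  intro S
  induction S using Finset.induction_on with
  | empty => simp
  | insert i S hi ih =>
    rw [noncommProd_insert_of_notMem _ _ _ _ hi, star_mul, ih, (h.sa_r i).star_eq]
    exact (noncommProd_commute _ _ _ _ fun j _ => h.comm_r i j).symm.eq

lemma norm_pad_le : ‖h.pad‖ ≤ 1 := norm_noncommProd_le_one _ _ _ fun i _ => h.r_le i

lemma mono_erase (a : Q) {S : Finset (Fin M)} {i : Fin M} (hi : i ∈ S) :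
    h.mono a S = s a i * h.mono a (S.erase i) :=
  (mul_noncommProd_erase _ hi _ _).symm

/-- A slot outside `S` is killed by the pads, also behind a monomial of `S`. -/
lemma star_mul_mono_pad (a b : Q) {S : Finset (Fin M)} {i : Fin M} (hi : i ∉ S) :
    star (s a i) * (h.mono b S * h.pad) = 0 := by
  have hc : Commute (star (s a i)) (h.mono b S) :=
    noncommProd_commute _ _ _ _ fun j hj => h.comm_star a b i j fun e => hi (e ▸ hj)
  rw [← mul_assoc, hc.eq, mul_assoc, pad,
    ← mul_noncommProd_erase (univ : Finset (Fin M)) (mem_univ i) r _, ← mul_assoc (star (s a i)),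
    h.kill, zero_mul, mul_zero]

/-- Different sets of slots are orthogonal. -/
lemma orth (a b : Q) {S S' : Finset (Fin M)} (hne : S ≠ S') :
    star (h.mono a S * h.pad) * (h.mono b S' * h.pad) = 0 := by
  have key : ∀ (a b : Q) (S S' : Finset (Fin M)), ∀ i ∈ S, i ∉ S' →
      star (h.mono a S * h.pad) * (h.mono b S' * h.pad) = 0 := fun a b S S' i hi hi' => by
    rw [star_mul, h.mono_erase a hi, star_mul, mul_assoc, mul_assoc,
      h.star_mul_mono_pad a b hi', mul_zero, mul_zero]
  by_cases hsub : S ⊆ S'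
  · obtain ⟨i, hi', hi⟩ : ∃ i ∈ S', i ∉ S := by
      by_contra hc
      push Not at hc
      exact hne (subset_antisymm hsub hc)
    have := congrArg star (key b a S' S i hi' hi)
    rwa [star_mul, star_star, star_zero] at this
  · obtain ⟨i, hi, hi'⟩ := not_subset.1 hsub
    exact key a b S S' i hi hi'

include h in
lemma comm_K (a b : Q) (i j : Fin M) :
    Commute (star (s a i) * s b i) (star (s a j) * s b j) := by
  rcases eq_or_ne i j with rfl | hij
  · exact Commute.refl _
  · exact ((h.comm_s a a i j hij).star_star.mul_right (h.comm_star a b i j hij)).mul_left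
      ((h.comm_star a b j i hij.symm).symm.mul_right (h.comm_s b b i j hij))

/-- The monomials of one set multiply slot by slot. -/
lemma star_mono_mul (a b : Q) (S : Finset (Fin M)) :
    star (h.mono a S) * h.mono b S =
      S.noncommProd (fun i => star (s a i) * s b i) (pwc (fun i j _ => h.comm_K a b i j) _) := by
  induction S using Finset.induction_on with
  | empty => simp [mono]
  | insert i S hi ih =>
    have hc : Commute (star (s a i) * s b i) (star (h.mono a S)) := by
      suffices H : Commute (star (star (s a i) * s b i)) (h.mono a S) by simpa using H.star_star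
      refine noncommProd_commute _ _ _ _ fun j hj => ?_
      have hij : i ≠ j := fun e => hi (e ▸ hj)
      rw [star_mul, star_star]
      exact (h.comm_star b a i j hij).mul_left (h.comm_s a a i j hij)
    rw [mono, mono, noncommProd_insert_of_notMem _ _ _ _ hi,
      noncommProd_insert_of_notMem _ _ _ _ hi, noncommProd_insert_of_notMem _ _ _ _ hi]
    change star (s a i * h.mono a S) * (s b i * h.mono b S) = _
    rw [star_mul, mul_assoc, ← mul_assoc (star (s a i)), ← mul_assoc, ← hc.eq, mul_assoc, ih]

end SlotData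

/-- The symmetrised vectors of slot data (IFACE E2). -/
theorem exists_slot_monomials {Q : Type*} [Finite Q] {s : Q → Fin M → F} {r : Fin M → F}
    (h : SlotData s r) (w : ℕ → ℝ) (hw : ∀ m, 0 ≤ w m) (L : ℕ) (hL : L ≤ M) :
    ∃ Ξ : Q → F, (∀ f : F, (∀ i a, f * s a i = s a i) → ∀ a, f * Ξ a = Ξ a) ∧
      (∀ α : F ≃⋆ₐ[ℂ] F, ∀ a b, (∀ i, α (s a i) = s b i) → (∀ i, α (r i) = r i) → α (Ξ a) = Ξ b) ∧
      ∀ a b, ‖star (Ξ a) * Ξ b
        - (Finset.univ.noncommProd r fun i _ j _ _ => h.comm_r i j)
          * (∑ m ∈ Finset.Ico 1 L, w m • (((M : ℂ)⁻¹ • ∑ i, star (s a i) * s b i) ^ m))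
          * (Finset.univ.noncommProd r fun i _ j _ _ => h.comm_r i j)‖
        ≤ (∑ m ∈ Finset.Ico 1 L, w m) * (2 * (L : ℝ) ^ 2 / M) := by
  set c : ℕ → ℝ := fun m => Real.sqrt (w m / M.choose m) with hcdef
  refine ⟨fun a => ∑ m ∈ Ico 1 L, ∑ S ∈ (univ : Finset (Fin M)).powersetCard m,
    c m • (h.mono a S * h.pad), fun f hf a => ?_, fun α a b hs hr => ?_, fun a b => ?_⟩
  · simp only [mul_sum, mul_smul_comm]
    refine sum_congr rfl fun m hm => sum_congr rfl fun S hS => ?_
    obtain ⟨i, hi⟩ := card_pos.1 (by rw [(mem_powersetCard.1 hS).2]; exact (mem_Ico.1 hm).1)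
    rw [h.mono_erase a hi, mul_assoc (s a i), ← mul_assoc f, hf]
  · have hm : ∀ S, α (h.mono a S) = h.mono b S := fun S => by
      rw [SlotData.mono, SlotData.mono, map_noncommProd]
      exact noncommProd_congr rfl (fun i _ => hs i) _
    have hp : α h.pad = h.pad := by
      rw [SlotData.pad, map_noncommProd]
      exact noncommProd_congr rfl (fun i _ => hr i) _
    simp only [map_sum, ← Complex.coe_smul, map_smul, map_mul, hm, hp]
  · set X := (M : ℝ)⁻¹ • ∑ i, star (s a i) * s b i
    have hX : (M : ℂ)⁻¹ • ∑ i, star (s a i) * s b i = X := by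
      rw [show X = (M : ℝ)⁻¹ • ∑ i, star (s a i) * s b i from rfl, ← Complex.coe_smul]
      simp
    have hn : ∀ i, ‖star (s a i) * s b i‖ ≤ 1 := fun i => (norm_mul_le _ _).trans
      (mul_le_one₀ ((norm_star _).trans_le (h.norm_le a i)) (norm_nonneg _) (h.norm_le b i))
    have e : star (∑ m ∈ Ico 1 L, ∑ S ∈ (univ : Finset (Fin M)).powersetCard m,
          c m • (h.mono a S * h.pad)) *
        (∑ m ∈ Ico 1 L, ∑ S ∈ (univ : Finset (Fin M)).powersetCard m,
          c m • (h.mono b S * h.pad)) =
        h.pad * (∑ m ∈ Ico 1 L, w m • symAvg (h.comm_K a b) m) * h.pad := by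
      simp only [star_sum, sum_mul, mul_sum, symAvg, symSum, smul_sum, smul_smul]
      refine sum_congr rfl fun m hm => sum_congr rfl fun S hS => ?_
      rw [sum_eq_single m (fun m' _ hne => ?_) (fun hn => absurd hm hn),
        sum_eq_single S (fun S' _ hne => ?_) (fun hn => absurd hS hn)]
      · rw [star_smul, star_trivial, smul_mul_smul_comm, star_mul, h.star_pad, mul_assoc,
          ← mul_assoc (star (h.mono a S)), h.star_mono_mul, mul_smul_comm, smul_mul_assoc,
          mul_assoc]
        congr 1
        rw [hcdef, Real.mul_self_sqrt (div_nonneg (hw m) (Nat.cast_nonneg _)), div_eq_mul_inv]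
      · rw [star_smul, star_trivial, smul_mul_smul_comm, h.orth a b hne, smul_zero]
      · refine sum_eq_zero fun S' hS' => ?_
        rw [star_smul, star_trivial, smul_mul_smul_comm, h.orth a b ?_, smul_zero]
        rintro rfl
        exact hne ((mem_powersetCard.1 hS').2.symm.trans (mem_powersetCard.1 hS).2)
    change ‖_ - h.pad * _ * h.pad‖ ≤ _
    rw [e, hX, ← sub_mul, ← mul_sub, ← sum_sub_distrib]
    refine (norm_mul_le _ _).trans ((mul_le_of_le_one_right (norm_nonneg _) h.norm_pad_le).trans
      ((norm_mul_le _ _).trans ((mul_le_of_le_one_left (norm_nonneg _) h.norm_pad_le).trans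
        ((norm_sum_le _ _).trans ?_))))
    rw [sum_mul]
    refine sum_le_sum fun m hm => ?_
    have hmL := (mem_Ico.1 hm).2
    rw [← smul_sub, norm_smul, Real.norm_of_nonneg (hw m)]
    refine mul_le_mul_of_nonneg_left ((norm_symAvg_sub_pow_le (h.comm_K a b) hn m
      (by omega)).trans ?_) (hw m)
    gcongr

end Vale.Agent.P095.Lift
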